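import Vale.Agent.P168.MBasic

/-! P168 AProp: the copy-or-fresh identity.
Plan. Fix `p ≤ n`, `E`. Let `f = 1_E`, `f'` a version of `ν[f | Fs p]` clipped to `[0,1]`
(`max 0 (min 1 ·)`; a.e. equal by `condExp_nonneg`, `condExp_mono`; `isFf_of_measurable_Fs`), so
`∫ f g = ∫ f' g` for `IsFf p g` (pull-out, `condExp_mul_of_stronglyMeasurable_right`, or
`setIntegral_condExp` and approximation). Put `y l = res (p+1) ∘ act (swap p l)`. The finite
measures `α = n • (ν.restrict E).map (y n)` and
`α' = ∑ l ∈ Ico p n, (ν.restrict E).map (y l) + p • (ν.withDensity (ofReal ∘ f')).map (y p)` on `X`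
have the same integrals of every `mono J`: if all supports in `J` are `≤ p` use `mekD_cond`
(`mono J ∘ res (p+1) = mono J`, `swap p p = refl`, `act_one`), otherwise `mono J ∘ res (p+1) = 0`.
`ext_mono` (Stone-Weierstrass: the span of the `mono J` is a subalgebra of `C(X, ℝ)` separating
points, `ContinuousMap.subalgebra_topologicalClosure_eq_top_of_separatesPoints`, then
`ext_of_forall_integral_eq_of_IsFiniteMeasure`) gives `α = α'`; evaluate on `Γ`. -/

open MeasureTheory ProbabilityTheory Function Filter Topology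
open scoped BigOperators

noncomputable section

namespace Vale.Agent.P168

theorem aprop_integrable (α : Measure X) [IsFiniteMeasure α] {F : X → ℝ} (hF : Measurable F)
    {c : ℝ} (hc : ∀ ω, |F ω| ≤ c) : Integrable F α :=
  Integrable.of_bound hF.aestronglyMeasurable c (Eventually.of_forall hc)

/-- integration as a continuous linear functional -/
def apropL (α : Measure X) [IsFiniteMeasure α] : C(X, ℝ) →L[ℝ] ℝ :=
  LinearMap.mkContinuous
    { toFun := fun f => ∫ ω, f ω ∂α
      map_add' := fun f g => integral_add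
        (aprop_integrable α f.continuous.measurable f.norm_coe_le_norm)
        (aprop_integrable α g.continuous.measurable g.norm_coe_le_norm)
      map_smul' := fun c f => integral_const_mul c f } (α.real Set.univ) fun f => by
    rw [mul_comm]
    exact norm_integral_le_of_norm_le_const (Eventually.of_forall f.norm_coe_le_norm)

theorem ext_mono {α α' : Measure X} [IsFiniteMeasure α] [IsFiniteMeasure α']
    (h : ∀ J : List Idx, ∫ ω, mono J ω ∂α = ∫ ω, mono J ω ∂α') : α = α' := by
  let c : Idx → C(X, ℝ) := fun i => ⟨co i.1 i.2, continuous_co _ _⟩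
  let A : Subalgebra ℝ C(X, ℝ) := Algebra.adjoin ℝ (Set.range c)
  have hsep : A.SeparatesPoints := by
    intro ω ω' hne
    obtain ⟨i, hi⟩ := Function.ne_iff.1 hne
    exact ⟨c i, ⟨c i, Algebra.subset_adjoin ⟨i, rfl⟩, rfl⟩, fun h1 => hi (Subtype.ext h1)⟩
  have hmon : ∀ f ∈ Submonoid.closure (Set.range c), ∃ J : List Idx, ∀ ω, f ω = mono J ω := by
    intro f hf
    induction hf using Submonoid.closure_induction with
    | mem f hf =>
      obtain ⟨i, rfl⟩ := hf
      exact ⟨[i], fun ω => by simp [mono, c]⟩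
    | one => exact ⟨[], fun ω => by simp [mono]⟩
    | mul f g _ _ hf hg =>
      obtain ⟨J, hJ⟩ := hf
      obtain ⟨J', hJ'⟩ := hg
      refine ⟨J ++ J', fun ω => ?_⟩
      rw [ContinuousMap.mul_apply, hJ, hJ']
      simp [mono]
  have hA : ∀ f ∈ A, apropL α f = apropL α' f := by
    intro f hf
    have hf' : f ∈ Submodule.span ℝ (Submonoid.closure (Set.range c) : Set C(X, ℝ)) := by
      rw [← Algebra.adjoin_eq_span]
      exact hf
    clear hf
    induction hf' using Submodule.span_induction with
    | mem f hf =>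
      obtain ⟨J, hJ⟩ := hmon f hf
      change ∫ ω, f ω ∂α = ∫ ω, f ω ∂α'
      simp only [hJ, h J]
    | zero => simp
    | add f g _ _ hf hg => simp [hf, hg]
    | smul a f _ hf => simp [hf]
  have hcl : IsClosed {f : C(X, ℝ) | apropL α f = apropL α' f} :=
    isClosed_eq (apropL α).continuous (apropL α').continuous
  have htop := ContinuousMap.subalgebra_topologicalClosure_eq_top_of_separatesPoints A hsep
  refine ext_of_forall_integral_eq_of_IsFiniteMeasure fun f => ?_
  have hf : f.toContinuousMap ∈ A.topologicalClosure := by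
    rw [htop]
    trivial
  exact closure_minimal (s := (A : Set C(X, ℝ))) hA hcl hf

/-- weighted image measure -/
def apropW (ν : Measure X) (g : X → ℝ) (y : X → X) : Measure X :=
  (ν.withDensity fun ω => ENNReal.ofReal (g ω)).map y

theorem apropW_fin {ν : Measure X} {g : X → ℝ} (hg : Integrable g ν) (y : X → X) :
    IsFiniteMeasure (apropW ν g y) := by
  have := isFiniteMeasure_withDensity_ofReal hg.2
  unfold apropW
  infer_instance

theorem apropW_int {ν : Measure X} {g : X → ℝ} (hg : Measurable g) (h0 : ∀ ω, 0 ≤ g ω)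
    {y : X → X} (hy : Measurable y) {F : X → ℝ} (hF : Measurable F) :
    ∫ ω, F ω ∂(apropW ν g y) = ∫ ω, g ω * F (y ω) ∂ν := by
  unfold apropW
  rw [integral_map hy.aemeasurable hF.aestronglyMeasurable,
    integral_withDensity_eq_integral_toReal_smul hg.ennreal_ofReal
      (Eventually.of_forall fun _ => ENNReal.ofReal_lt_top)]
  simp only [ENNReal.toReal_ofReal (h0 _), smul_eq_mul]

theorem aprop_mono_res {J : List Idx} {q : ℕ} (hJ : ∀ i ∈ J, ∀ l ∈ i.2.support, l < q) (ω : X) :
    mono J (res q ω) = mono J ω := by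
  unfold mono
  congr 1
  exact List.map_congr_left fun i hi => co_res (hJ i hi) ω

theorem aprop_mono_res_zero {J : List Idx} {q : ℕ} (hJ : ¬ ∀ i ∈ J, ∀ l ∈ i.2.support, l < q)
    (ω : X) : mono J (res q ω) = 0 := by
  have : ∃ i ∈ J, ¬ ∀ l ∈ i.2.support, l < q := by
    by_contra hc
    exact hJ fun i hi => by
      by_contra h2
      exact hc ⟨i, hi, h2⟩
  obtain ⟨i, hi, h2⟩ := this
  unfold mono
  exact List.prod_eq_zero (List.mem_map.2 ⟨i, hi, co_res_of_not h2 ω⟩)

theorem aprop {C : ℕ → ℝ} {ν : Measure X} [IsProbabilityMeasure ν] (h : InM C ν) : Aprop ν := by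
  intro p n E Γ hp hpn hE hΓ
  set f : X → ℝ := E.indicator fun _ => (1 : ℝ) with hfdef
  have hf : IsFf n f := hE.indicator
  have hf0 : ∀ ω, 0 ≤ f ω := fun ω => Set.indicator_nonneg (fun _ _ => zero_le_one) ω
  have hf1 : ∀ ω, f ω ≤ 1 := fun ω => Set.indicator_le_self' (fun _ _ => zero_le_one) ω
  have hfa : ∀ ω, |f ω| ≤ 1 := fun ω => by rw [abs_of_nonneg (hf0 ω)]; exact hf1 ω
  have hfi : Integrable f ν := aprop_integrable ν hf.1 hfa
  set g0 : X → ℝ := ν[f | Fs p] with hg0
  let f' : X → ℝ := fun ω => max 0 (min 1 (g0 ω))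
  have hf'0 : ∀ ω, 0 ≤ f' ω := fun ω => le_max_left _ _
  have hf'a : ∀ ω, |f' ω| ≤ 1 := fun ω => by
    rw [abs_of_nonneg (hf'0 ω)]
    exact max_le zero_le_one (min_le_left _ _)
  have hg0m : Measurable[Fs p] g0 := stronglyMeasurable_condExp.measurable
  have hf' : IsFf p f' :=
    isFf_of_measurable_Fs (measurable_const.max (measurable_const.min hg0m)) hf'a
  have hae : f' =ᵐ[ν] g0 := by
    filter_upwards [condExp_nonneg (m := Fs p) (Eventually.of_forall hf0 : 0 ≤ᵐ[ν] f),
      condExp_le_nonneg_const (m := Fs p) (μ := ν) zero_le_one (Eventually.of_forall hf1)]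
      with ω h1 h2
    have h1' : 0 ≤ g0 ω := h1
    have h2' : g0 ω ≤ 1 := h2
    simp only [f', min_eq_right h2', max_eq_right h1']
  have hff' : ∀ g, IsFf p g → ∫ ω, f ω * g ω ∂ν = ∫ ω, f' ω * g ω ∂ν := by
    intro g hg
    obtain ⟨c, hc⟩ := hg.2.1
    have hi : Integrable (f * g) ν := by
      refine aprop_integrable ν (hf.1.mul hg.1) (c := c) fun ω => ?_
      rw [Pi.mul_apply, abs_mul]
      exact (mul_le_of_le_one_left (abs_nonneg _) (hfa ω)).trans (hc ω)
    have h1 := condExp_mul_of_stronglyMeasurable_right (m := Fs p)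
      hg.measurable_Fs.stronglyMeasurable hi hfi
    have h2 : ∫ ω, (ν[f * g | Fs p]) ω ∂ν = ∫ ω, (f * g) ω ∂ν := integral_condExp (Fs_le p)
    refine h2.symm.trans (integral_congr_ae ?_)
    filter_upwards [h1, hae] with ω e1 e2
    rw [e1, e2]
    rfl
  let y : ℕ → X → X := fun l ω => res (p + 1) (act (Equiv.swap p l) ω)
  have hy : ∀ l, Measurable (y l) := fun l => (measurable_res _).comp (measurable_act _)
  have hnf : Measurable fun ω => (n : ℝ) * f ω := hf.1.const_mul _
  have hpf : Measurable fun ω => (p : ℝ) * f' ω := hf'.1.const_mul _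
  have hf'i : Integrable f' ν := aprop_integrable ν hf'.1 hf'a
  have i1 := apropW_fin (hfi.const_mul (n : ℝ)) (y n)
  have i2 := fun l => apropW_fin hfi (y l)
  have i3 := apropW_fin (hf'i.const_mul (p : ℝ)) (y p)
  let α : Measure X := apropW ν (fun ω => (n : ℝ) * f ω) (y n)
  let α' : Measure X := ∑ l ∈ Finset.Ico p n, apropW ν f (y l) +
    apropW ν (fun ω => (p : ℝ) * f' ω) (y p)
  have hα : ∀ F : X → ℝ, Measurable F → ∫ ω, F ω ∂α = n * ∫ ω, f ω * F (y n ω) ∂ν := by
    intro F hF
    rw [apropW_int hnf (fun ω => mul_nonneg (Nat.cast_nonneg _) (hf0 ω)) (hy n) hF,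
      ← integral_const_mul]
    simp only [mul_assoc]
  have hα' : ∀ F : X → ℝ, Measurable F → (∀ ω, |F ω| ≤ 1) → ∫ ω, F ω ∂α' =
      ∑ l ∈ Finset.Ico p n, ∫ ω, f ω * F (y l ω) ∂ν + p * ∫ ω, f' ω * F (y p ω) ∂ν := by
    intro F hF hb
    rw [integral_add_measure (aprop_integrable _ hF hb) (aprop_integrable _ hF hb),
      integral_finsetSum_measure fun l _ => aprop_integrable _ hF hb,
      apropW_int hpf (fun ω => mul_nonneg (Nat.cast_nonneg _) (hf'0 ω)) (hy p) hF,
      ← integral_const_mul]
    simp only [mul_assoc, apropW_int hf.1 hf0 (hy _) hF]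
  have heq : α = α' := by
    refine ext_mono fun J => ?_
    have hm := (continuous_mono J).measurable
    rw [hα _ hm, hα' _ hm (abs_mono_le J)]
    by_cases hJ : ∀ i ∈ J, ∀ l ∈ i.2.support, l < p + 1
    · have key := mekD_cond h hp hpn (J := J)
        (fun i hi l hl => Nat.lt_succ_iff.1 (hJ i hi l hl)) hf hf' hff'
      have hint : ∀ l, Integrable (fun ω => f ω * mono J (act (Equiv.swap p l) ω)) ν := by
        intro l
        refine aprop_integrable ν (hf.1.mul (hm.comp (measurable_act _))) (c := 1) fun ω => ?_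
        rw [abs_mul]
        exact (mul_le_of_le_one_left (abs_nonneg _) (hfa ω)).trans (abs_mono_le J _)
      have e1 : ∫ ω, f ω * mekD p J n ω ∂ν =
          ∑ l ∈ Finset.Ico p n, ∫ ω, f ω * mono J (act (Equiv.swap p l) ω) ∂ν -
            n * ∫ ω, f ω * mono J (act (Equiv.swap p n) ω) ∂ν := by
        rw [← integral_finsetSum _ fun l _ => hint l, ← integral_const_mul,
          ← integral_sub (integrable_finsetSum _ fun l _ => hint l) ((hint n).const_mul _)]
        refine integral_congr_ae (Eventually.of_forall fun ω => ?_)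
        simp only [mekD, mul_sub, Finset.mul_sum]
        ring
      have e2 : ∫ ω, f' ω * mekD p J p ω ∂ν =
          -(p * ∫ ω, f' ω * mono J (act (Equiv.swap p p) ω) ∂ν) := by
        rw [← integral_const_mul, ← integral_neg]
        refine integral_congr_ae (Eventually.of_forall fun ω => ?_)
        simp only [mekD, Finset.Ico_self, Finset.sum_empty]
        ring
      simp only [y, aprop_mono_res hJ]
      linarith
    · simp only [y, aprop_mono_res_zero hJ]
      simp
  have hΓm : Measurable (Γ.indicator fun _ => (1 : ℝ)) := measurable_const.indicator hΓ.1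
  have hΓa : ∀ ω, |Γ.indicator (fun _ => (1 : ℝ)) ω| ≤ 1 := fun ω => by
    by_cases hω : ω ∈ Γ <;> simp [hω]
  have fin := hα _ hΓm
  rw [heq, hα' _ hΓm hΓa] at fin
  have e3 : ∀ l, ∫ ω, f ω * Γ.indicator (fun _ => (1 : ℝ)) (y l ω) ∂ν =
      ν.real (E ∩ act (Equiv.swap p l) ⁻¹' Γ) := by
    intro l
    rw [← integral_indicator_one (hE.1.inter (measurable_act _ hΓ.1))]
    refine integral_congr_ae (Eventually.of_forall fun ω => ?_)
    have := hΓ.2 (act (Equiv.swap p l) ω)
    by_cases h1 : ω ∈ E <;> by_cases h2 : act (Equiv.swap p l) ω ∈ Γ <;>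
      simp [hfdef, y, Set.indicator, h1, h2, this]
  have e4 : ∫ ω, f' ω * Γ.indicator (fun _ => (1 : ℝ)) (y p ω) ∂ν = ∫ ω in Γ, g0 ω ∂ν := by
    rw [← integral_indicator hΓ.1]
    refine integral_congr_ae ?_
    filter_upwards [hae] with ω hω
    have h1 : y p ω = res (p + 1) ω := by
      simp only [y, Equiv.swap_self]
      exact congrArg _ (act_one ω)
    have := hΓ.2 ω
    by_cases h2 : ω ∈ Γ <;> simp [h1, Set.indicator, h2, this, hω]
  simp only [e3, e4] at fin
  exact fin.symm

end Vale.Agent.P168
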