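import Vale.Agent.P168.Link

/-! P168 Approx: measurable messages are approximated by step functions.
Plan. `hier_tendsto`: induction on the list of levels; one step is Lipschitz in `L^1`:
`y ↦ y^m` is Lipschitz on `[c, C]`, `u ↦ u^(1/m)` on `[c^m, C^m]` (or use uniform continuity /
`Convex.norm_image_sub_le_of_norm_deriv_le`), and `∫ w, ∫ u, G (update w p u) = ∫ w, G w`
(`integral_pi_update`); you need the bounds and measurability of the intermediate levels (reprove
or expose them from Link). `exists_step`: `Integrable.exists_boundedContinuous_integral_sub_le`,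
uniform continuity on the compact cube, `φ u = min ⌊u (M+1)⌋ M`, clip the values to `[-1,1]`
(clipping does not increase the distance to `x`). `fin_approx`: take steps with error `1/(n+1)`,
`hier_comp` turns `Ehier` of the step message into `Efin`, `mext_lip_x` and
`measurePreserving` of `w ↦ (w · j)` give `L^1` convergence, then `Gval_tendsto`. -/

open MeasureTheory ProbabilityTheory Function Filter Topology
open scoped BigOperators

noncomputable section

namespace Vale.Agent.P168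

theorem approx_lip {f : ℝ → ℝ} {c C : ℝ} (hf : ContDiffOn ℝ 1 f (Set.Icc c C)) :
    ∃ L : ℝ, 0 ≤ L ∧ ∀ s t, (c ≤ s ∧ s ≤ C) → (c ≤ t ∧ t ≤ C) → |f s - f t| ≤ L * |s - t| := by
  obtain ⟨L, hL⟩ := hf.exists_lipschitzOnWith one_ne_zero (convex_Icc c C) isCompact_Icc
  refine ⟨L, L.2, fun s t hs ht => ?_⟩
  simpa only [Real.dist_eq] using hL.dist_le_mul s hs t ht

theorem approx_int {Ω : Type} [MeasurableSpace Ω] {μ : Measure Ω} [IsFiniteMeasure μ]
    {F : Ω → ℝ} (hF : Measurable F) {c C : ℝ} (hb : ∀ w, c ≤ F w ∧ F w ≤ C) :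
    Integrable F μ :=
  Integrable.of_mem_Icc c C hF.aemeasurable (ae_of_all _ hb)

theorem approx_int_bd {Ω : Type} [MeasurableSpace Ω] {μ : Measure Ω} [IsProbabilityMeasure μ]
    {F : Ω → ℝ} (hF : Measurable F) {c C : ℝ} (hb : ∀ w, c ≤ F w ∧ F w ≤ C) :
    c ≤ ∫ w, F w ∂μ ∧ ∫ w, F w ∂μ ≤ C := by
  constructor
  · have := integral_mono (integrable_const c) (approx_int (μ := μ) hF hb) fun w => (hb w).1
    simpa using this
  · have := integral_mono (approx_int (μ := μ) hF hb) (integrable_const C) fun w => (hb w).2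
    simpa using this

theorem approx_abs_int {Ω : Type} [MeasurableSpace Ω] {μ : Measure Ω} [IsProbabilityMeasure μ]
    {F G : Ω → ℝ} (hF : Measurable F) (hG : Measurable G) {c C : ℝ} (hb : ∀ w, c ≤ F w ∧ F w ≤ C)
    (hb' : ∀ w, c ≤ G w ∧ G w ≤ C) : Integrable (fun w => |F w - G w|) μ :=
  ((approx_int hF hb).sub (approx_int hG hb')).abs

theorem approx_comp {Ω : Type} [MeasurableSpace Ω] {μ : Measure Ω} [IsProbabilityMeasure μ]
    {f : ℝ → ℝ} (hf : Measurable f) {c C c' C' L : ℝ}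
    (hf' : ∀ s, (c ≤ s ∧ s ≤ C) → c' ≤ f s ∧ f s ≤ C')
    (hL : ∀ s t, (c ≤ s ∧ s ≤ C) → (c ≤ t ∧ t ≤ C) → |f s - f t| ≤ L * |s - t|)
    {F G : Ω → ℝ} (hF : Measurable F) (hG : Measurable G) (hb : ∀ w, c ≤ F w ∧ F w ≤ C)
    (hb' : ∀ w, c ≤ G w ∧ G w ≤ C) :
    |∫ w, f (F w) ∂μ - ∫ w, f (G w) ∂μ| ≤ L * ∫ w, |F w - G w| ∂μ := by
  have h1 : Integrable (fun w => f (F w)) μ := approx_int (hf.comp hF) fun w => hf' _ (hb w)
  have h2 : Integrable (fun w => f (G w)) μ := approx_int (hf.comp hG) fun w => hf' _ (hb' w)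
  rw [← integral_sub h1 h2, ← integral_const_mul]
  refine abs_integral_le_integral_abs.trans ?_
  exact integral_mono (h1.sub h2).abs ((approx_abs_int hF hG hb hb').const_mul L)
    fun w => hL _ _ (hb w) (hb' w)

section
variable {r : ℕ} {J : Type} [Fintype J]

theorem approx_step_meas (a : ℝ) (p : Fin (r + 1)) {Y : (Fin (r + 1) → J → unitInterval) → ℝ}
    (hY : Measurable Y) : Measurable (step a p Y) := by
  have h : Measurable fun z : (Fin (r + 1) → J → unitInterval) × (J → unitInterval) =>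
      Y (update z.1 p z.2) ^ a := (hY.comp measurable_update').pow_const a
  exact (h.stronglyMeasurable.integral_prod_right' (ν := volume)).measurable.pow_const _

theorem approx_pow_bd {a c C : ℝ} (ha : 0 < a) (hc : 0 < c) (s : ℝ) (hs : c ≤ s ∧ s ≤ C) :
    c ^ a ≤ s ^ a ∧ s ^ a ≤ C ^ a :=
  ⟨Real.rpow_le_rpow hc.le hs.1 ha.le, Real.rpow_le_rpow (hc.le.trans hs.1) hs.2 ha.le⟩

theorem approx_inner_bd {a c C : ℝ} (ha : 0 < a) (hc : 0 < c) (p : Fin (r + 1))
    {Y : (Fin (r + 1) → J → unitInterval) → ℝ} (hY : Measurable Y) (hb : ∀ w, c ≤ Y w ∧ Y w ≤ C)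
    (w : Fin (r + 1) → J → unitInterval) :
    c ^ a ≤ ∫ u, Y (update w p u) ^ a ∧ ∫ u, Y (update w p u) ^ a ≤ C ^ a :=
  approx_int_bd ((hY.comp (measurable_update w)).pow_const a) fun _ => approx_pow_bd ha hc _ (hb _)

theorem approx_step_bd {a c C : ℝ} (ha : 0 < a) (hc : 0 < c) (p : Fin (r + 1))
    {Y : (Fin (r + 1) → J → unitInterval) → ℝ} (hY : Measurable Y) (hb : ∀ w, c ≤ Y w ∧ Y w ≤ C)
    (w : Fin (r + 1) → J → unitInterval) : c ≤ step a p Y w ∧ step a p Y w ≤ C := by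
  have h := approx_pow_bd (one_div_pos.2 ha) (Real.rpow_pos_of_pos hc a) _
    (approx_inner_bd ha hc p hY hb w)
  have hC : 0 ≤ C := hc.le.trans ((hb w).1.trans (hb w).2)
  rwa [← Real.rpow_mul hc.le, ← Real.rpow_mul hC, mul_one_div_cancel ha.ne', Real.rpow_one,
    Real.rpow_one] at h

theorem approx_step_lip {a c : ℝ} (C : ℝ) (ha : 0 < a) (hc : 0 < c) (p : Fin (r + 1)) :
    ∃ L : ℝ, 0 ≤ L ∧ ∀ Y Y' : (Fin (r + 1) → J → unitInterval) → ℝ, Measurable Y →
      Measurable Y' → (∀ w, c ≤ Y w ∧ Y w ≤ C) → (∀ w, c ≤ Y' w ∧ Y' w ≤ C) →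
      ∫ w, |step a p Y w - step a p Y' w| ≤ L * ∫ w, |Y w - Y' w| := by
  obtain ⟨L₁, h₁, hL₁⟩ := approx_lip (f := fun s => s ^ a) (c := c) (C := C)
    (contDiffOn_id.rpow_const_of_ne fun s hs => (hc.trans_le hs.1).ne')
  obtain ⟨L₂, h₂, hL₂⟩ := approx_lip (f := fun s => s ^ (1 / a)) (c := c ^ a) (C := C ^ a)
    (contDiffOn_id.rpow_const_of_ne fun s hs => ((Real.rpow_pos_of_pos hc a).trans_le hs.1).ne')
  refine ⟨L₂ * L₁, mul_nonneg h₂ h₁, fun Y Y' hY hY' hb hb' => ?_⟩
  have hI := approx_abs_int (μ := volume) hY hY' hb hb'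
  have e : ∫ w, |Y w - Y' w| = ∫ w, ∫ u, |Y (update w p u) - Y' (update w p u)| :=
    integral_pi_update (volume : Measure (J → unitInterval)) p hI
  have hI2 : Integrable fun w : Fin (r + 1) → J → unitInterval =>
      ∫ u, |Y (update w p u) - Y' (update w p u)| :=
    ((measurePreserving_update (volume : Measure (J → unitInterval))
      p).integrable_comp_of_integrable hI).integral_prod_left
  rw [e, ← integral_const_mul]
  refine integral_mono_of_nonneg (ae_of_all _ fun w => abs_nonneg _) (hI2.const_mul _)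
    (ae_of_all _ fun w => ?_)
  refine (hL₂ _ _ (approx_inner_bd ha hc p hY hb w) (approx_inner_bd ha hc p hY' hb' w)).trans ?_
  refine (mul_le_mul_of_nonneg_left ?_ h₂).trans_eq (mul_assoc _ _ _).symm
  exact approx_comp (f := fun s => s ^ a) (measurable_id.pow_const a) (approx_pow_bd ha hc) hL₁
    (hY.comp (measurable_update w)) (hY'.comp (measurable_update w)) (fun _ => hb _)
    fun _ => hb' _

theorem approx_fold {m : Fin r → ℝ} (hm : Adm m) {c : ℝ} (C : ℝ) (hc : 0 < c)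
    (l : List (Fin r)) :
    (∀ Y : (Fin (r + 1) → J → unitInterval) → ℝ, Measurable Y → (∀ w, c ≤ Y w ∧ Y w ≤ C) →
      Measurable (l.foldr (fun p Z => step (m p) p.succ Z) Y) ∧
      ∀ w, c ≤ l.foldr (fun p Z => step (m p) p.succ Z) Y w ∧
        l.foldr (fun p Z => step (m p) p.succ Z) Y w ≤ C) ∧
    ∃ L : ℝ, 0 ≤ L ∧ ∀ Y Y' : (Fin (r + 1) → J → unitInterval) → ℝ, Measurable Y →
      Measurable Y' → (∀ w, c ≤ Y w ∧ Y w ≤ C) → (∀ w, c ≤ Y' w ∧ Y' w ≤ C) →
      ∫ w, |l.foldr (fun p Z => step (m p) p.succ Z) Y w -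
        l.foldr (fun p Z => step (m p) p.succ Z) Y' w| ≤ L * ∫ w, |Y w - Y' w| := by
  induction l with
  | nil => exact ⟨fun Y hY hb => ⟨hY, hb⟩, 1, zero_le_one, fun Y Y' _ _ _ _ => by simp⟩
  | cons p l ih =>
    obtain ⟨h1, L, hL0, hL⟩ := ih
    obtain ⟨L', hL0', hL'⟩ := approx_step_lip (J := J) C (hm.2 p).1 hc p.succ
    refine ⟨fun Y hY hb => ⟨approx_step_meas _ _ (h1 Y hY hb).1,
      approx_step_bd (hm.2 p).1 hc _ (h1 Y hY hb).1 (h1 Y hY hb).2⟩, L' * L,
      mul_nonneg hL0' hL0, fun Y Y' hY hY' hb hb' => ?_⟩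
    refine (hL' _ _ (h1 Y hY hb).1 (h1 Y' hY' hb').1 (h1 Y hY hb).2 (h1 Y' hY' hb').2).trans ?_
    rw [mul_assoc]
    exact mul_le_mul_of_nonneg_left (hL Y Y' hY hY' hb hb') hL0'

end

theorem hier_tendsto {r : ℕ} {J : Type} [Fintype J] {m : Fin r → ℝ} (hm : Adm m)
    {Y : ℕ → (Fin (r + 1) → J → unitInterval) → ℝ} {Y' : (Fin (r + 1) → J → unitInterval) → ℝ}
    (hY : ∀ n, Measurable (Y n)) (hY' : Measurable Y') {c C : ℝ} (hc : 0 < c)
    (hb : ∀ n w, c ≤ Y n w ∧ Y n w ≤ C) (hb' : ∀ w, c ≤ Y' w ∧ Y' w ≤ C)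
    (h : Tendsto (fun n => ∫ w, |Y n w - Y' w|) atTop (𝓝 0)) :
    Tendsto (fun n => hier m (Y n)) atTop (𝓝 (hier m Y')) := by
  obtain ⟨h1, L, hL0, hL⟩ := approx_fold (J := J) hm C hc (List.finRange r)
  obtain ⟨L', hL0', hL'⟩ := approx_lip (f := Real.log) (c := c) (C := C)
    (contDiffOn_id.log fun s hs => (hc.trans_le hs.1).ne')
  rw [tendsto_iff_dist_tendsto_zero]
  refine squeeze_zero (fun n => dist_nonneg) (fun n => ?_)
    (by simpa using h.const_mul (L' * L))
  rw [Real.dist_eq, mul_assoc]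
  refine le_trans ?_ (mul_le_mul_of_nonneg_left (hL _ _ (hY n) hY' (hb n) hb') hL0')
  exact approx_comp Real.measurable_log (c' := Real.log c) (C' := Real.log C)
    (fun s hs => ⟨Real.log_le_log hc hs.1, Real.log_le_log (hc.trans_le hs.1) hs.2⟩) hL'
    (h1 _ (hY n) (hb n)).1 (h1 _ hY' hb').1 (h1 _ (hY n) (hb n)).2 (h1 _ hY' hb').2

theorem approx_grid (M : ℕ) : ∃ (φ : unitInterval → Fin (M + 1)) (ψ : Fin (M + 1) → unitInterval),
    (∀ a, MeasurableSet (φ ⁻¹' {a})) ∧ ∀ u, dist u (ψ (φ u)) ≤ 1 / ((M : ℝ) + 1) := by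
  have hM : (0 : ℝ) < M + 1 := by positivity
  refine ⟨fun u => ⟨min ⌊(u : ℝ) * (M + 1)⌋₊ M, Nat.lt_succ_of_le (min_le_right _ _)⟩,
    fun a => ⟨(a : ℝ) / (M + 1), by positivity, ?_⟩, fun a => ?_, fun u => ?_⟩
  · rw [div_le_one hM]
    exact_mod_cast a.2.le
  · have h : Measurable fun u : unitInterval => ⌊(u : ℝ) * (M + 1)⌋₊ :=
      (measurable_subtype_coe.mul_const _).nat_floor
    have e := h (MeasurableSet.of_discrete (s := {k : ℕ | min k M = a}))
    have : ∀ s : Set unitInterval, s = (fun u : unitInterval => ⌊(u : ℝ) * (M + 1)⌋₊) ⁻¹'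
        {k : ℕ | min k M = a} → MeasurableSet s := fun s hs => hs ▸ e
    refine this _ ?_
    ext u
    simp [Fin.ext_iff]
  · rw [Subtype.dist_eq, Real.dist_eq]
    have h0 : 0 ≤ (u : ℝ) * (M + 1) := mul_nonneg u.2.1 hM.le
    have h1 := Nat.floor_le h0
    have h2 := Nat.lt_floor_add_one ((u : ℝ) * (M + 1))
    have h3 : (u : ℝ) * (M + 1) ≤ M + 1 := by nlinarith [u.2.2]
    have key : |(u : ℝ) * (M + 1) - ((min ⌊(u : ℝ) * (M + 1)⌋₊ M : ℕ) : ℝ)| ≤ 1 := by
      rcases le_total ⌊(u : ℝ) * (M + 1)⌋₊ M with h | h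
      · rw [min_eq_left h, abs_le]
        constructor <;> linarith
      · have h' : (M : ℝ) ≤ ⌊(u : ℝ) * (M + 1)⌋₊ := by exact_mod_cast h
        rw [min_eq_right h, abs_le]
        constructor <;> linarith
    have e : (u : ℝ) - ((min ⌊(u : ℝ) * (M + 1)⌋₊ M : ℕ) : ℝ) / (M + 1) =
        ((u : ℝ) * (M + 1) - ((min ⌊(u : ℝ) * (M + 1)⌋₊ M : ℕ) : ℝ)) / (M + 1) := by
      field_simp
    show |(u : ℝ) - ((min ⌊(u : ℝ) * (M + 1)⌋₊ M : ℕ) : ℝ) / (M + 1)| ≤ _
    rw [e, abs_div, abs_of_pos hM]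
    exact div_le_div_of_nonneg_right key hM.le

theorem approx_clip {s t : ℝ} (hs : |s| ≤ 1) :
    |max (-1) (min 1 t)| ≤ 1 ∧ |s - max (-1) (min 1 t)| ≤ |s - t| := by
  rw [abs_le] at hs
  have h1 := le_abs_self (s - t)
  have h2 := neg_abs_le (s - t)
  rw [abs_le, abs_le, max_def, min_def]
  split_ifs <;> refine ⟨⟨?_, ?_⟩, ?_, ?_⟩ <;> linarith

theorem exists_step {r : ℕ} {x : (Fin (r + 1) → unitInterval) → ℝ} (hxm : Measurable x)
    (hx : ∀ w, |x w| ≤ 1) {ε : ℝ} (hε : 0 < ε) :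
    ∃ (M : ℕ) (φ : unitInterval → Fin (M + 1)) (x' : (Fin (r + 1) → Fin (M + 1)) → ℝ),
      (∀ a, MeasurableSet (φ ⁻¹' {a})) ∧ (∀ w, |x' w| ≤ 1) ∧
      ∫ w, |x w - x' fun p => φ (w p)| ≤ ε := by
  have hxI : Integrable x := approx_int hxm fun w => abs_le.1 (hx w)
  obtain ⟨g, hg, hgI⟩ := hxI.exists_boundedContinuous_integral_sub_le (half_pos hε)
  obtain ⟨δ, hδ, hd⟩ := Metric.uniformContinuous_iff.1
    (CompactSpace.uniformContinuous_of_continuous g.continuous) _ (half_pos hε)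
  obtain ⟨M, hM⟩ := exists_nat_one_div_lt hδ
  obtain ⟨φ, ψ, hφ, hψ⟩ := approx_grid M
  refine ⟨M, φ, fun a => max (-1) (min 1 (g fun p => ψ (a p))), hφ,
    fun a => (approx_clip (s := 0) (by simp)).1, ?_⟩
  have hI : Integrable fun w => ‖x w - g w‖ := (hxI.sub hgI).norm
  calc _ ≤ ∫ w, (‖x w - g w‖ + ε / 2) := by
        refine integral_mono_of_nonneg (ae_of_all _ fun w => abs_nonneg _)
          (hI.add (integrable_const _)) (ae_of_all _ fun w => ?_)
        refine (approx_clip (hx w)).2.trans ((abs_sub_le _ (g w) _).trans ?_)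
        refine add_le_add le_rfl (hd ?_).le
        exact (dist_pi_lt_iff hδ).2 fun p => (hψ _).trans_lt hM
    _ ≤ ε := by
        rw [integral_add hI (integrable_const _)]
        simp only [integral_const, probReal_univ, one_smul]
        linarith

theorem approx_Ehier (K : ℕ) {r : ℕ} {m : Fin r → ℝ} (hm : Adm m)
    {x : ℕ → (Fin (r + 1) → unitInterval) → ℝ} {x' : (Fin (r + 1) → unitInterval) → ℝ}
    (hxm : ∀ n, Measurable (x n)) (hx : ∀ n w, |x n w| ≤ 1) (hxm' : Measurable x')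
    (hx' : ∀ w, |x' w| ≤ 1) (h : Tendsto (fun n => ∫ w, |x n w - x' w|) atTop (𝓝 0))
    (k : ℕ) (y : Yv K k) : Tendsto (fun n => Ehier K m (x n) k y) atTop (𝓝 (Ehier K m x' k y)) := by
  have hp : ∀ j : Fin k × Fin K, MeasurePreserving
      (fun w : Fin (r + 1) → Fin k × Fin K → unitInterval => fun p => w p j) volume volume :=
    fun j => measurePreserving_pi _ _ fun _ =>
      measurePreserving_eval (fun _ : Fin k × Fin K => (volume : Measure unitInterval)) j
  have hme : ∀ z : (Fin (r + 1) → unitInterval) → ℝ, Measurable z → Measurable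
      fun w : Fin (r + 1) → Fin k × Fin K → unitInterval => mext y fun j => z fun p => w p j :=
    fun z hz => (continuous_mext y).measurable.comp
      (measurable_pi_lambda _ fun j => hz.comp (hp j).measurable)
  refine hier_tendsto hm (fun n => hme _ (hxm n)) (hme _ hxm') (Real.exp_pos (-‖y‖))
    (fun n w => mext_bounds y fun j => hx n _) (fun w => mext_bounds y fun j => hx' _) ?_
  refine squeeze_zero (fun n => integral_nonneg fun w => abs_nonneg _) (fun n => ?_)
    (by simpa using h.const_mul (Real.exp ‖y‖ * Fintype.card (Fin k × Fin K)))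
  have hI := approx_abs_int (μ := volume) (hxm n) hxm' (fun w => abs_le.1 (hx n w))
    fun w => abs_le.1 (hx' w)
  have hIj : ∀ j : Fin k × Fin K, Integrable
      fun w : Fin (r + 1) → Fin k × Fin K → unitInterval =>
        |x n (fun p => w p j) - x' fun p => w p j| :=
    fun j => (hp j).integrable_comp_of_integrable hI
  have hj : ∀ j : Fin k × Fin K, ∫ w : Fin (r + 1) → Fin k × Fin K → unitInterval,
      |x n (fun p => w p j) - x' fun p => w p j| = ∫ w, |x n w - x' w| := fun j => by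
    rw [← integral_map (hp j).measurable.aemeasurable (f := fun w => |x n w - x' w|)
      (by rw [(hp j).map_eq]; exact hI.aestronglyMeasurable), (hp j).map_eq]
  calc _ ≤ ∫ w : Fin (r + 1) → Fin k × Fin K → unitInterval,
        Real.exp ‖y‖ * ∑ j, |x n (fun p => w p j) - x' fun p => w p j| :=
        integral_mono_of_nonneg (ae_of_all _ fun w => abs_nonneg _)
          ((integrable_finsetSum _ fun j _ => hIj j).const_mul _)
          (ae_of_all _ fun w => mext_lip_x y (fun j => hx n _) fun j => hx' _)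
    _ = _ := by
        rw [integral_const_mul, integral_finsetSum _ fun j _ => hIj j]
        simp [hj, mul_assoc]

theorem fin_approx {K : ℕ} (hK : 1 ≤ K) {lam : ℝ} (hlam : 0 ≤ lam) {Q : Measure (Par K)}
    {Ph : Measure ℝ} (hM : Model K Q Ph) {r : ℕ} {m : Fin r → ℝ} (hm : Adm m)
    {x : (Fin (r + 1) → unitInterval) → ℝ} (hxm : Measurable x) (hx : ∀ w, |x w| ≤ 1) {ε : ℝ}
    (hε : 0 < ε) :
    ∃ (M : ℕ) (μ : Fin (M + 1) → ℝ) (x' : (Fin (r + 1) → Fin (M + 1)) → ℝ), IsPr μ ∧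
      (∀ w, |x' w| ≤ 1) ∧
      |val K lam Q Ph (Ehier K m x) - val K lam Q Ph (Efin K μ m x')| ≤ ε := by
  choose M φ x' hφ hx' he using fun n : ℕ =>
    exists_step hxm hx (Nat.one_div_pos_of_nat (n := n) (α := ℝ))
  have hm' : ∀ n, Measurable fun w : Fin (r + 1) → unitInterval => x' n fun p => φ n (w p) :=
    fun n => (measurable_of_finite (x' n)).comp (measurable_pi_lambda _ fun p =>
      (measurable_to_countable' (hφ n)).comp (measurable_pi_apply p))
  have h0 : Tendsto (fun n => ∫ w : Fin (r + 1) → unitInterval,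
      |x' n (fun p => φ n (w p)) - x w|) atTop (𝓝 0) := by
    refine squeeze_zero (fun n => integral_nonneg fun w => abs_nonneg _) (fun n => ?_)
      (tendsto_one_div_add_atTop_nhds_zero_nat (𝕜 := ℝ))
    simpa only [abs_sub_comm] using he n
  have h1 := approx_Ehier K hm hm' (fun n w => hx' n _) hxm hx h0
  have hE := fun n => ev_Ehier K hm (hm' n) fun w => hx' n _
  obtain ⟨CU, hU⟩ := mom_kU hK hM
  obtain ⟨CV, hV⟩ := mom_kV hM
  have hK' : (1 : ℝ) ≤ K := by exact_mod_cast hK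
  have h2 := (Gval_tendsto (a := K * lam) (by positivity) hU hE h1).sub
    (Gval_tendsto (a := (K - 1) * lam) (mul_nonneg (sub_nonneg.2 hK') hlam) hV hE h1)
  obtain ⟨n, hn⟩ := (Metric.tendsto_atTop.1 h2) ε hε
  refine ⟨M n, fun a => (volume : Measure unitInterval).real (φ n ⁻¹' {a}), x' n,
    ⟨fun a => measureReal_nonneg, ?_⟩, hx' n, ?_⟩
  · rw [sum_measureReal_preimage_singleton _ fun a _ => hφ n a]
    simp
  · have e : Efin K (fun a => (volume : Measure unitInterval).real (φ n ⁻¹' {a})) m (x' n) =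
        Ehier K m fun w => x' n fun p => φ n (w p) := by
      funext k y
      exact (hier_comp m (φ n) (hφ n) fun w => mext y fun j => x' n fun p => w p j).symm
    rw [e, abs_sub_comm]
    exact (hn n le_rfl).le

end Vale.Agent.P168
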