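import Vale.Agent.P168.AssV

/-! P168 AssU: the cavity computation for the system of size `N + 1`.
Plan. `cavU_int`: `integral_conv_lip`, `integral_map` for `lastLaw`, `integral_cp` for `cavLaw`;
rewrite `QE` as a product `(Q × position) × indices` (a measure preserving reshuffle, then
`map_pi_map`), `integral_pi_prod_unif`; a configuration of size `N+1` is `Fin.snoc s e`
(`Fin.snocEquiv`/`Fin.insertNthEquiv`), `Fin.snoc s e (mrg l idx j) = update (s ∘ idx) l e j`;
exchange `∫ h` with the Poisson sum (or put the `h` integral inside the Lipschitz function before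
applying `integral_cp`), `integral_prod`, `integral_map` for `kU`.
`assU`: `clause_split`, `field_split`, `cp_add`, `cp_map`, `Measure.map_conv` for `iota` so that
`hamLaw (N+1) = ((hamLaw N α).map iota ∗ (lastLaw ∗ cp (β cav))) ∗ cp R`; remove `cp R` and replace
`β` by `K lam` with `conv_lip`; `logZ (w ∘ init) (iota H + Y) = logZ w H + logZ (gib .. ∘ init) Y`.
`ass` combines `assU`, `assV`, `alpha_beta_tendsto`. -/

open MeasureTheory ProbabilityTheory Function Filter Topology
open scoped BigOperators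

noncomputable section

namespace Vale.Agent.P168

variable {K : ℕ} {Q : Measure (Par K)} {Ph : Measure ℝ}

theorem assU_snoc {N : ℕ} (s : Fin N → Bool) (b : Bool) (l : Fin K) (idx : Fin K → Fin N) :
    (fun j => Fin.snoc (α := fun _ => Bool) s b (mrg l idx j)) =
      update (fun j => s (idx j)) l b := by
  funext j
  unfold mrg
  split_ifs with h
  · rw [h, Fin.snoc_last, update_self]
  · rw [Fin.snoc_castSucc, update_of_ne h]

theorem assU_nu (hK : 1 ≤ K) (hM : Model K Q Ph) {N : ℕ} (hN : 1 ≤ N) {a : ℝ} (ha : 0 ≤ a) :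
    IsProbabilityMeasure ((lastLaw Ph N).conv (cp (ENNReal.ofReal a • cavLaw K Q N))) ∧
      Integrable (fun y => ‖y‖) ((lastLaw Ph N).conv (cp (ENNReal.ofReal a • cavLaw K Q N))) := by
  obtain ⟨c1, c2, -⟩ := cavLaw_spec hK hM hN
  obtain ⟨q1, q2, -⟩ := ass_cp c2 ha
  obtain ⟨l1, l2, -⟩ := field_split hM N
  exact ⟨inferInstance, conv_moment l2 q2⟩

theorem cavU_int (hK : 1 ≤ K) (hM : Model K Q Ph) {N : ℕ} (hN : 1 ≤ N) {a : ℝ} (ha : 0 ≤ a)
    {g : (Fin N → Bool) → ℝ} (hg : IsPr g) (hg0 : ∀ s, 0 < g s) :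
    ∫ Y, logZ (fun s => g (Fin.init s)) Y
        ∂(lastLaw Ph N).conv (cp (ENNReal.ofReal a • cavLaw K Q N)) =
      Gval a (kU K Q Ph) (EG K g) := by
  have := hM.1
  have := hM.2.1
  have : Nonempty (Fin N) := ⟨⟨0, hN⟩⟩
  have : Nonempty (Fin K) := ⟨⟨0, hK⟩⟩
  have := isProb_unif (D := Fin K → Fin N)
  have := isProb_unif (D := Fin K)
  obtain ⟨c1, c2, -⟩ := cavLaw_spec hK hM hN
  obtain ⟨q1, q2, -⟩ := ass_cp c2 ha
  obtain ⟨l1, l2, -⟩ := field_split hM N
  have hlip : LipschitzWith 1 (logZ fun s : Fin (N + 1) → Bool => g (Fin.init s)) :=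
    logZ_lip fun s => hg0 _
  obtain ⟨k1, k2⟩ := integral_conv_lip q2 l2 hlip
  have hG : Measurable fun h : ℝ => (fun s => h * spin (s (Fin.last N)) : En (N + 1)) := by
    fun_prop
  have hsh := ((MeasurePreserving.id Q).prod (Measure.measurePreserving_swap
    (μ := uniformOn (Set.univ : Set (Fin K)))
    (ν := uniformOn (Set.univ : Set (Fin K → Fin N))))).comp (measurePreserving_prodAssoc _ _ _)
  set Xv : (Par K × Fin K) × (Fin K → Fin N) → En (N + 1) :=
    fun e s => theta e.1.1 fun j => s (mrg e.1.2 e.2 j) with hXv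
  have hX : Measurable Xv := (measurable_cav N).comp hsh.measurable
  have hc : cavLaw K Q N = ((Q.prod (uniformOn (Set.univ : Set (Fin K)))).prod
      (uniformOn (Set.univ : Set (Fin K → Fin N)))).map Xv := by
    rw [cavLaw, QE, ← hsh.map_eq, Measure.map_map (measurable_cav N) hsh.measurable]
    rfl
  have hXi := (integrable_map_measure continuous_norm.aestronglyMeasurable hX.aemeasurable).1
    (hc ▸ c2)
  rw [Measure.conv_comm, k2, hc, integral_cp _ hX hXi ha k1, Gval]
  congr 1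
  funext k
  obtain ⟨C, hC⟩ := mom_kU hK hM
  have hi := integrable_ev hC (ev_EG K hg) k
  rw [kU, integrable_map_measure (ev_EG K hg k).1.aestronglyMeasurable
    measurable_yU.aemeasurable] at hi
  rw [integral_pi_prod_unif _ (ass_int_sum _ hX hXi k1 k), kU,
    integral_map measurable_yU.aemeasurable (ev_EG K hg k).1.aestronglyMeasurable,
    integral_prod_symm (fun p => EG K g k (yU p.1 p.2)) hi]
  congr 1
  funext c
  have hl : ∀ x : En (N + 1), LipschitzWith 1
      fun y => logZ (fun s : Fin (N + 1) → Bool => g (Fin.init s)) (x + y) := fun x => by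
    simpa [Function.comp_def] using hlip.comp (isometry_add_left x).lipschitz
  have hI : ∀ x : En (N + 1), Integrable (fun h : ℝ => logZ (fun s : Fin (N + 1) → Bool =>
      g (Fin.init s)) (x + fun s => h * spin (s (Fin.last N)))) Ph := fun x =>
    (integrable_map_measure (hl x).continuous.aestronglyMeasurable hG.aemeasurable).1
      (integrable_lip l2 (hl x))
  have e1 : ∀ h : ℝ, EG K g k (yU h c) = 𝔼 d : Fin k → Fin K → Fin N,
      logZ (fun s : Fin (N + 1) → Bool => g (Fin.init s))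
        ((∑ i, Xv (c i, d i)) + fun s => h * spin (s (Fin.last N))) := fun h => by
    refine Fintype.expect_equiv (Equiv.curry _ _ _) _ _ fun idx => ?_
    unfold logZ yU
    congr 1
    rw [← (Fin.snocEquiv fun _ => Bool).sum_comp, Fintype.sum_prod_type_right]
    refine Finset.sum_congr rfl fun s _ => ?_
    rw [Real.exp_log (Finset.sum_pos (fun _ _ => Real.exp_pos _) Finset.univ_nonempty),
      Finset.mul_sum]
    refine Finset.sum_congr rfl fun b _ => ?_
    have e : (Fin.snocEquiv fun _ => Bool) (b, s) = Fin.snoc (α := fun _ => Bool) s b := rfl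
    simp only [e, Pi.add_apply, Finset.sum_apply, hXv, Fin.snoc_last,
      Fin.init_snoc, assU_snoc, Equiv.curry_apply, Function.curry]
    rw [mul_comm, add_comm]
  simp only [e1, Finset.expect_eq_sum_div_card]
  rw [integral_div, integral_finsetSum _ fun d _ => hI _]
  congr 2
  funext d
  rw [lastLaw, integral_map hG.aemeasurable (hl _).continuous.aestronglyMeasurable]

theorem assU_rep (hK : 1 ≤ K) (hM : Model K Q Ph) {N : ℕ} (hN : 1 ≤ N) {a : ℝ} (ha : 0 ≤ a)
    {w : (Fin N → Bool) → ℝ} (hw : ∀ s, 0 < w s) (H : En N) :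
    Gval a (kU K Q Ph) (EG K (gib fun s => Real.exp (H s) * w s)) =
      ∫ Y, logZ (fun s => w (Fin.init s)) (iota N H + Y)
        ∂(lastLaw Ph N).conv (cp (ENNReal.ofReal a • cavLaw K Q N)) - logZ w H := by
  obtain ⟨h1, h2⟩ := assU_nu hK hM hN ha
  have hZ : 0 < ∑ s, Real.exp (H s) * w s :=
    Finset.sum_pos (fun s _ => mul_pos (Real.exp_pos _) (hw s)) Finset.univ_nonempty
  have e : ∀ Y, logZ (fun s => w (Fin.init s)) (iota N H + Y) = logZ w H +
      logZ (fun s => gib (fun s => Real.exp (H s) * w s) (Fin.init s)) Y := fun Y => by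
    unfold logZ
    rw [← Real.log_mul hZ.ne' (Finset.sum_pos (fun s _ => mul_pos (Real.exp_pos _)
      ((ass_gib hw H).2 _)) Finset.univ_nonempty).ne', Finset.mul_sum]
    congr 1
    refine Finset.sum_congr rfl fun s _ => ?_
    have : iota N H s = H (Fin.init s) := rfl
    rw [Pi.add_apply, Real.exp_add, this, gib]
    field_simp
  simp only [e]
  rw [integral_add (integrable_const _) (integrable_lip h2 (logZ_lip fun s => (ass_gib hw H).2 _)),
    cavU_int hK hM hN ha (ass_gib hw H).1 (ass_gib hw H).2]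
  simp

theorem continuous_GvalU (hK : 1 ≤ K) (hM : Model K Q Ph) {N : ℕ} (hN : 1 ≤ N) {a : ℝ}
    (ha : 0 ≤ a) {w : (Fin N → Bool) → ℝ} (hw : ∀ s, 0 < w s) :
    Continuous fun H : En N => Gval a (kU K Q Ph) (EG K (gib fun s => Real.exp (H s) * w s)) := by
  obtain ⟨h1, h2⟩ := assU_nu hK hM hN ha
  simp only [assU_rep hK hM hN ha hw]
  exact ((integral_conv_lip h2 h2 (logZ_lip fun s => hw _)).1.continuous.comp
    (iota N).continuous).sub (logZ_lip hw).continuous

theorem assU (hK : 1 ≤ K) (hM : Model K Q Ph) {lam : ℝ} (hlam : 0 ≤ lam) {N : ℕ} (hN : 1 ≤ N)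
    {w : (Fin N → Bool) → ℝ} (hw : ∀ s, 0 < w s) :
    ∫ H, logZ w H ∂hamLaw K Q Ph N (alphaN K lam N) +
      ∫ H, Gval (K * lam) (kU K Q Ph) (EG K (gib fun s => Real.exp (H s) * w s))
        ∂hamLaw K Q Ph N (alphaN K lam N) ≤
      ∫ H, logZ (fun s => w (Fin.init s)) H ∂hamLaw K Q Ph (N + 1) (lam * ((N + 1 : ℕ) : ℝ)) +
      ((K * lam - betaN K lam N) + (lam * (N + 1) - alphaN K lam N - betaN K lam N)) *
        ∫ q, ‖theta q‖ ∂Q := by
  obtain ⟨b1, -, -, b4, b5⟩ := alpha_beta_bounds hK hlam N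
  obtain ⟨c1, c2, c3⟩ := cavLaw_spec hK hM hN
  obtain ⟨R, r1, r2, r3, r4⟩ := clause_split hK hM hlam hN
  obtain ⟨l1, l2, l3⟩ := field_split hM N
  have hk : 0 ≤ (K : ℝ) * lam := by linarith
  have hd : 0 ≤ K * lam - betaN K lam N := by linarith
  obtain ⟨p1, p2⟩ := hamLaw_spec hM hN (alphaN K lam N)
  have hi := (iota N).continuous.measurable
  have p3 : IsProbabilityMeasure ((hamLaw K Q Ph N (alphaN K lam N)).map (iota N)) :=
    Measure.isProbabilityMeasure_map hi.aemeasurable
  have p4 : Integrable (fun y => ‖y‖) ((hamLaw K Q Ph N (alphaN K lam N)).map (iota N)) :=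
    (integrable_map_measure continuous_norm.aestronglyMeasurable hi.aemeasurable).2
      (p2.mono' hi.norm.aestronglyMeasurable (ae_of_all _ fun H => by
        rw [Function.comp_apply, norm_norm]
        exact (pi_norm_le_iff_of_nonneg (norm_nonneg _)).2 fun s => norm_le_pi_norm H _))
  obtain ⟨n1, n2⟩ := assU_nu hK hM hN b4
  obtain ⟨n3, n4⟩ := assU_nu hK hM hN hk
  obtain ⟨q1, q2, q3⟩ := ass_cp c2 hd
  obtain ⟨q4, -⟩ := ass_cp c2 b4
  obtain ⟨u1, u2, -⟩ := clauseLaw_spec hM hN
  obtain ⟨q5, -⟩ := ass_cp u2 b1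
  have := (fieldLaw_spec hM N).1
  have := isProb_cp R
  have : IsFiniteMeasure (ENNReal.ofReal (alphaN K lam N) • clauseLaw K Q N) :=
    Measure.smul_finite _ ENNReal.ofReal_ne_top
  have : IsFiniteMeasure (ENNReal.ofReal (betaN K lam N) • cavLaw K Q N) :=
    Measure.smul_finite _ ENNReal.ofReal_ne_top
  set A := ((hamLaw K Q Ph N (alphaN K lam N)).map (iota N)).conv
    ((lastLaw Ph N).conv (cp (ENNReal.ofReal (betaN K lam N) • cavLaw K Q N))) with hA
  have a2 : Integrable (fun y => ‖y‖) A := conv_moment p4 n2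
  have e1 : hamLaw K Q Ph (N + 1) (lam * ((N + 1 : ℕ) : ℝ)) = A.conv (cp R) := by
    rw [hA, hamLaw, hamLaw, r4, cp_add, cp_add, ← cp_map, l3,
      Measure.map_conv_continuousLinearMap]
    simp only [Measure.conv_assoc]
    congr 1
    rw [← Measure.conv_assoc, Measure.conv_comm (lastLaw Ph N), Measure.conv_assoc]
  have e2 : ((hamLaw K Q Ph N (alphaN K lam N)).map (iota N)).conv
      ((lastLaw Ph N).conv (cp (ENNReal.ofReal (K * lam) • cavLaw K Q N))) =
      A.conv (cp (ENNReal.ofReal (K * lam - betaN K lam N) • cavLaw K Q N)) := by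
    rw [hA, Measure.conv_assoc, Measure.conv_assoc, ← ass_cp_add _ b4 hd, add_sub_cancel]
  have hlip : LipschitzWith 1 (logZ fun s : Fin (N + 1) → Bool => w (Fin.init s)) :=
    logZ_lip fun s => hw _
  have h1 := conv_lip a2 (cp_moment R r2).1 hlip
  have h2 := conv_lip a2 q2 hlip
  obtain ⟨k1, k2⟩ := integral_conv_lip p4 n4 hlip
  rw [← e1] at h1
  rw [← e2, k2, integral_map hi.aemeasurable k1.continuous.aestronglyMeasurable] at h2
  simp only [assU_rep hK hM hN hk hw]
  have k3 := (integrable_map_measure k1.continuous.aestronglyMeasurable hi.aemeasurable).1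
    (integrable_lip p4 k1)
  rw [Function.comp_def] at k3
  rw [integral_sub k3 (integrable_lip p2 (logZ_lip hw))]
  have h3 := mul_le_mul_of_nonneg_left c3 hd
  have h4 := (cp_moment R r2).2
  linarith [(abs_le.1 h1).1, (abs_le.1 h2).2]

theorem assU_int (hK : 1 ≤ K) (hM : Model K Q Ph) {lam : ℝ} (hlam : 0 ≤ lam) {N : ℕ}
    (hN : 1 ≤ N) {w : (Fin N → Bool) → ℝ} (hw : ∀ s, 0 < w s) (μH : Measure (En N))
    [IsFiniteMeasure μH] :
    Integrable (fun H : En N => Gval (K * lam) (kU K Q Ph)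
      (EG K (gib fun s => Real.exp (H s) * w s))) μH ∧
    Integrable (fun H : En N => Gval ((K - 1) * lam) (kV K Q)
      (EG K (gib fun s => Real.exp (H s) * w s))) μH := by
  have hk : (1 : ℝ) ≤ K := by exact_mod_cast hK
  have h1 : 0 ≤ (K : ℝ) * lam := by positivity
  have h2 : 0 ≤ ((K : ℝ) - 1) * lam := mul_nonneg (by linarith) hlam
  obtain ⟨C, hC⟩ := mom_kU hK hM
  obtain ⟨C', hC'⟩ := mom_kV hM
  exact ⟨.of_bound (continuous_GvalU hK hM hN h1 hw).aestronglyMeasurable _
      (ae_of_all _ fun H => abs_Gval_le h1 hC (ev_EG K (ass_gib hw H).1)),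
    .of_bound (continuous_GvalV hM hN h2 hw).aestronglyMeasurable _
      (ae_of_all _ fun H => abs_Gval_le h2 hC' (ev_EG K (ass_gib hw H).1))⟩

theorem integrable_val (hK : 1 ≤ K) (hM : Model K Q Ph) {lam : ℝ} (hlam : 0 ≤ lam) {N : ℕ}
    (hN : 1 ≤ N) {w : (Fin N → Bool) → ℝ} (hw : ∀ s, 0 < w s) (μH : Measure (En N))
    [IsFiniteMeasure μH] :
    Integrable (fun H : En N => val K lam Q Ph (EG K (gib fun s => Real.exp (H s) * w s))) μH := by
  obtain ⟨h1, h2⟩ := assU_int hK hM hlam hN hw μH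
  exact h1.sub h2

theorem ass (hK : 1 ≤ K) (hM : Model K Q Ph) {lam : ℝ} (hlam : 0 ≤ lam) :
    ∃ δ : ℕ → ℝ, Tendsto δ atTop (𝓝 0) ∧ ∀ N, 1 ≤ N → ∀ w : (Fin N → Bool) → ℝ, (∀ s, 0 < w s) →
      ∫ H, val K lam Q Ph (EG K (gib fun s => Real.exp (H s) * w s))
          ∂hamLaw K Q Ph N (alphaN K lam N) ≤
        ∫ H, logZ (fun s => w (Fin.init s)) H ∂hamLaw K Q Ph (N + 1) (lam * ((N + 1 : ℕ) : ℝ)) -
          ∫ H, logZ w H ∂hamLaw K Q Ph N (lam * N) + δ N := by
  obtain ⟨t1, t2, t3⟩ := alpha_beta_tendsto hK lam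
  refine ⟨fun N => ((K * lam - betaN K lam N) + (lam * (N + 1) - alphaN K lam N - betaN K lam N) +
    ((K - 1) * lam - (lam * N - alphaN K lam N))) * ∫ q, ‖theta q‖ ∂Q, ?_, fun N hN w hw => ?_⟩
  · simpa using ((t2.add t3).add t1).mul_const (∫ q, ‖theta q‖ ∂Q)
  · have := (hamLaw_spec hM hN (alphaN K lam N)).1
    obtain ⟨h1, h2⟩ := assU_int hK hM hlam hN hw (hamLaw K Q Ph N (alphaN K lam N))
    unfold val
    rw [integral_sub h1 h2]
    linarith [assU hK hM hlam hN hw, assV hK hM hlam hN hw]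

end Vale.Agent.P168
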