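import Vale.Agent.P168.Split

/-! P168 AssV: the cavity computation for the system of size `N`.
Plan. `cavV_int`: `integral_cp`, `integral_pi_prod_unif`, reindex `idx` by `Equiv.curry`,
`integral_map` for `kV`. `assV`: with `γ = lam N - alphaN`, `ofReal (lam N) • ρ = ofReal α • ρ +
ofReal γ • ρ`, `cp_add`, `Measure.conv_assoc`, `integral_conv_lip`, `logZ_add`; compare
`cp (γ ρ)` and `cp ((K-1) lam ρ) = cp (γ ρ) ∗ cp (((K-1) lam - γ) ρ)` with `conv_lip`, `cp_moment`.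
Continuity in `H`: the function equals `∫ Y, logZ w (H + Y) ∂cp .. - logZ w H`. -/

open MeasureTheory ProbabilityTheory Function Filter Topology
open scoped BigOperators

noncomputable section

namespace Vale.Agent.P168

variable {K : ℕ} {Q : Measure (Par K)} {Ph : Measure ℝ}

theorem ass_int_sum {C Θ : Type} [Fintype C] [MeasurableSpace Θ] (P : Measure Θ)
    [IsProbabilityMeasure P] {Xv : Θ → C → ℝ} (hX : Measurable Xv)
    (hXi : Integrable (fun e => ‖Xv e‖) P) {φ : (C → ℝ) → ℝ} (hφ : LipschitzWith 1 φ) (k : ℕ) :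
    Integrable (fun c : Fin k → Θ => φ (∑ i, Xv (c i))) (Measure.pi fun _ => P) := by
  refine ((integrable_const |φ 0|).add (integrable_sum_eval P hXi).1).mono'
    (hφ.continuous.measurable.comp (Finset.measurable_sum _ fun i _ =>
      hX.comp (measurable_pi_apply i))).aestronglyMeasurable (ae_of_all _ fun c => ?_)
  have h1 := hφ.dist_le_mul (∑ i, Xv (c i)) 0
  rw [dist_zero_right, Real.dist_eq, NNReal.coe_one, one_mul] at h1
  have h2 := norm_sum_le Finset.univ fun i => Xv (c i)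
  have h3 := abs_sub_abs_le_abs_sub (φ (∑ i, Xv (c i))) (φ 0)
  simp only [Real.norm_eq_abs, Pi.add_apply]
  linarith

theorem ass_cp {C : Type} [Fintype C] {ρ : Measure (C → ℝ)} [IsProbabilityMeasure ρ]
    (hρ : Integrable (fun y => ‖y‖) ρ) {a : ℝ} (ha : 0 ≤ a) :
    IsProbabilityMeasure (cp (ENNReal.ofReal a • ρ)) ∧
      Integrable (fun y => ‖y‖) (cp (ENNReal.ofReal a • ρ)) ∧
      ∫ y, ‖y‖ ∂cp (ENNReal.ofReal a • ρ) ≤ a * ∫ y, ‖y‖ ∂ρ := by
  have : IsFiniteMeasure (ENNReal.ofReal a • ρ) := Measure.smul_finite _ ENNReal.ofReal_ne_top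
  have h := cp_moment _ (hρ.smul_measure (c := ENNReal.ofReal a) ENNReal.ofReal_ne_top)
  refine ⟨isProb_cp _, h.1, h.2.trans_eq ?_⟩
  rw [integral_smul_measure, ENNReal.toReal_ofReal ha, smul_eq_mul]

theorem ass_cp_add {C : Type} [Fintype C] (ρ : Measure (C → ℝ)) [IsProbabilityMeasure ρ] {a b : ℝ}
    (ha : 0 ≤ a) (hb : 0 ≤ b) : cp (ENNReal.ofReal (a + b) • ρ) =
      (cp (ENNReal.ofReal a • ρ)).conv (cp (ENNReal.ofReal b • ρ)) := by
  have : ∀ a : ℝ, IsFiniteMeasure (ENNReal.ofReal a • ρ) :=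
    fun a => Measure.smul_finite _ ENNReal.ofReal_ne_top
  rw [ENNReal.ofReal_add ha hb, add_smul, cp_add]

theorem ass_gib {N : ℕ} {w : (Fin N → Bool) → ℝ} (hw : ∀ s, 0 < w s) (H : En N) :
    IsPr (gib fun s => Real.exp (H s) * w s) ∧ ∀ s, 0 < gib (fun s => Real.exp (H s) * w s) s :=
  ⟨isPr_gib fun s => mul_pos (Real.exp_pos _) (hw s), fun s =>
    div_pos (mul_pos (Real.exp_pos _) (hw s))
      (Finset.sum_pos (fun s _ => mul_pos (Real.exp_pos _) (hw s)) Finset.univ_nonempty)⟩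

theorem cavV_int (hM : Model K Q Ph) {N : ℕ} (hN : 1 ≤ N) {a : ℝ} (ha : 0 ≤ a)
    {g : (Fin N → Bool) → ℝ} (hg : IsPr g) (hg0 : ∀ s, 0 < g s) :
    ∫ Y, logZ g Y ∂cp (ENNReal.ofReal a • clauseLaw K Q N) = Gval a (kV K Q) (EG K g) := by
  have := hM.1
  have : Nonempty (Fin N) := ⟨⟨0, hN⟩⟩
  have := isProb_unif (D := Fin K → Fin N)
  have hXi := (integrable_map_measure continuous_norm.aestronglyMeasurable
    (measurable_clause N).aemeasurable).1 (clauseLaw_spec hM hN).2.1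
  rw [clauseLaw, integral_cp _ (measurable_clause N) hXi ha (logZ_lip hg0), Gval]
  congr 1
  funext k
  rw [integral_pi_prod_unif _ (ass_int_sum _ (measurable_clause N) hXi (logZ_lip hg0) k), kV,
    integral_map measurable_yV.aemeasurable (ev_EG K hg k).1.aestronglyMeasurable]
  congr 1
  funext c
  refine (Fintype.expect_equiv (Equiv.curry _ _ _) _ _ fun idx => ?_).symm
  simp only [logZ, yV, Finset.sum_apply, mul_comm (g _)]
  rfl

theorem assV_rep (hM : Model K Q Ph) {N : ℕ} (hN : 1 ≤ N) {a : ℝ} (ha : 0 ≤ a)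
    {w : (Fin N → Bool) → ℝ} (hw : ∀ s, 0 < w s) (H : En N) :
    Gval a (kV K Q) (EG K (gib fun s => Real.exp (H s) * w s)) =
      ∫ Y, logZ w (H + Y) ∂cp (ENNReal.ofReal a • clauseLaw K Q N) - logZ w H := by
  have := (clauseLaw_spec hM hN).1
  obtain ⟨h1, h2, -⟩ := ass_cp (clauseLaw_spec hM hN).2.1 ha
  simp only [logZ_add hw]
  rw [integral_add (integrable_const _) (integrable_lip h2 (logZ_lip (ass_gib hw H).2)),
    cavV_int hM hN ha (ass_gib hw H).1 (ass_gib hw H).2]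
  simp

theorem continuous_GvalV (hM : Model K Q Ph) {N : ℕ} (hN : 1 ≤ N) {a : ℝ} (ha : 0 ≤ a)
    {w : (Fin N → Bool) → ℝ} (hw : ∀ s, 0 < w s) :
    Continuous fun H : En N => Gval a (kV K Q) (EG K (gib fun s => Real.exp (H s) * w s)) := by
  have := (clauseLaw_spec hM hN).1
  obtain ⟨h1, h2, -⟩ := ass_cp (clauseLaw_spec hM hN).2.1 ha
  simp only [assV_rep hM hN ha hw]
  exact (integral_conv_lip h2 h2 (logZ_lip hw)).1.continuous.sub (logZ_lip hw).continuous

theorem hamLaw_add (hM : Model K Q Ph) {N : ℕ} (hN : 1 ≤ N) {a b : ℝ} (ha : 0 ≤ a) (hb : 0 ≤ b) :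
    hamLaw K Q Ph N (a + b) =
      (hamLaw K Q Ph N a).conv (cp (ENNReal.ofReal b • clauseLaw K Q N)) := by
  obtain ⟨c1, c2, -⟩ := clauseLaw_spec hM hN
  have := (ass_cp c2 ha).1
  have := (ass_cp c2 hb).1
  have := (fieldLaw_spec hM N).1
  rw [hamLaw, hamLaw, ass_cp_add _ ha hb, Measure.conv_assoc]

theorem assV (hK : 1 ≤ K) (hM : Model K Q Ph) {lam : ℝ} (hlam : 0 ≤ lam) {N : ℕ} (hN : 1 ≤ N)
    {w : (Fin N → Bool) → ℝ} (hw : ∀ s, 0 < w s) :
    ∫ H, logZ w H ∂hamLaw K Q Ph N (lam * N) ≤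
      ∫ H, logZ w H ∂hamLaw K Q Ph N (alphaN K lam N) +
      ∫ H, Gval ((K - 1) * lam) (kV K Q) (EG K (gib fun s => Real.exp (H s) * w s))
        ∂hamLaw K Q Ph N (alphaN K lam N) +
      ((K - 1) * lam - (lam * N - alphaN K lam N)) * ∫ q, ‖theta q‖ ∂Q := by
  obtain ⟨b1, b2, b3, -⟩ := alpha_beta_bounds hK hlam N
  obtain ⟨c1, c2, c3⟩ := clauseLaw_spec hM hN
  have hk : 0 ≤ ((K : ℝ) - 1) * lam := by linarith
  have hd : 0 ≤ (K - 1) * lam - (lam * N - alphaN K lam N) := by linarith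
  obtain ⟨p1, p2⟩ := hamLaw_spec hM hN (alphaN K lam N)
  obtain ⟨p3, p4⟩ := hamLaw_spec hM hN (lam * N)
  obtain ⟨q1, q2, -⟩ := ass_cp c2 hk
  obtain ⟨q3, q4, q5⟩ := ass_cp c2 hd
  have e : (hamLaw K Q Ph N (alphaN K lam N)).conv
      (cp (ENNReal.ofReal ((K - 1) * lam) • clauseLaw K Q N)) =
      (hamLaw K Q Ph N (lam * N)).conv (cp (ENNReal.ofReal
        ((K - 1) * lam - (lam * N - alphaN K lam N)) • clauseLaw K Q N)) := by
    rw [← hamLaw_add hM hN b1 hk, ← hamLaw_add hM hN (by positivity) hd]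
    congr 1
    ring
  have h1 := conv_lip p4 q4 (logZ_lip hw)
  obtain ⟨l1, l2⟩ := integral_conv_lip p2 q2 (logZ_lip hw)
  rw [← e, l2] at h1
  simp only [assV_rep hM hN hk hw]
  rw [integral_sub (integrable_lip p2 l1) (integrable_lip p2 (logZ_lip hw))]
  have h2 := mul_le_mul_of_nonneg_left c3 hd
  linarith [(abs_le.1 h1).1]

end Vale.Agent.P168
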