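import Vale.Agent.P168.Core

/-! P168 Avg: uniform averages over products of finite sets.
Plan. `expect_merge`: `(x, x') ↦ (piecewise S x' x, piecewise S x x')` is an involution of
`piFinset T ×ˢ piFinset T` (`Finset.expect_product`, `Finset.expect_nbij'`). `expect_prod_pi`:
`Finset.prod_univ_sum`, `Fintype.card_piFinset`. `expect_reindex`: `x ↦ x ∘ e` is a bijection of
`piFinset T`. `expect_subset`: split `B = A ∪ (B \ A)` after subtracting `c`. `expect_shift`: by
`expect_merge` with `S = {t}` reduce to one coordinate; the sums over `Ioc M (2M)` of `G (m - 1)`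
and `G m` differ by `G M - G (2M)`. -/

open MeasureTheory ProbabilityTheory Function Filter Topology
open scoped BigOperators

noncomputable section

namespace Vale.Agent.P168

variable {ι : Type} [Fintype ι] [DecidableEq ι]

theorem abs_expect_le {α : Type} (A : Finset α) {F : α → ℝ} {c : ℝ} (hc : 0 ≤ c)
    (hF : ∀ a ∈ A, |F a| ≤ c) : |𝔼 a ∈ A, F a| ≤ c := by
  rcases A.eq_empty_or_nonempty with rfl | h
  · simpa using hc
  have h0 : (0 : ℝ) < A.card := by exact_mod_cast h.card_pos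
  rw [Finset.expect_eq_sum_div_card, abs_div, abs_of_pos h0, div_le_iff₀ h0]
  exact (Finset.abs_sum_le_sum_abs _ _).trans
    ((Finset.sum_le_card_nsmul _ _ c hF).trans (le_of_eq (by simp [mul_comm])))

theorem abs_expect_sub_le {α : Type} (A : Finset α) {F G : α → ℝ} {c : ℝ} (hc : 0 ≤ c)
    (hF : ∀ a ∈ A, |F a - G a| ≤ c) : |𝔼 a ∈ A, F a - 𝔼 a ∈ A, G a| ≤ c := by
  rw [← Finset.expect_sub_distrib]
  exact abs_expect_le A hc hF

theorem expect_merge (T : ι → Finset ℕ) (hT : ∀ i, (T i).Nonempty) (S : Finset ι)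
    (F : (ι → ℕ) → ℝ) :
    𝔼 x ∈ Fintype.piFinset T, F x =
      𝔼 x ∈ Fintype.piFinset T, 𝔼 x' ∈ Fintype.piFinset T, F (S.piecewise x' x) := by
  have hne : (Fintype.piFinset T).Nonempty := Fintype.piFinset_nonempty.2 hT
  have hm : ∀ p ∈ Fintype.piFinset T ×ˢ Fintype.piFinset T,
      (S.piecewise p.2 p.1, S.piecewise p.1 p.2) ∈ Fintype.piFinset T ×ˢ Fintype.piFinset T := by
    intro p hp
    simp only [Finset.mem_product, Fintype.mem_piFinset] at hp ⊢
    refine ⟨fun i => ?_, fun i => ?_⟩ <;> by_cases h : i ∈ S <;>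
      simp [Finset.piecewise, h, hp.1 i, hp.2 i]
  have hi : ∀ p : (ι → ℕ) × (ι → ℕ), (S.piecewise (S.piecewise p.1 p.2) (S.piecewise p.2 p.1),
      S.piecewise (S.piecewise p.2 p.1) (S.piecewise p.1 p.2)) = p := fun p => by
    refine Prod.ext (funext fun i => ?_) (funext fun i => ?_) <;> by_cases h : i ∈ S <;>
      simp [Finset.piecewise, h]
  rw [← Finset.expect_product' _ _ fun x x' => F (S.piecewise x' x),
    Finset.expect_nbij' (fun p => (S.piecewise p.2 p.1, S.piecewise p.1 p.2))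
      (fun p => (S.piecewise p.2 p.1, S.piecewise p.1 p.2)) hm (g := fun p => F p.1)
      hm (fun p _ => hi p) (fun p _ => hi p) fun _ _ => rfl,
    Finset.expect_product' _ _ fun x _ => F x]
  simp only [Finset.expect_const hne]

theorem expect_prod_pi (T : ι → Finset ℕ) (hT : ∀ i, (T i).Nonempty) {κ : Type} [Fintype κ]
    (e : κ → ι) (he : Injective e) (g : κ → ℕ → ℝ) :
    𝔼 x ∈ Fintype.piFinset T, ∏ j, g j (x (e j)) = ∏ j, 𝔼 a ∈ T (e j), g j a := by
  have h1 : ∀ x : ι → ℕ, ∏ j, g j (x (e j)) = ∏ i, extend e g (fun _ _ => 1) i (x i) := fun x =>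
    Fintype.prod_of_injective e he _ _ (fun i hi => by rw [extend_apply' _ _ _ hi])
      fun j => by rw [he.extend_apply]
  simp only [h1]
  rw [Finset.expect_eq_sum_div_card, ← Finset.prod_univ_sum, Fintype.card_piFinset, Nat.cast_prod,
    ← Finset.prod_div_distrib]
  refine (Fintype.prod_of_injective e he _ _ (fun i hi => ?_) fun j => ?_).symm
  · have : ((T i).card : ℝ) ≠ 0 := by exact_mod_cast (hT i).card_pos.ne'
    simp [extend_apply' _ _ _ hi, this]
  · rw [he.extend_apply, Finset.expect_eq_sum_div_card]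

theorem expect_reindex (T : ι → Finset ℕ) (e : Equiv.Perm ι) (he : ∀ i, T (e i) = T i)
    (F : (ι → ℕ) → ℝ) :
    𝔼 x ∈ Fintype.piFinset T, F (fun i => x (e i)) = 𝔼 x ∈ Fintype.piFinset T, F x := by
  refine Finset.expect_nbij' (fun x i => x (e i)) (fun x i => x (e.symm i)) (fun x hx => ?_)
    (fun x hx => ?_) (fun x _ => by simp) (fun x _ => by simp) fun _ _ => rfl
  · rw [Fintype.mem_piFinset] at hx ⊢
    exact fun i => he i ▸ hx (e i)
  · rw [Fintype.mem_piFinset] at hx ⊢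
    intro i
    have := hx (e.symm i)
    rwa [← he, e.apply_symm_apply] at this

theorem expect_subset {α : Type} {A B : Finset α} (hAB : A ⊆ B) (hA : A.Nonempty) {F : α → ℝ}
    {c δ : ℝ} (hF : ∀ a ∈ B, |F a - c| ≤ δ) :
    |𝔼 a ∈ B, F a - 𝔼 a ∈ A, F a| ≤ 2 * δ * (1 - (A.card : ℝ) / B.card) := by
  classical
  have ha : (0 : ℝ) < A.card := by exact_mod_cast hA.card_pos
  have hab : (A.card : ℝ) ≤ B.card := by exact_mod_cast Finset.card_le_card hAB
  have hb : (0 : ℝ) < B.card := ha.trans_le hab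
  have h1 : |∑ a ∈ A, (F a - c)| ≤ A.card * δ := (Finset.abs_sum_le_sum_abs _ _).trans
    ((Finset.sum_le_card_nsmul _ _ δ fun a h => hF a (hAB h)).trans (le_of_eq (by simp)))
  have h2 : |∑ a ∈ B \ A, (F a - c)| ≤ (B.card - A.card) * δ :=
    (Finset.abs_sum_le_sum_abs _ _).trans ((Finset.sum_le_card_nsmul _ _ δ fun a h =>
      hF a (Finset.mem_sdiff.1 h).1).trans (le_of_eq (by
        rw [Finset.card_sdiff_of_subset hAB, nsmul_eq_mul, Nat.cast_sub (Finset.card_le_card hAB)])))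
  have h3 : 𝔼 a ∈ B, F a - 𝔼 a ∈ A, F a = (∑ a ∈ B \ A, (F a - c)) / B.card -
      (∑ a ∈ A, (F a - c)) * ((B.card - A.card) / (A.card * B.card)) := by
    rw [Finset.sum_sdiff_eq_sub hAB, Finset.expect_eq_sum_div_card, Finset.expect_eq_sum_div_card]
    simp only [Finset.sum_sub_distrib, Finset.sum_const, nsmul_eq_mul]
    field_simp
    ring
  have h4 : (0 : ℝ) ≤ (B.card - A.card) / (A.card * B.card) :=
    div_nonneg (sub_nonneg.2 hab) (by positivity)
  rw [h3]
  refine (abs_sub _ _).trans ?_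
  rw [abs_div, abs_mul, abs_of_pos hb, abs_of_nonneg h4]
  refine (add_le_add (div_le_div_of_nonneg_right h2 hb.le)
    (mul_le_mul_of_nonneg_right h1 h4)).trans (le_of_eq ?_)
  field_simp
  ring

theorem expect_shift {L : ℕ} {M : ℕ → ℕ} (hM : ∀ s, 1 ≤ M s) (t : Fin L) {F : (Fin L → ℕ) → ℝ}
    {c : ℝ} (hF : ∀ mc, |F mc| ≤ c) :
    |𝔼 mc ∈ CS L M, F (update mc t (mc t - 1)) - 𝔼 mc ∈ CS L M, F mc| ≤ 2 * c / M (t + 1) := by
  have hT : ∀ t : Fin L, (Finset.Ioc (M (t + 1)) (2 * M (t + 1))).Nonempty := fun t =>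
    Finset.nonempty_Ioc.2 (by have := hM (t + 1); omega)
  have h0 : (0 : ℝ) < M (t + 1) := by exact_mod_cast hM _
  have hc : 0 ≤ c := (abs_nonneg _).trans (hF 0)
  have h1 : ∀ G : ℕ → ℝ, 𝔼 x ∈ CS L M, G (x t) =
      𝔼 a ∈ Finset.Ioc (M (t + 1)) (2 * M (t + 1)), G a := fun G => by
    simpa [CS] using expect_prod_pi _ hT (fun _ : Unit => t) (fun _ _ _ => rfl) fun _ => G
  have h2 : ∀ (G : ℕ → ℝ) (m n : ℕ), ∑ a ∈ Finset.Ioc m (m + n), (G (a - 1) - G a) =
      G m - G (m + n) := by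
    intro G m n
    induction n with
    | zero => simp
    | succ n ih => rw [← add_assoc, Finset.sum_Ioc_succ_top (by omega), ih]; simp
  rw [CS, expect_merge _ hT {t}, expect_merge _ hT {t} F]
  refine abs_expect_sub_le _ (by positivity) fun x _ => ?_
  simp only [Finset.piecewise_singleton, update_idem, update_self]
  rw [← CS, h1 fun a => F (update x t (a - 1)), h1 fun a => F (update x t a),
    ← Finset.expect_sub_distrib, Finset.expect_eq_sum_div_card, two_mul (M _),
    h2 fun a => F (update x t a), Nat.card_Ioc, Nat.add_sub_cancel, abs_div, abs_of_pos h0]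
  refine div_le_div_of_nonneg_right ((abs_sub _ _).trans ?_) h0.le
  linarith [hF (update x t (M (t + 1))), hF (update x t (M (t + 1) + M (t + 1)))]

theorem card_PS_ratio (L B : ℕ) (M : ℕ → ℕ) (hM : ∀ s, 1 ≤ M s) {N : ℕ} (hN : 1 ≤ N) :
    PS L B N M ⊆ PS L B (N + 1) M ∧
      1 - ((PS L B N M).card : ℝ) / (PS L B (N + 1) M).card ≤ (L * B * B : ℝ) / (N + 1) := by
  have h1 : ∀ i : PI L B, tgt N M i ≤ tgt (N + 1) M i ∧ 1 ≤ tgt (N + 1) M i ∧
      N * tgt (N + 1) M i ≤ (N + 1) * tgt N M i := by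
    intro i
    unfold tgt pool
    split_ifs
    · exact ⟨by omega, by omega, le_of_eq (mul_comm _ _)⟩
    · exact ⟨le_rfl, hM _, Nat.mul_le_mul_right _ (by omega)⟩
    · omega
    · omega
  refine ⟨Fintype.piFinset_subset _ _ fun i => Finset.range_mono (h1 i).1, ?_⟩
  have h2 : (1 + -(1 / ((N : ℝ) + 1))) ^ (L * B * B) ≤
      ((PS L B N M).card : ℝ) / (PS L B (N + 1) M).card := by
    simp only [PS, Fintype.card_piFinset, Finset.card_range, Nat.cast_prod]
    rw [← Finset.prod_div_distrib, show L * B * B = (Finset.univ : Finset (PI L B)).card by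
      simp [mul_assoc], ← Finset.prod_const]
    have e : 1 + -(1 / ((N : ℝ) + 1)) = N / (N + 1) := by field_simp; ring
    rw [e]
    refine Finset.prod_le_prod (fun _ _ => by positivity) fun i _ => ?_
    rw [div_le_div_iff₀ (by positivity) (by exact_mod_cast (h1 i).2.1), mul_comm (_ : ℝ) (_ + _)]
    exact_mod_cast (h1 i).2.2
  have h3 := one_add_mul_le_pow (a := -(1 / ((N : ℝ) + 1))) (by
    have : 1 / ((N : ℝ) + 1) ≤ 1 := (div_le_one (by positivity)).2 (by simp)
    linarith) (L * B * B)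
  push_cast at h3
  rw [mul_neg, mul_one_div] at h3
  linarith

theorem exists_scal (L j : ℕ) : ∃ B M, Scal L B M j := by
  have key : ∀ d, ∃ M : ℕ → ℕ, (∀ s, 1 ≤ M s) ∧ ∀ t < L, L ≤ t + d →
      (j + 1) * (1 + ∑ t' ∈ Finset.Ioo t L, 2 * M (t' + 1) * (jl t').length) ≤ M (t + 1) := by
    intro d
    induction d with
    | zero => exact ⟨fun _ => 1, fun _ => le_rfl, fun t h1 h2 => by omega⟩
    | succ d ih =>
      obtain ⟨M, h1, h2⟩ := ih
      obtain ⟨t₀, h0⟩ : ∃ t₀, t₀ = L - (d + 1) := ⟨_, rfl⟩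
      obtain ⟨v, hv⟩ : ∃ v, v = M (t₀ + 1) +
        (j + 1) * (1 + ∑ t' ∈ Finset.Ioo t₀ L, 2 * M (t' + 1) * (jl t').length) := ⟨_, rfl⟩
      refine ⟨update M (t₀ + 1) v, fun s => ?_, fun t h3 h4 => ?_⟩
      · by_cases h : s = t₀ + 1
        · have := h1 s
          rw [h, update_self, hv, ← h]; omega
        · rw [update_of_ne h]; exact h1 s
      · rw [Finset.sum_congr rfl (g := fun t' => 2 * M (t' + 1) * (jl t').length) fun t' ht' => by
          rw [update_of_ne (by have := (Finset.mem_Ioo.1 ht').1; omega)]]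
        by_cases h : t = t₀
        · rw [h, update_self, hv]; omega
        · rw [update_of_ne (by omega)]; exact h2 t h3 (by omega)
  obtain ⟨M, h1, h2⟩ := key L
  refine ⟨∑ t ∈ Finset.range L, (2 * M (t + 1) + (jl t).length), M, h1, fun t ht => ?_⟩
  have := Finset.single_le_sum (f := fun t => 2 * M (t + 1) + (jl t).length)
    (fun _ _ => Nat.zero_le _) (Finset.mem_range.2 ht)
  exact ⟨by omega, by omega, h2 t ht (by omega)⟩

end Vale.Agent.P168
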