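import Vale.Agent.P168.Lower

/-! P168 Bdd: the set of trial values has a finite infimum. -/

open MeasureTheory ProbabilityTheory Function Filter Topology

noncomputable section

namespace Vale.Agent.P168

theorem trials_glb {K : ℕ} (hK : 1 ≤ K) {Q : Measure (Par K)} {Ph : Measure ℝ}
    (hM : Model K Q Ph) {lam : ℝ} (hlam : 0 ≤ lam) :
    IsGLB (trials K lam Q Ph) (sInf (trials K lam Q Ph)) := by
  have hk : (1 : ℝ) ≤ K := by exact_mod_cast hK
  have h1 : 0 ≤ (K : ℝ) * lam := by positivity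
  have h2 : 0 ≤ ((K : ℝ) - 1) * lam := mul_nonneg (by linarith) hlam
  obtain ⟨C, hC⟩ := mom_kU hK hM
  obtain ⟨C', hC'⟩ := mom_kV hM
  refine isGLB_csInf ⟨_, 0, Fin.elim0, fun _ => 0, fun a => a.elim0, fun a => a.elim0,
    measurable_const, fun _ => by simp, rfl⟩ ⟨-(C * (1 + K * lam)) - C' * (1 + (K - 1) * lam), ?_⟩
  rintro v ⟨r, m, x, hm1, hm2, hxm, hx, rfl⟩
  have hE := ev_Ehier K ⟨hm1, hm2⟩ hxm hx
  rw [trial_eq_val hK lam hM ⟨hm1, hm2⟩ hxm hx, val]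
  linarith [(abs_le.1 (abs_Gval_le h1 hC hE)).1, (abs_le.1 (abs_Gval_le h2 hC' hE)).2]

end Vale.Agent.P168
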