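import Vale.Agent.P168.CubeB

/-! P168 Cons: duplication, Ghirlanda-Guerra identities, freshness.
Plan. Invariance: `ν.real (act e ⁻¹' A) = ν.real A` for measurable `A`. `dup`: let `n = p + 1`,
`τ = swap l p`, `E' = act τ ⁻¹' E`; `Aprop` with `Γ = E'` gives
`ν E' ≤ n ν (E' ∩ act (swap p n) ⁻¹' E')` (the sum has the single term `l = p`, `swap p p = refl`,
the last term is nonnegative); `act τ ⁻¹' (E ∩ act (swap l n) ⁻¹' E) = E' ∩ act (swap p n) ⁻¹' E'`
by `act_act` and `τ * swap l n = swap p n * τ`. `ggi`: conjugate by `swap 0 l` to reduce to `l = 0`;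
`Aprop` with `p = 1`, `Γ = {B 0 1 ∈ S}`; by `Triv` the conditional expectation is a.e. the constant
`ν.real E` (`cond_triv`: an `Fs 1`-measurable function factors through `res 1`; or every
`Fs 1`-measurable set has measure 0 or 1; use `ae_eq_condExp_of_forall_setIntegral_eq`).
`fresh`: `Aprop` with `n = p + 1`; all terms vanish, `∫_{S2} E[1_S1|F] = ∫ E[1_S1|F] E[1_S2|F]`. -/

open MeasureTheory ProbabilityTheory Function Filter Topology
open scoped BigOperators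

noncomputable section

namespace Vale.Agent.P168

variable {ν : Measure X}

theorem real_preimage_act (h : Str ν) (e : Equiv.Perm ℕ) {A : Set X} (hA : MeasurableSet A) :
    ν.real (act e ⁻¹' A) = ν.real A := by
  rw [measureReal_def, ← Measure.map_apply (measurable_act e) hA, h.2.1 e, measureReal_def]

theorem ae_act (h : Str ν) (e : Equiv.Perm ℕ) {p : X → Prop} (hp : ∀ᵐ ω ∂ν, p ω) :
    ∀ᵐ ω ∂ν, p (act e ω) := by
  refine ae_of_ae_map (measurable_act e).aemeasurable ?_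
  rw [h.2.1 e]
  exact hp

theorem integral_act (h : Str ν) (e : Equiv.Perm ℕ) {f : X → ℝ} (hf : Measurable f) :
    ∫ ω, f (act e ω) ∂ν = ∫ ω, f ω ∂ν := by
  rw [← integral_map (measurable_act e).aemeasurable hf.aestronglyMeasurable, h.2.1 e]

theorem cond_triv (h : Str ν) {E : Set X} (hE : MeasurableSet E) :
    ∀ᵐ ω ∂ν, (ν[E.indicator (fun _ => (1 : ℝ)) | Fs 1]) ω = ν.real E := by
  have := h.1
  obtain ⟨ω0, h0⟩ := h.2.2.2.1
  obtain ⟨ω1, h1⟩ := h0.exists
  have hm : Measurable[Fs 1] (ν[E.indicator (fun _ => (1 : ℝ)) | Fs 1]) :=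
    stronglyMeasurable_condExp.measurable
  have hf := Measurable.factorsThrough hm
  have hc : ∀ᵐ ω ∂ν, (ν[E.indicator (fun _ => (1 : ℝ)) | Fs 1]) ω =
      (ν[E.indicator (fun _ => (1 : ℝ)) | Fs 1]) ω1 :=
    h0.mono fun ω hω => hf (hω.trans h1.symm)
  have h2 := integral_condExp (μ := ν) (f := E.indicator fun _ => (1 : ℝ)) (Fs_le 1)
  rw [integral_congr_ae hc, integral_indicator_const _ hE] at h2
  simp only [integral_const, probReal_univ, smul_eq_mul, one_mul, mul_one] at h2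
  exact hc.mono fun ω hω => hω.trans h2

theorem cons_swap_lt {n a b : ℕ} (ha : a < n) (hb : b < n) :
    ∀ i < n, Equiv.swap a b i < n := by
  intro i hi
  rw [Equiv.swap_apply_def]
  split_ifs <;> assumption

theorem cons_nonneg {p : ℕ} (E Γ : Set X) :
    0 ≤ ∫ ω in Γ, (ν[E.indicator (fun _ => (1 : ℝ)) | Fs p]) ω ∂ν := by
  refine integral_nonneg_of_ae (ae_restrict_of_ae (condExp_nonneg ?_))
  exact Eventually.of_forall fun ω => Set.indicator_nonneg (fun _ _ => zero_le_one) ω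

theorem dup (h : Str ν) {n l : ℕ} (hn : 2 ≤ n) (hl : l < n) {E : Set X} (hE : IsF n E) :
    ν.real E ≤ n * ν.real (E ∩ act (Equiv.swap l n) ⁻¹' E) := by
  obtain ⟨p, rfl⟩ : ∃ p, n = p + 1 := ⟨n - 1, by omega⟩
  have hE' : IsF (p + 1) (act (Equiv.swap l p) ⁻¹' E) :=
    hE.preimage_act (cons_swap_lt hl (Nat.lt_succ_self p))
  have h1 := h.2.2.2.2 p (p + 1) _ _ (by omega) (by omega) hE' hE'
  have e1 : act (Equiv.swap p p) ⁻¹' (act (Equiv.swap l p) ⁻¹' E) =
      act (Equiv.swap l p) ⁻¹' E := by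
    ext ω
    have : Equiv.swap p p = 1 := Equiv.swap_self p
    simp only [Set.mem_preimage, this, act_one]
  rw [Nat.Ico_succ_singleton, Finset.sum_singleton, e1, Set.inter_self,
    real_preimage_act h _ hE.1] at h1
  have e2 : act (Equiv.swap l p) ⁻¹' (E ∩ act (Equiv.swap l (p + 1)) ⁻¹' E) =
      act (Equiv.swap l p) ⁻¹' E ∩
        act (Equiv.swap p (p + 1)) ⁻¹' (act (Equiv.swap l p) ⁻¹' E) := by
    ext ω
    have e3 : Equiv.swap l p * Equiv.swap l (p + 1) = Equiv.swap p (p + 1) * Equiv.swap l p := by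
      rw [Equiv.mul_swap_eq_swap_mul, Equiv.swap_apply_left,
        Equiv.swap_apply_of_ne_of_ne (by omega) (by omega)]
    simp only [Set.mem_preimage, Set.mem_inter_iff, act_act, e3]
  rw [← e2, real_preimage_act h _ (hE.1.inter (measurable_act _ hE.1))] at h1
  have h2 := cons_nonneg (ν := ν) (p := p) (act (Equiv.swap l p) ⁻¹' E)
    (act (Equiv.swap l p) ⁻¹' E)
  have h3 : (0 : ℝ) ≤ p := Nat.cast_nonneg p
  have h4 := mul_nonneg h3 h2
  linarith

theorem ggi (h : Str ν) {B : ℕ → ℕ → X → ℝ} (hB : Pair B) {n l : ℕ} (hl : l < n) {E : Set X}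
    (hE : IsF n E) {S : Set ℝ} (hS : MeasurableSet S) :
    n * ν.real (E ∩ {ω | B l n ω ∈ S}) =
      ∑ l' ∈ (Finset.range n).erase l, ν.real (E ∩ {ω | B l l' ω ∈ S}) +
        ν.real E * ν.real {ω | B 0 1 ω ∈ S} := by
  have := h.1
  have hn : 0 < n := by omega
  have hE' : IsF n (act (Equiv.swap 0 l) ⁻¹' E) := hE.preimage_act (cons_swap_lt hn hl)
  have hΓ : IsF (1 + 1) {ω | B 0 1 ω ∈ S} :=
    ⟨hB.1 0 1 hS, fun ω => by
      show B 0 1 (res _ ω) ∈ S ↔ B 0 1 ω ∈ S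
      rw [hB.2.2.2.1 _ 0 1 ω (by omega) (by omega)]⟩
  have h1 := h.2.2.2.2 1 n _ _ le_rfl hn hE' hΓ
  have e1 : ∀ m, 1 ≤ m → act (Equiv.swap 1 m) ⁻¹' {ω | B 0 1 ω ∈ S} = {ω | B 0 m ω ∈ S} := by
    intro m hm
    ext ω
    simp only [Set.mem_preimage, Set.mem_ofPred_eq, hB.2.2.1, Equiv.swap_apply_left]
    rw [Equiv.swap_apply_of_ne_of_ne (by omega) (by omega)]
  have e2 : ∀ l', ν.real (E ∩ {ω | B l l' ω ∈ S}) =
      ν.real (act (Equiv.swap 0 l) ⁻¹' E ∩ {ω | B 0 (Equiv.swap 0 l l') ω ∈ S}) := by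
    intro l'
    have hm : MeasurableSet (E ∩ {ω | B l l' ω ∈ S}) := hE.1.inter (hB.1 l l' hS)
    rw [← real_preimage_act h (Equiv.swap 0 l) hm]
    congr 1
    ext ω
    simp only [Set.mem_preimage, Set.mem_inter_iff, Set.mem_ofPred_eq, hB.2.2.1,
      Equiv.swap_apply_right]
  have e3 : ∫ ω in {ω | B 0 1 ω ∈ S},
      (ν[(act (Equiv.swap 0 l) ⁻¹' E).indicator (fun _ => (1 : ℝ)) | Fs 1]) ω ∂ν =
      ν.real E * ν.real {ω | B 0 1 ω ∈ S} := by
    rw [integral_congr_ae (ae_restrict_of_ae (cond_triv h hE'.1)), real_preimage_act h _ hE.1]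
    simp [mul_comm]
  rw [e3, e1 n hn, Nat.cast_one, one_mul] at h1
  rw [e2 n, Equiv.swap_apply_of_ne_of_ne (by omega) (by omega), h1]
  congr 1
  symm
  refine Finset.sum_nbij' (fun l' => Equiv.swap 0 l l') (fun m => Equiv.swap 0 l m) ?_ ?_ ?_ ?_ ?_
  · intro a ha
    rw [Finset.mem_erase, Finset.mem_range] at ha
    rw [Finset.mem_Ico]
    refine ⟨?_, cons_swap_lt hn hl a ha.2⟩
    rw [Equiv.swap_apply_def]
    split_ifs <;> omega
  · intro a ha
    rw [Finset.mem_Ico] at ha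
    rw [Finset.mem_erase, Finset.mem_range]
    refine ⟨?_, cons_swap_lt hn hl a ha.2⟩
    rw [Equiv.swap_apply_def]
    split_ifs <;> omega
  · intro a _
    exact Equiv.swap_apply_self _ _ _
  · intro a _
    exact Equiv.swap_apply_self _ _ _
  · intro a ha
    rw [Finset.mem_erase, Finset.mem_range] at ha
    rw [e2 a, e1]
    rw [Equiv.swap_apply_def]
    split_ifs <;> omega

theorem fresh (h : Str ν) {p : ℕ} (hp : 1 ≤ p) {S1 S2 : Set X} (h1 : IsF (p + 1) S1)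
    (h2 : IsF (p + 1) S2) (h0 : ν (S1 ∩ act (Equiv.swap p (p + 1)) ⁻¹' S2) = 0) :
    ∀ᵐ ω ∂ν, (ν[S1.indicator (fun _ => (1 : ℝ)) | Fs p]) ω *
      (ν[S2.indicator (fun _ => (1 : ℝ)) | Fs p]) ω = 0 := by
  have := h.1
  have a1 := h.2.2.2.2 p (p + 1) S1 S2 hp (by omega) h1 h2
  have a2 : ν.real (S1 ∩ act (Equiv.swap p (p + 1)) ⁻¹' S2) = 0 := by
    rw [measureReal_def, h0, ENNReal.toReal_zero]
  have a3 := cons_nonneg (ν := ν) (p := p) S1 S2
  have a4 : 0 ≤ ∑ l ∈ Finset.Ico p (p + 1), ν.real (S1 ∩ act (Equiv.swap p l) ⁻¹' S2) :=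
    Finset.sum_nonneg fun _ _ => measureReal_nonneg
  have a5 : (0 : ℝ) < p := by exact_mod_cast hp
  have a6 : ∫ ω in S2, (ν[S1.indicator (fun _ => (1 : ℝ)) | Fs p]) ω ∂ν = 0 := by
    rw [a2, mul_zero] at a1
    have : (p : ℝ) * ∫ ω in S2, (ν[S1.indicator (fun _ => (1 : ℝ)) | Fs p]) ω ∂ν = 0 :=
      le_antisymm (by linarith) (mul_nonneg a5.le a3)
    exact (mul_eq_zero.1 this).resolve_left a5.ne'
  have e1 : (ν[S1.indicator (fun _ => (1 : ℝ)) | Fs p]) * S2.indicator (fun _ => (1 : ℝ)) =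
      S2.indicator (ν[S1.indicator (fun _ => (1 : ℝ)) | Fs p]) := by
    funext ω
    by_cases hω : ω ∈ S2 <;> simp [hω]
  have i1 : Integrable ((ν[S1.indicator (fun _ => (1 : ℝ)) | Fs p]) *
      S2.indicator (fun _ => (1 : ℝ))) ν := by
    rw [e1]
    exact integrable_condExp.indicator h2.1
  have i2 : Integrable (S2.indicator fun _ => (1 : ℝ)) ν := (integrable_const _).indicator h2.1
  have b1 := condExp_mul_of_stronglyMeasurable_left (m := Fs p) stronglyMeasurable_condExp i1 i2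
  have b2 := integral_condExp (μ := ν) (f := (ν[S1.indicator (fun _ => (1 : ℝ)) | Fs p]) *
      S2.indicator (fun _ => (1 : ℝ))) (Fs_le p)
  have b3 : ∫ ω, ((ν[S1.indicator (fun _ => (1 : ℝ)) | Fs p]) *
      S2.indicator (fun _ => (1 : ℝ))) ω ∂ν = 0 := by
    rw [e1, integral_indicator h2.1, a6]
  rw [b3] at b2
  have n1 : ∀ S : Set X, 0 ≤ᵐ[ν] ν[S.indicator (fun _ => (1 : ℝ)) | Fs p] := fun S =>
    condExp_nonneg
      (Eventually.of_forall fun ω => Set.indicator_nonneg (fun _ _ => zero_le_one) ω)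
  have b4 : 0 ≤ᵐ[ν] ν[(ν[S1.indicator (fun _ => (1 : ℝ)) | Fs p]) *
      S2.indicator (fun _ => (1 : ℝ)) | Fs p] := by
    filter_upwards [b1, n1 S1, n1 S2] with ω c1 c2 c3
    rw [c1]
    exact mul_nonneg c2 c3
  have b5 := (integral_eq_zero_iff_of_nonneg_ae b4 integrable_condExp).1 b2
  filter_upwards [b1, b5] with ω c1 c2
  rw [c1] at c2
  exact c2

end Vale.Agent.P168
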