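import Vale.Agent.P168.Trans

/-! P168 Consist: law of the pattern, positivity, consistency of moments.
Plan. `tau_law`: show `ν.real {tau (n+1) = d} = ∑ h, hP m h * (if pat h = d then 1 else 0)` by
induction on `n` (`trans_set` with `E = univ`, `up_eq_extPat`, `extPat_inj`, `sum_hist_succ`,
`lev_eq_jlev`; non ultrametric `d` have probability zero on both sides), then sum over the finite
range of `tau` (`tau_le`, `Fintype.piFinset`). `pr_pos`: induction with `kap_pos`.
`mom_castLE`: induction on `n - n0` with `trans_fun`, `trans_set`, `pr_pos` (the factor `kap`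
cancels; `ind (S.map castSucc) = ind S`). `consist`: extend `e` to a permutation `g` of `ℕ`
preserving `range (n+1)`: first a permutation `g'` of `Fin (n+1)` with `g' (castLE l) = e l`
(`Equiv.Perm.exists_extending_pair`), then `Equiv.Perm.viaEmbedding`/`extendDomain`;
`tau (act g ω) i j = tau ω (g' i) (g' j)`, `mapDomain_ind`, `integral_act`; so
`momP (n+1) d (S.map e) = momP (n+1) (d ∘ g') (S.map castLE)`. -/

open MeasureTheory ProbabilityTheory Function Filter Topology
open scoped BigOperators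

noncomputable section

namespace Vale.Agent.P168

variable {ν : Measure X} {r : ℕ}

theorem consist_univ (n : ℕ) : IsF n Set.univ := ⟨MeasurableSet.univ, fun _ => Iff.rfl⟩

theorem consist_one (t : Fin r → ℝ) (ω : X) : tau t 1 ω = fun _ _ => r := by
  funext i j
  exact if_pos (Subsingleton.elim _ _)

theorem consist_step (h : Str ν) {t m : Fin r → ℝ} (ht : Thr ν t m) {n : ℕ}
    {d : Fin (n + 1) → Fin (n + 1) → ℕ} (hd : UP r d) (π : Fin (n + 1) → ℕ) :
    ν.real {ω | tau t (n + 2) ω = extPat r d π} = kap m d π * ν.real {ω | tau t (n + 1) ω = d} := by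
  have h1 := trans_set h ht (consist_univ (n + 1)) hd π
  rwa [Set.univ_inter, Set.univ_inter] at h1

open Classical in
theorem consist_law (h : Str ν) {t m : Fin r → ℝ} (ht : Thr ν t m) :
    ∀ (n : ℕ) (d : Fin (n + 1) → Fin (n + 1) → ℕ), ν.real {ω | tau t (n + 1) ω = d} =
      ∑ hh : Hist r n, hP m hh * if pat hh = d then 1 else 0
  | 0, d => by
    have := h.1
    rw [sum_hist_zero]
    change ν.real {ω | tau t 1 ω = d} = 1 * if (fun _ _ => r) = d then (1 : ℝ) else 0
    simp only [consist_one]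
    split_ifs with h1 <;> simp [h1]
  | n + 1, d => by
    by_cases hd : UP r d
    · obtain ⟨h1, -, -, -, h2⟩ := up_eq_extPat hd
      generalize (fun i j : Fin (n + 1) => d i.castSucc j.castSucc) = d0 at h1 h2
      generalize (fun i : Fin (n + 1) => d i.castSucc (Fin.last (n + 1))) = π at h2
      subst h2
      rw [consist_step h ht h1, consist_law h ht n d0, sum_hist_succ, Finset.mul_sum]
      refine Finset.sum_congr rfl fun hh _ => ?_
      change _ = ∑ l, ∑ p : Fin (r + 1), hP m hh * (acoef m (lev hh l) p / (n + 1)) *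
        if extPat r (pat hh) (fun l' => min (p : ℕ) (pat hh l l')) = extPat r d0 π then 1 else 0
      by_cases h3 : pat hh = d0
      · subst h3
        rw [if_pos rfl, mul_one, mul_comm]
        unfold kap
        rw [Finset.mul_sum]
        refine Finset.sum_congr rfl fun l _ => ?_
        rw [Finset.mul_sum]
        refine Finset.sum_congr rfl fun p _ => ?_
        rw [lev_eq_jlev, mul_assoc]
        by_cases h4 : π = fun l' => min (p : ℕ) (pat hh l l')
        · rw [if_pos h4, if_pos (by rw [h4])]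
        · rw [if_neg h4, if_neg fun h5 => h4 (extPat_inj h5).2.symm]
      · rw [if_neg h3, mul_zero, mul_zero]
        refine (Finset.sum_eq_zero fun l _ => Finset.sum_eq_zero fun p _ => ?_).symm
        rw [if_neg fun h5 => h3 (extPat_inj h5).1, mul_zero]
    · rw [Finset.sum_eq_zero fun hh _ => by
        rw [if_neg fun h1 : pat hh = d => hd (h1 ▸ up_pat hh), mul_zero], ← measureReal_empty (μ := ν)]
      refine measureReal_congr ?_
      filter_upwards [up_tau h t (n + 2)] with ω hω
      exact propext ⟨fun h1 => hd (h1 ▸ hω), fun h1 => h1.elim⟩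

theorem tau_law (h : Str ν) {t m : Fin r → ℝ} (ht : Thr ν t m) (n : ℕ)
    (g : (Fin (n + 1) → Fin (n + 1) → ℕ) → ℝ) :
    Integrable (fun ω => g (tau t (n + 1) ω)) ν ∧
      ∫ ω, g (tau t (n + 1) ω) ∂ν = ∑ hh : Hist r n, hP m hh * g (pat hh) := by
  classical
  have := h.1
  obtain ⟨D, hD⟩ : ∃ D : Finset (Fin (n + 1) → Fin (n + 1) → ℕ), ∀ d, d ∈ D ↔ ∀ i j, d i j ≤ r :=
    ⟨Fintype.piFinset fun _ => Fintype.piFinset fun _ => Finset.range (r + 1), fun d => by
      simp only [Fintype.mem_piFinset, Finset.mem_range, Nat.lt_succ_iff]⟩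
  have e : (fun ω => g (tau t (n + 1) ω)) =
      fun ω => ∑ d ∈ D, {ω | tau t (n + 1) ω = d}.indicator (fun _ => g d) ω := by
    funext ω
    rw [Finset.sum_eq_single_of_mem _ ((hD _).2 (tau_le t (n + 1) ω))]
    · rw [Set.indicator_of_mem (by rfl)]
    · exact fun d _ hd => Set.indicator_of_notMem (fun h1 => hd (Eq.symm h1)) _
  have hi : ∀ d ∈ D, Integrable ({ω | tau t (n + 1) ω = d}.indicator fun _ => g d) ν :=
    fun d _ => (integrable_const _).indicator (isF_tau t _ d).1
  rw [e]
  refine ⟨integrable_finsetSum _ hi, ?_⟩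
  rw [integral_finsetSum _ hi]
  have h1 : ∀ d ∈ D, ∫ ω, {ω | tau t (n + 1) ω = d}.indicator (fun _ => g d) ω ∂ν =
      ∑ hh : Hist r n, hP m hh * if pat hh = d then g d else 0 := by
    intro d _
    rw [integral_indicator_const _ (isF_tau t _ d).1, consist_law h ht, smul_eq_mul, Finset.sum_mul]
    refine Finset.sum_congr rfl fun hh _ => ?_
    split_ifs <;> ring
  rw [Finset.sum_congr rfl h1, Finset.sum_comm]
  refine Finset.sum_congr rfl fun hh _ => ?_
  rw [← Finset.mul_sum, Finset.sum_ite_eq, if_pos ((hD _).2 (up_pat hh).2.2.1)]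

theorem pr_pos (h : Str ν) {t m : Fin r → ℝ} (ht : Thr ν t m) {n : ℕ}
    {d : Fin (n + 1) → Fin (n + 1) → ℕ} (hd : UP r d) :
    0 < ν.real {ω | tau t (n + 1) ω = d} := by
  have := h.1
  induction n with
  | zero =>
    have h1 : d = fun _ _ => r := by
      funext i j
      rw [Subsingleton.elim (α := Fin 1) i j]
      exact hd.1 j
    simp [consist_one, h1]
  | succ n ih =>
    obtain ⟨h1, l, p, h2, h3⟩ := up_eq_extPat hd
    rw [h3, consist_step h ht h1, h2]
    exact mul_pos (kap_pos ht.2.1 h1 l (Nat.lt_succ_iff.1 p.2)) (ih h1)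

theorem consist_ratio (h : Str ν) {t m : Fin r → ℝ} (ht : Thr ν t m) {n0 : ℕ} {f : X → ℝ}
    (hf : IsFf (n0 + 1) f) {n : ℕ} (hn : n0 ≤ n) : ∀ d : Fin (n + 1) → Fin (n + 1) → ℕ, UP r d →
      (∫ ω in {ω | tau t (n + 1) ω = d}, f ω ∂ν) / ν.real {ω | tau t (n + 1) ω = d} =
      (∫ ω in {ω | tau t (n0 + 1) ω = fun i j => d (Fin.castLE (Nat.succ_le_succ hn) i)
        (Fin.castLE (Nat.succ_le_succ hn) j)}, f ω ∂ν) /
        ν.real {ω | tau t (n0 + 1) ω = fun i j => d (Fin.castLE (Nat.succ_le_succ hn) i)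
          (Fin.castLE (Nat.succ_le_succ hn) j)} := by
  induction n, hn using Nat.le_induction with
  | base => exact fun d _ => rfl
  | succ n hn ih =>
    intro d hd
    obtain ⟨h1, l, p, h2, h3⟩ := up_eq_extPat hd
    refine Eq.trans ?_ (ih _ h1)
    have h4 := kap_pos ht.2.1 h1 l (Nat.lt_succ_iff.1 p.2)
    rw [← h2] at h4
    conv_lhs => rw [h3]
    rw [consist_step h ht h1, trans_fun h ht (hf.mono (Nat.succ_le_succ hn)) h1,
      mul_div_mul_left _ _ h4.ne']

theorem consist_isFf {n : ℕ} (S : Finset (Fin n)) : IsFf n (co 0 (ind S)) :=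
  isFf_co fun l hl => ((mem_support_ind S l).1 hl).1

theorem mom_castLE (h : Str ν) {t m : Fin r → ℝ} (ht : Thr ν t m) {n0 n : ℕ} (hn : n0 + 1 ≤ n + 1)
    {d : Fin (n + 1) → Fin (n + 1) → ℕ} (hd : UP r d) (S : Finset (Fin (n0 + 1))) :
    momP ν t (n + 1) d (S.map (Fin.castLEEmb hn)) =
      momP ν t (n0 + 1) (fun i j => d (Fin.castLE hn i) (Fin.castLE hn j)) S := by
  have e : ind (S.map (Fin.castLEEmb hn)) = ind S := by
    unfold ind
    rw [Finset.sum_map]
    rfl
  unfold momP
  rw [e]
  exact consist_ratio h ht (consist_isFf S) (Nat.le_of_succ_le_succ hn) d hd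

theorem consist (h : Str ν) {t m : Fin r → ℝ} (ht : Thr ν t m) {n0 n : ℕ}
    (e : Fin (n0 + 1) ↪ Fin (n + 1)) {d : Fin (n + 1) → Fin (n + 1) → ℕ} (hd : UP r d)
    (S : Finset (Fin (n0 + 1))) :
    momP ν t (n + 1) d (S.map e) = momP ν t (n0 + 1) (fun i j => d (e i) (e j)) S := by
  have hn : n0 + 1 ≤ n + 1 := by simpa using Fintype.card_le_of_embedding e
  obtain ⟨g, hg⟩ := Equiv.Perm.exists_extending_pair _ _ (Fin.castLE_injective hn) e.injective
  obtain ⟨G, hG⟩ := Equiv.Perm.exists_extending_pair (fun i : Fin (n + 1) => (i : ℕ))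
    (fun i : Fin (n + 1) => (g i : ℕ)) Fin.val_injective (Fin.val_injective.comp g.injective)
  have hd' : UP r fun i j => d (g i) (g j) :=
    ⟨fun i => hd.1 _, fun i j => hd.2.1 _ _, fun i j => hd.2.2.1 _ _, fun i j k => hd.2.2.2 _ _ _⟩
  have h1 := mom_castLE h ht hn hd' S
  simp only [hg] at h1
  rw [← h1]
  have h2 : ∀ ω i j, tau t (n + 1) (act G ω) i j = tau t (n + 1) ω (g i) (g j) := by
    intro ω i j
    unfold tau
    rw [pair_Rt.2.2.1, hG, hG]
    simp only [g.injective.eq_iff]
  have h3 : act G ⁻¹' {ω | tau t (n + 1) ω = fun i j => d (g i) (g j)} =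
      {ω | tau t (n + 1) ω = d} := by
    ext ω
    simp only [Set.mem_preimage, Set.mem_ofPred_eq]
    constructor
    · intro h4
      funext i j
      have h5 := congrFun (congrFun h4 (g.symm i)) (g.symm j)
      rwa [h2, g.apply_symm_apply, g.apply_symm_apply] at h5
    · intro h4
      funext i j
      rw [h2, h4]
  have h4 : (S.map (Fin.castLEEmb hn)).map g.toEmbedding = S.map e := by
    rw [Finset.map_map]
    congr 1
    ext1 l
    exact hg l
  have hm := (isF_tau t (n + 1) fun i j => d (g i) (g j)).1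
  unfold momP
  rw [← real_preimage_act h G hm, h3, ← integral_indicator hm,
    ← integral_act h G ((measurable_co _ _).indicator hm), ← integral_indicator (isF_tau t _ d).1]
  congr 1
  refine integral_congr_ae (Eventually.of_forall fun ω => ?_)
  dsimp only
  rw [← h3, ← h4, ← mapDomain_ind g.toEmbedding G hG (S.map (Fin.castLEEmb hn))]
  rfl

theorem mom_law (h : Str ν) {t m : Fin r → ℝ} (ht : Thr ν t m) {n : ℕ}
    {d : Fin (n + 1) → Fin (n + 1) → ℕ} (hd : UP r d) :
    IsPr (lamOf (momP ν t (n + 1) d)) := by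
  have := h.1
  have hp := pr_pos h ht hd
  have hi : ∀ (S : Finset (Fin (n + 1))) (A : Set X), Integrable (co 0 (ind S)) (ν.restrict A) :=
    fun S A => Integrable.of_bound (measurable_co _ _).aestronglyMeasurable 1
      (Eventually.of_forall fun ω => abs_co_le _ _ ω)
  refine ⟨fun e => ?_, ?_⟩
  · have h1 : lamOf (momP ν t (n + 1) d) e =
        (∫ ω in {ω | tau t (n + 1) ω = d}, lam (n + 1) ω e ∂ν) /
          ν.real {ω | tau t (n + 1) ω = d} := by
      unfold lam lamOf momP
      rw [integral_div, integral_finsetSum _ fun S _ => (hi S _).mul_const _, div_right_comm]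
      congr 1
      rw [Finset.sum_div]
      refine Finset.sum_congr rfl fun S _ => ?_
      rw [integral_mul_const]
      ring
    rw [h1]
    exact div_nonneg (integral_nonneg_of_ae
      (ae_restrict_of_ae (h.2.2.1.mono fun ω hω => hω.2.1 _ e))) hp.le
  · have h1 := sum_lamOf_mul (momP ν t (n + 1) d) ∅
    simp only [Finset.prod_empty, mul_one] at h1
    rw [h1]
    unfold momP
    have h2 : ∫ ω in {ω | tau t (n + 1) ω = d}, co 0 (ind (∅ : Finset (Fin (n + 1)))) ω ∂ν =
        ∫ _ω in {ω | tau t (n + 1) ω = d}, (1 : ℝ) ∂ν :=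
      integral_congr_ae (ae_restrict_of_ae (h.2.2.1.mono fun ω hω => hω.1 0))
    rw [h2, setIntegral_const, smul_eq_mul, mul_one, div_self hp.ne']

end Vale.Agent.P168
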