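import Vale.Agent.P168.Defs

/-! P168: internal definitions (finite hierarchical functional, histories, limit space,
perturbed system, compound Poisson laws).  No proofs here except tiny ones. See
`notes/P168.md` for the mathematics. -/

open MeasureTheory ProbabilityTheory Function
open scoped BigOperators

noncomputable section

namespace Vale.Agent.P168

abbrev Par (K : ℕ) := ℝ × ℝ × (Fin K → Bool → ℝ)

/-! ### Finite hierarchical functional -/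

/-- probability vector -/
def IsPr {α : Type} [Fintype α] (μ : α → ℝ) : Prop := (∀ a, 0 ≤ μ a) ∧ ∑ a, μ a = 1

/-- i.i.d. product weight -/
def cw {ι α : Type} [Fintype ι] (μ : α → ℝ) (x : ι → α) : ℝ := ∏ i, μ (x i)

/-- admissible exponents -/
def Adm {r : ℕ} (m : Fin r → ℝ) : Prop := StrictMono m ∧ ∀ p, 0 < m p ∧ m p < 1

def fstep {r : ℕ} {B : Type} [Fintype B] (μ : B → ℝ) (m : ℝ) (p : Fin (r + 1))
    (Y : (Fin (r + 1) → B) → ℝ) (w : Fin (r + 1) → B) : ℝ :=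
  (∑ u, μ u * Y (update w p u) ^ m) ^ (1 / m)

/-- `flev μ m Y p = Y_p` -/
def flev {r : ℕ} {B : Type} [Fintype B] (μ : B → ℝ) (m : Fin r → ℝ)
    (Y : (Fin (r + 1) → B) → ℝ) (p : ℕ) : (Fin (r + 1) → B) → ℝ :=
  ((List.finRange r).drop p).foldr (fun q Z => fstep μ (m q) q.succ Z) Y

def fT {r : ℕ} {B : Type} [Fintype B] (μ : B → ℝ) (m : Fin r → ℝ)
    (Y : (Fin (r + 1) → B) → ℝ) : ℝ :=
  ∑ w, cw μ w * Real.log (flev μ m Y 0 w)

/-- depends only on the levels `≤ p` -/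
def DepLe {r : ℕ} {B : Type} (p : ℕ) (F : (Fin (r + 1) → B) → ℝ) : Prop :=
  ∀ w w' : Fin (r + 1) → B, (∀ q : Fin (r + 1), (q : ℕ) ≤ p → w q = w' q) → F w = F w'

/-- depends only on the slots in `S` -/
def SlotDep {r : ℕ} {J A : Type} (S : Set J) (F : (Fin (r + 1) → J → A) → ℝ) : Prop :=
  ∀ w w' : Fin (r + 1) → J → A, (∀ p, ∀ j ∈ S, w p j = w' p j) → F w = F w'

/-- `mm m 0 = 0`, `mm m p = m_p` for `1 ≤ p ≤ r`, `mm m p = 1` for `p > r` -/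
def mm {r : ℕ} (m : Fin r → ℝ) (p : ℕ) : ℝ :=
  if p = 0 then 0 else if h : p - 1 < r then m ⟨p - 1, h⟩ else 1

/-- probability that `max j Q = p`, where `P (Q = q) = mm (q+1) - mm q` -/
def acoef {r : ℕ} (m : Fin r → ℝ) (j p : ℕ) : ℝ :=
  if p < j then 0 else if p = j then mm m (p + 1) else mm m (p + 1) - mm m p

/-- histories of `n + 1` replicas: each new replica picks an old one and a level -/
def Hist (r : ℕ) : ℕ → Type
  | 0 => Unit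
  | n + 1 => Hist r n × Fin (n + 1) × Fin (r + 1)

instance histFintype (r : ℕ) : ∀ n, Fintype (Hist r n)
  | 0 => inferInstanceAs (Fintype Unit)
  | n + 1 => @instFintypeProd (Hist r n) (Fin (n + 1) × Fin (r + 1)) (histFintype r n) _

/-- level at which each replica was attached -/
def lev {r : ℕ} : ∀ {n : ℕ}, Hist r n → Fin (n + 1) → ℕ
  | 0, _ => fun _ => 0
  | _ + 1, h => Fin.snoc (α := fun _ => ℕ) (lev h.1) (h.2.2 : ℕ)

/-- extension of a pattern by a new point with levels `π` to the old points -/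
def extPat {n : ℕ} (r : ℕ) (d : Fin n → Fin n → ℕ) (π : Fin n → ℕ) :
    Fin (n + 1) → Fin (n + 1) → ℕ :=
  Fin.snoc (α := fun _ => Fin (n + 1) → ℕ)
    (fun i => Fin.snoc (α := fun _ => ℕ) (d i) (π i)) (Fin.snoc (α := fun _ => ℕ) π r)

/-- the ultrametric pattern of a history -/
def pat {r : ℕ} : ∀ {n : ℕ}, Hist r n → Fin (n + 1) → Fin (n + 1) → ℕ
  | 0, _ => fun _ _ => r
  | _ + 1, h => extPat r (pat h.1) fun l => min (h.2.2 : ℕ) (pat h.1 h.2.1 l)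

/-- probability of a history -/
def hP {r : ℕ} (m : Fin r → ℝ) : ∀ {n : ℕ}, Hist r n → ℝ
  | 0, _ => 1
  | n + 1, h => hP m h.1 * (acoef m (lev h.1 h.2.1) h.2.2 / (n + 1))

/-- ultrametric patterns with values in `0..r` and diagonal `r` -/
def UP {n : ℕ} (r : ℕ) (d : Fin n → Fin n → ℕ) : Prop :=
  (∀ i, d i i = r) ∧ (∀ i j, d i j = d j i) ∧ (∀ i j, d i j ≤ r) ∧
    ∀ i j k, min (d i k) (d j k) ≤ d i j

def jlev {n : ℕ} (d : Fin n → Fin n → ℕ) (l : Fin n) : ℕ :=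
  (Finset.univ.filter (· < l)).sup (d l)

/-- transition probability from the pattern `d` to `extPat r d π` -/
def kap {r n : ℕ} (m : Fin r → ℝ) (d : Fin (n + 1) → Fin (n + 1) → ℕ) (π : Fin (n + 1) → ℕ) : ℝ :=
  ∑ l : Fin (n + 1), ∑ p : Fin (r + 1),
    acoef m (jlev d l) p / (n + 1) * (if π = fun l' => min (p : ℕ) (d l l') then 1 else 0)

open Classical in
/-- kernel: copy the path `w` up to level `p`, resample (with tilts `W`) beyond -/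
def ker {r : ℕ} {B : Type} (μ : B → ℝ) (W : ℕ → (Fin (r + 1) → B) → ℝ) (p : ℕ)
    (w w' : Fin (r + 1) → B) : ℝ :=
  (if ∀ q : Fin (r + 1), (q : ℕ) ≤ p → w' q = w q then 1 else 0) *
    ∏ q ∈ Finset.univ.filter (fun q : Fin (r + 1) => p < (q : ℕ)), μ (w' q) * W q w'

/-- joint weight of the paths of all replicas along a history -/
def wt {r : ℕ} {B : Type} (μ : B → ℝ) (W : ℕ → (Fin (r + 1) → B) → ℝ) :
    ∀ {n : ℕ}, Hist r n → (Fin (n + 1) → Fin (r + 1) → B) → ℝ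
  | 0, _, v => μ (v 0 0) * ker μ W 0 (v 0) (v 0)
  | n + 1, h, v => wt μ W h.1 (Fin.init v) *
      ker μ W h.2.2 (Fin.init v h.2.1) (v (Fin.last (n + 1)))

/-- the tilts `W_q = (Y_q / Y_(q-1)) ^ m_q` -/
def tilt {r : ℕ} {B : Type} [Fintype B] (μ : B → ℝ) (m : Fin r → ℝ)
    (Y : (Fin (r + 1) → B) → ℝ) (q : ℕ) (w : Fin (r + 1) → B) : ℝ :=
  (flev μ m Y q w / flev μ m Y (q - 1) w) ^ mm m q

/-- normalised tilts -/
def NormW {r : ℕ} {B : Type} [Fintype B] (μ : B → ℝ) (W : ℕ → (Fin (r + 1) → B) → ℝ) : Prop :=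
  (∀ q w, 0 ≤ W q w) ∧ (∀ q, DepLe q (W q)) ∧
    ∀ (q : Fin (r + 1)) (w : Fin (r + 1) → B), 0 < (q : ℕ) → ∑ u, μ u * W q (update w q u) = 1

/-! ### Cavity families -/

abbrev Yv (K k : ℕ) := (Fin k × Fin K → Bool) → ℝ

/-- multi-affine extension of `exp y` -/
def mext {J : Type} [Fintype J] [DecidableEq J] (y : (J → Bool) → ℝ) (x : J → ℝ) : ℝ :=
  ∑ e : J → Bool, Real.exp (y e) * ∏ j, (1 + x j * spin (e j)) / 2

def yU {K k : ℕ} (h : ℝ) (c : Fin k → Par K × Fin K) : Yv K k := fun e =>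
  Real.log (∑ b : Bool, Real.exp (h * spin b +
    ∑ a, theta (c a).1 (update (fun j => e (a, j)) (c a).2 b)))

def yV {K k : ℕ} (c : Fin k → Par K) : Yv K k := fun e => ∑ a, theta (c a) fun j => e (a, j)

def kU (K : ℕ) (Q : Measure (Par K)) (Ph : Measure ℝ) (k : ℕ) : Measure (Yv K k) :=
  (Ph.prod (Measure.pi fun _ : Fin k => Q.prod (uniformOn (Set.univ : Set (Fin K))))).map
    fun p => yU p.1 p.2

def kV (K : ℕ) (Q : Measure (Par K)) (k : ℕ) : Measure (Yv K k) :=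
  (Measure.pi fun _ : Fin k => Q).map fun c => yV c

def Gval {K : ℕ} (a : ℝ) (κ : ∀ k, Measure (Yv K k)) (E : ∀ k, Yv K k → ℝ) : ℝ :=
  pois a fun k => ∫ y, E k y ∂κ k

def Mom {K : ℕ} (κ : ∀ k, Measure (Yv K k)) (C : ℝ) : Prop :=
  ∀ k, IsProbabilityMeasure (κ k) ∧ Integrable (fun y => ‖y‖) (κ k) ∧ ∫ y, ‖y‖ ∂κ k ≤ C * (1 + k)

/-- evaluators -/
def Ev {K : ℕ} (E : ∀ k, Yv K k → ℝ) : Prop := ∀ k, Continuous (E k) ∧ ∀ y, |E k y| ≤ ‖y‖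

/-- linear growth -/
def Lin (F : ℕ → ℝ) : Prop := ∃ C : ℝ, ∀ k, |F k| ≤ C * (1 + k)

def val (K : ℕ) (lam : ℝ) (Q : Measure (Par K)) (Ph : Measure ℝ) (E : ∀ k, Yv K k → ℝ) : ℝ :=
  Gval (K * lam) (kU K Q Ph) E - Gval ((K - 1) * lam) (kV K Q) E

def Ehier (K : ℕ) {r : ℕ} (m : Fin r → ℝ) (x : (Fin (r + 1) → unitInterval) → ℝ) (k : ℕ)
    (y : Yv K k) : ℝ :=
  hier m fun w : Fin (r + 1) → Fin k × Fin K → unitInterval => mext y fun j => x fun p => w p j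

def Efin (K : ℕ) {r : ℕ} {A : Type} [Fintype A] (μ : A → ℝ) (m : Fin r → ℝ)
    (x : (Fin (r + 1) → A) → ℝ) (k : ℕ) (y : Yv K k) : ℝ :=
  fT (cw μ) m fun w : Fin (r + 1) → Fin k × Fin K → A => mext y fun j => x fun p => w p j

def EG (K : ℕ) {N : ℕ} (g : (Fin N → Bool) → ℝ) (k : ℕ) (y : Yv K k) : ℝ :=
  𝔼 idx : Fin k × Fin K → Fin N, Real.log (∑ s, g s * Real.exp (y fun j => s (idx j)))

/-- normalisation of a weight -/
def gib {C : Type} [Fintype C] (w : C → ℝ) (s : C) : ℝ := w s / ∑ s', w s'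

/-- `z = 1 - exp (y - ‖y‖)` -/
def zOf {J : Type} [Fintype J] [DecidableEq J] (y : (J → Bool) → ℝ) (e : J → Bool) : ℝ :=
  1 - Real.exp (y e - ‖y‖)

/-- `E ∏_l z (column l)` for i.i.d. rows with law `la` -/
def Psi {J : Type} [Fintype J] [DecidableEq J] (z : (J → Bool) → ℝ) {n : ℕ}
    (la : (Fin n → Bool) → ℝ) : ℝ :=
  ∑ e : J → Fin n → Bool, cw la e * ∏ l, z fun j => e j l

def poi (a : ℝ) (k : ℕ) : ℝ := Real.exp (-a) * a ^ k / (k.factorial : ℝ)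

def polyK {K : ℕ} (a : ℝ) (κ : ∀ k, Measure (Yv K k)) (k0 : ℕ) {n : ℕ}
    (la : (Fin n → Bool) → ℝ) : ℝ :=
  ∑ k ∈ Finset.range k0, poi a k * ∫ y, Psi (zOf y) la ∂κ k

def cstK {K : ℕ} (a : ℝ) (κ : ∀ k, Measure (Yv K k)) (k0 : ℕ) : ℝ :=
  ∑ k ∈ Finset.range k0, poi a k * ∫ y, ‖y‖ ∂κ k

/-- law on spin columns with prescribed moments -/
def lamOf {n : ℕ} (mo : Finset (Fin n) → ℝ) (e : Fin n → Bool) : ℝ :=
  (∑ S : Finset (Fin n), mo S * ∏ l ∈ S, spin (e l)) / 2 ^ n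

/-- empirical law of the columns of `n` configurations -/
def emp {N n : ℕ} (s : Fin n → Fin N → Bool) (e : Fin n → Bool) : ℝ :=
  𝔼 i : Fin N, if (fun l => s l i) = e then 1 else 0

/-- law of the column of one message along a history -/
def lamH {r n : ℕ} {A : Type} [Fintype A] (μ : A → ℝ) (x : (Fin (r + 1) → A) → ℝ)
    (h : Hist r n) (e : Fin (n + 1) → Bool) : ℝ :=
  ∑ v, wt μ (fun _ _ => 1) h v * ∏ l, (1 + x (v l) * spin (e l)) / 2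

/-! ### Upper bound -/

def phi (f : Bool → ℝ) (x : ℝ) : ℝ := (1 + x) / 2 * f true + (1 - x) / 2 * f false

abbrev Evt (K N : ℕ) := Par K × (Fin K → Fin N) × Fin K

def QE (K N : ℕ) (Q : Measure (Par K)) : Measure (Evt K N) :=
  Q.prod ((uniformOn (Set.univ : Set (Fin K → Fin N))).prod (uniformOn (Set.univ : Set (Fin K))))

/-- a clause with probability `1/K`, nothing otherwise -/
def mixF {K N : ℕ} (e : Evt K N) (s : Fin N → Bool) : ℝ :=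
  if (e.2.2 : ℕ) = 0 then theta e.1 fun j => s (e.2.1 j) else 0

def vval (K : ℕ) (Q : Measure (Par K)) {r : ℕ} {A : Type} [Fintype A] (μ : A → ℝ) (m : Fin r → ℝ)
    (x : (Fin (r + 1) → A) → ℝ) : ℝ :=
  ∫ q, fT (cw μ) m (fun w : Fin (r + 1) → Fin K → A => fullFac q fun j => x fun p => w p j) ∂Q

/-- hybrid: the first `i` events are mixed clauses, the others are site terms -/
def hyb {K N k r : ℕ} {A : Type} [Fintype A] (μ : A → ℝ) (m : Fin r → ℝ)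
    (x : (Fin (r + 1) → A) → ℝ) (i : ℕ) (c : Fin k → Evt K N) (h : Fin N → ℝ) : ℝ :=
  fT (cw μ) m fun w : Fin (r + 1) → Fin k × Fin K → A =>
    ∑ s : Fin N → Bool, Real.exp (∑ i', h i' * spin (s i')) *
      ∏ a : Fin k, if (a : ℕ) < i then Real.exp (mixF (c a) s) else
        siteFac (c a).1 (c a).2.2 (s ((c a).2.1 (c a).2.2)) fun j => x fun p => w p (a, j)

def hybI (K N : ℕ) (Q : Measure (Par K)) (Ph : Measure ℝ) {r : ℕ} {A : Type} [Fintype A]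
    (μ : A → ℝ) (m : Fin r → ℝ) (x : (Fin (r + 1) → A) → ℝ) (k i : ℕ) : ℝ :=
  ∫ c, ∫ h, hyb μ m x i c h ∂(Measure.pi fun _ : Fin N => Ph)
    ∂(Measure.pi fun _ : Fin k => QE K N Q)

/-- one term of the expansion for a base weight `b s w` and a perturbation `z s w` -/
def sterm {r n : ℕ} {B C : Type} [Fintype B] [Fintype C] (μ : B → ℝ) (m : Fin r → ℝ)
    (b : C → (Fin (r + 1) → B) → ℝ) (h : Hist r n) (z : C → (Fin (r + 1) → B) → ℝ) : ℝ :=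
  ∑ v, wt μ (tilt μ m fun w => ∑ s, b s w) h v *
    ∏ l, ∑ s, gib (fun s' => b s' (v l)) s * z s (v l)

/-! ### Compound Poisson laws and Hamiltonians -/

def convPow {E : Type} [AddMonoid E] [MeasurableSpace E] (M : Measure E) : ℕ → Measure E
  | 0 => Measure.dirac 0
  | k + 1 => (convPow M k).conv M

def cp {E : Type} [AddMonoid E] [MeasurableSpace E] (M : Measure E) : Measure E :=
  Measure.sum fun k : ℕ =>
    ENNReal.ofReal (Real.exp (-M.real Set.univ) / (k.factorial : ℝ)) • convPow M k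

abbrev En (N : ℕ) := (Fin N → Bool) → ℝ

def clauseLaw (K : ℕ) (Q : Measure (Par K)) (N : ℕ) : Measure (En N) :=
  (Q.prod (uniformOn (Set.univ : Set (Fin K → Fin N)))).map
    fun e => fun s => theta e.1 fun j => s (e.2 j)

def fieldLaw (Ph : Measure ℝ) (N : ℕ) : Measure (En N) :=
  (Measure.pi fun _ : Fin N => Ph).map fun h => fun s => ∑ i, h i * spin (s i)

def hamLaw (K : ℕ) (Q : Measure (Par K)) (Ph : Measure ℝ) (N : ℕ) (a : ℝ) : Measure (En N) :=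
  (fieldLaw Ph N).conv (cp (ENNReal.ofReal a • clauseLaw K Q N))

def logZ {N : ℕ} (w : (Fin N → Bool) → ℝ) (H : En N) : ℝ :=
  Real.log (∑ s, Real.exp (H s) * w s)

def alphaN (K : ℕ) (lam : ℝ) (N : ℕ) : ℝ := lam * (N + 1) * ((N : ℝ) / (N + 1)) ^ K

/-- position `l` points to the new site, the others to old sites -/
def mrg {K N : ℕ} (l : Fin K) (idx : Fin K → Fin N) (j : Fin K) : Fin (N + 1) :=
  if j = l then Fin.last N else (idx j).castSucc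

def cavLaw (K : ℕ) (Q : Measure (Par K)) (N : ℕ) : Measure (En (N + 1)) :=
  (QE K N Q).map fun e => fun s => theta e.1 fun j => s (mrg e.2.2 e.2.1 j)

def iota (N : ℕ) : En N →L[ℝ] En (N + 1) :=
  ContinuousLinearMap.pi fun s => ContinuousLinearMap.proj (Fin.init s)

/-! ### The limit space -/

abbrev Idx := ℕ × (ℕ →₀ ℕ)

abbrev X := Idx → Set.Icc (-1 : ℝ) 1

/-- multi-overlap of species `s`, replica `l` carrying colour `c l` (colour `0` = absent) -/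
def co (s : ℕ) (c : ℕ →₀ ℕ) (ω : X) : ℝ := (ω (s, c) : ℝ)

/-- role `i` is played by replica `e i` -/
def act (e : Equiv.Perm ℕ) (ω : X) : X := fun i => ω (i.1, i.2.mapDomain e)

/-- keep only the coordinates of the replicas `< n` -/
def res (n : ℕ) (ω : X) : X := fun i =>
  if ∀ l ∈ i.2.support, l < n then ω i else ⟨0, by norm_num⟩

def IsF (n : ℕ) (E : Set X) : Prop := MeasurableSet E ∧ ∀ ω, res n ω ∈ E ↔ ω ∈ E

/-- bounded measurable functions of the first `n` replicas -/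
def IsFf (n : ℕ) (f : X → ℝ) : Prop :=
  Measurable f ∧ (∃ C, ∀ ω, |f ω| ≤ C) ∧ ∀ ω, f (res n ω) = f ω

abbrev Fs (n : ℕ) : MeasurableSpace X := MeasurableSpace.comap (res n) inferInstance

def ind {n : ℕ} (S : Finset (Fin n)) : ℕ →₀ ℕ := ∑ l ∈ S, Finsupp.single (l : ℕ) 1

def lam (n : ℕ) (ω : X) : (Fin n → Bool) → ℝ := lamOf fun S => co 0 (ind S) ω

/-- the quadratic form of the Cauchy-Schwarz constraint -/
def QF (x : ℕ → ℝ) (B : ℕ → ℕ → ℝ) (G : Finset ℕ) (η : ℕ → ℝ) (t : ℝ) : ℝ :=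
  t ^ 2 + 2 * t * ∑ l ∈ G, η l * x l + G.card + ∑ p ∈ G.offDiag, η p.1 * η p.2 * B p.1 p.2

def Good (ω : X) : Prop :=
  (∀ s, co s 0 ω = 1) ∧ (∀ n e, 0 ≤ lam n ω e) ∧
    ∀ (s a : ℕ) (c : ℕ →₀ ℕ) (G : Finset ℕ) (η : ℕ → ℝ) (t : ℝ), Disjoint c.support G →
      (∀ l, |η l| ≤ 1) → 0 ≤ QF (fun l => co s (c + Finsupp.single l a) ω)
        (fun l l' => co s (Finsupp.single l a + Finsupp.single l' a) ω) G η t

theorem exists_sp : ∃ f : ℕ → ℕ × ℕ × List Idx, ∀ d T, ∃ t, T ≤ t ∧ f t = d := by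
  obtain ⟨e, he⟩ := exists_surjective_nat (ℕ × ℕ × List Idx)
  refine ⟨fun t => e (Nat.unpair t).2, fun d T => ?_⟩
  obtain ⟨u, hu⟩ := he d
  exact ⟨Nat.pair T u, Nat.left_le_pair T u, by simp [hu]⟩

/-- data `(q, p, J)` of the auxiliary species `t + 1` -/
def sp : ℕ → ℕ × ℕ × List Idx := exists_sp.choose

theorem sp_spec (d : ℕ × ℕ × List Idx) (T : ℕ) : ∃ t, T ≤ t ∧ sp t = d :=
  exists_sp.choose_spec d T

def mu (t : ℕ) : ℝ := 1 / (((sp t).1 : ℝ) + 2)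

def pp (t : ℕ) : ℕ := (sp t).2.1

def jl (t : ℕ) : List Idx := (sp t).2.2

def Valid (t : ℕ) : Prop := ∀ i ∈ jl t, i.1 ≤ t ∧ ∀ l ∈ i.2.support, l ≤ pp t

def mono (J : List Idx) (ω : X) : ℝ := (J.map fun i => co i.1 i.2 ω).prod

def mono0 (p : ℕ) (J : List Idx) (ω : X) : ℝ :=
  (J.map fun i => co i.1 (i.2.filter (· < p)) ω).prod

def diag (p : ℕ) : ℕ →₀ ℕ := ∑ l ∈ Finset.range p, Finsupp.single l (l + 1)

/-- the `F_p`-measurable part of the first order stability identity -/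
def mekQ (t : ℕ) (ω : X) : ℝ :=
  (co (t + 1) (diag (pp t)) ω / (1 - mu t) ^ pp t - mono0 (pp t) (jl t) ω) / mu t

def mekD (p : ℕ) (J : List Idx) (n : ℕ) (ω : X) : ℝ :=
  ∑ l ∈ Finset.Ico p n, mono J (act (Equiv.swap p l) ω) - n * mono J (act (Equiv.swap p n) ω)

def InM (C : ℕ → ℝ) (ν : Measure X) : Prop :=
  (∀ (e : Equiv.Perm ℕ) (n : ℕ) (φ : C(X, ℝ)),
    ∫ ω, φ (res n (act e ω)) ∂ν = ∫ ω, φ (res n ω) ∂ν) ∧
  (∀ᵐ ω ∂ν, Good ω) ∧
  ∀ t, Valid t → ∀ n, 1 ≤ n → pp t ≤ n → ∀ φ : C(X, ℝ),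
    |∫ ω, φ (res n ω) * (mekQ t ω - mekD (pp t) (jl t) n ω) ∂ν| ≤
      C n * mu t * ∫ ω, |φ (res n ω)| ∂ν

def Triv (ν : Measure X) : Prop := ∃ ω0, ∀ᵐ ω ∂ν, res 1 ω = ω0

/-- the new replica copies an old one relative to the first `p`, or is fresh -/
def Aprop (ν : Measure X) : Prop :=
  ∀ (p n : ℕ) (E Γ : Set X), 1 ≤ p → p ≤ n → IsF n E → IsF (p + 1) Γ →
    n * ν.real (E ∩ act (Equiv.swap p n) ⁻¹' Γ) =
      ∑ l ∈ Finset.Ico p n, ν.real (E ∩ act (Equiv.swap p l) ⁻¹' Γ) +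
        p * ∫ ω in Γ, (ν[E.indicator (fun _ => (1 : ℝ)) | Fs p]) ω ∂ν

def Str (ν : Measure X) : Prop :=
  IsProbabilityMeasure ν ∧ (∀ e, ν.map (act e) = ν) ∧ (∀ᵐ ω ∂ν, Good ω) ∧ Triv ν ∧ Aprop ν

/-- equivariant symmetric two-replica functions -/
def Pair (B : ℕ → ℕ → X → ℝ) : Prop :=
  (∀ i j, Measurable (B i j)) ∧ (∀ i j ω, B i j ω = B j i ω) ∧
    (∀ (e : Equiv.Perm ℕ) i j ω, B i j (act e ω) = B (e i) (e j) ω) ∧
    (∀ n i j ω, i < n → j < n → B i j (res n ω) = B i j ω) ∧ ∀ i j ω, |B i j ω| ≤ 1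

def Wts (w : ℕ × ℕ → ℝ) : Prop := (∀ u, 0 ≤ w u) ∧ Summable w ∧ ∑' u, w u ≤ 1

def kern (w : ℕ × ℕ → ℝ) (i j : ℕ) (ω : X) : ℝ :=
  ∑' u : ℕ × ℕ, w u * co u.1 (Finsupp.single i u.2 + Finsupp.single j u.2) ω

def w0 (u : ℕ × ℕ) : ℝ := (1 / 2) ^ (Nat.pair u.1 u.2 + 1)

/-- the total overlap -/
def Rt : ℕ → ℕ → X → ℝ := kern w0

def Rm (n : ℕ) (ω : X) (i j : Fin n) : ℝ := if i = j then 0 else Rt i j ω

def level {r : ℕ} (t : Fin r → ℝ) (x : ℝ) : ℕ := (Finset.univ.filter fun p => t p ≤ x).card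

def tau {r : ℕ} (t : Fin r → ℝ) (n : ℕ) (ω : X) (i j : Fin n) : ℕ :=
  if i = j then r else level t (Rt i j ω)

/-- thresholds `t` whose cells have masses given by `m` -/
def Thr {r : ℕ} (ν : Measure X) (t m : Fin r → ℝ) : Prop :=
  StrictMono t ∧ Adm m ∧ ∀ p, m p = ν.real {ω | Rt 0 1 ω < t p}

def momP {r : ℕ} (ν : Measure X) (t : Fin r → ℝ) (n : ℕ) (d : Fin n → Fin n → ℕ)
    (S : Finset (Fin n)) : ℝ :=
  (∫ ω in {ω | tau t n ω = d}, co 0 (ind S) ω ∂ν) / ν.real {ω | tau t n ω = d}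

/-! ### The perturbed finite system -/

def gg (V : ℕ → ℕ → ℕ → (ℕ → ℝ) → ℝ) (Pk : ℕ → ℕ) (J : List Idx) (ρ : ℕ) (σ : ℕ → ℝ) : ℝ :=
  ∏ j : Fin J.length, V (J.get j).1 (Pk j) ((J.get j).2 ρ) σ

/-- `tab P T s k a σ`: colour `a` of site `k` of species `s`, once species `≤ T` are built -/
def tab (P : ℕ → ℕ → ℕ → ℕ) : ℕ → ℕ → ℕ → ℕ → (ℕ → ℝ) → ℝ
  | 0 => fun s k a σ => if s = 0 ∧ a = 1 then σ k else 1
  | T + 1 => fun s k a σ =>
      if s = T + 1 then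
        (if a = 0 then 1 else (1 - mu T) * gg (tab P T) (P T k) (jl T) (a - 1) σ /
          (1 + mu T * gg (tab P T) (P T k) (jl T) (pp T) σ))
      else tab P T s k a σ

def site (P : ℕ → ℕ → ℕ → ℕ) (s : ℕ) : ℕ → ℕ → (ℕ → ℝ) → ℝ := tab P s s

def gfun (P : ℕ → ℕ → ℕ → ℕ) (t k ρ : ℕ) (σ : ℕ → ℝ) : ℝ := gg (tab P t) (P t k) (jl t) ρ σ

def pool (N : ℕ) (M : ℕ → ℕ) (s : ℕ) : ℕ := if s = 0 then N else M s

def omv (P : ℕ → ℕ → ℕ → ℕ) (N : ℕ) (M : ℕ → ℕ) (τ : ℕ → ℕ → ℝ) (i : Idx) : ℝ :=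
  (∑ k ∈ Finset.range (pool N M i.1), ∏ l ∈ i.2.support, site P i.1 k (i.2 l) (τ l)) /
    (pool N M i.1 : ℝ)

def om (P : ℕ → ℕ → ℕ → ℕ) (N : ℕ) (M : ℕ → ℕ) (τ : ℕ → ℕ → ℝ) : X := fun i =>
  Set.projIcc (-1 : ℝ) 1 (by norm_num) (omv P N M τ i)

abbrev PI (L B : ℕ) := Fin L × Fin B × Fin B

def tgt {L B : ℕ} (N : ℕ) (M : ℕ → ℕ) (i : PI L B) : ℕ :=
  if (i.2.1 : ℕ) < 2 * M (i.1 + 1) then
    (if h : (i.2.2 : ℕ) < (jl i.1).length then pool N M ((jl i.1).get ⟨i.2.2, h⟩).1 else 1)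
  else 1

def PS (L B N : ℕ) (M : ℕ → ℕ) : Finset (PI L B → ℕ) :=
  Fintype.piFinset fun i => Finset.range (tgt N M i)

def CS (L : ℕ) (M : ℕ → ℕ) : Finset (Fin L → ℕ) :=
  Fintype.piFinset fun t => Finset.Ioc (M (t + 1)) (2 * M (t + 1))

def extP {L B : ℕ} (P : PI L B → ℕ) (t k j : ℕ) : ℕ :=
  if h : t < L ∧ k < B ∧ j < B then P (⟨t, h.1⟩, ⟨k, h.2.1⟩, ⟨j, h.2.2⟩) else 0

def pertW {L : ℕ} (P : ℕ → ℕ → ℕ → ℕ) (mc : Fin L → ℕ) (σ : ℕ → ℝ) : ℝ :=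
  ∏ t : Fin L, ∏ k ∈ Finset.range (mc t), (1 + mu t * gfun P t k (pp t) σ)

def exts {N : ℕ} (s : Fin N → Bool) (i : ℕ) : ℝ := if h : i < N then spin (s ⟨i, h⟩) else 1

def rep {N n : ℕ} (v : Fin n → Fin N → Bool) (l : ℕ) : ℕ → ℝ :=
  if h : l < n then exts (v ⟨l, h⟩) else fun _ => 1

/-- average over `n` replicas of the weight `g` -/
def gsum {N : ℕ} (n : ℕ) (g : (Fin N → Bool) → ℝ) (F : (ℕ → ℕ → ℝ) → ℝ) : ℝ :=
  ∑ v : Fin n → Fin N → Bool, cw g v * F (rep v)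

def pgib {L N : ℕ} (b : (Fin N → Bool) → ℝ) (P : ℕ → ℕ → ℕ → ℕ) (mc : Fin L → ℕ) :
    (Fin N → Bool) → ℝ := gib fun s => b s * pertW P mc (exts s)

def sexp (L B : ℕ) (M : ℕ → ℕ) {N : ℕ} (n : ℕ) (b : (Fin N → Bool) → ℝ) (φ : X → ℝ) : ℝ :=
  𝔼 P ∈ PS L B N M, 𝔼 mc ∈ CS L M,
    gsum n (pgib b (extP P) mc) fun τ => φ (om (extP P) N M τ)

def Scal (L B : ℕ) (M : ℕ → ℕ) (j : ℕ) : Prop :=
  (∀ s, 1 ≤ M s) ∧ ∀ t < L, 2 * M (t + 1) ≤ B ∧ (jl t).length ≤ B ∧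
    (j + 1) * (1 + ∑ t' ∈ Finset.Ioo t L, 2 * M (t' + 1) * (jl t').length) ≤ M (t + 1)

end Vale.Agent.P168
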