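import Vale.Agent.P168.Core

/-! P168 Meas: product measure lemmas.
Plan. `integral_unif`: `uniformOn` is `count[|univ]`; use `integral_fintype` and
`uniformOn_univ`/`uniformOn_apply_finset`. `integral_pi_update`: the map
`(c, e) ↦ update c i e` is measure preserving from `(pi P).prod P` to `pi P` (check on boxes with
`Measure.pi_eq`), then `integral_prod`. `integral_pi_comp`: `c ↦ c ∘ e` is measure preserving
(`Measure.pi_eq`, or `measurePreserving_piEquivPiSubtypeProd` and `measurePreserving_piCongrLeft`).
`integral_pi_prod_fin`: `measurePreserving_arrowProdEquivProdArrow`, `integral_prod`, and the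
second factor `Measure.pi` of measures on a finite type is a finite weighted sum
(`integral_fintype`, `Measure.pi_singleton` or `Measure.pi_pi`). -/

open MeasureTheory ProbabilityTheory Function Filter Topology
open scoped BigOperators

noncomputable section

namespace Vale.Agent.P168

theorem meas_unif {D : Type} [Fintype D] [MeasurableSpace D]
    [MeasurableSingletonClass D] (d : D) :
    (uniformOn (Set.univ : Set D)).real {d} = 1 / (Fintype.card D : ℝ) := by
  simp [Measure.real, uniformOn_univ]

theorem integral_unif {D : Type} [Fintype D] [MeasurableSpace D] [MeasurableSingletonClass D]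
    (F : D → ℝ) : ∫ d, F d ∂(uniformOn (Set.univ : Set D)) = 𝔼 d, F d := by
  rcases isEmpty_or_nonempty D with h | h
  · simp [integral_of_isEmpty]
  rw [integral_fintype Integrable.of_finite, Finset.expect_eq_sum_div_card, Finset.sum_div]
  refine Finset.sum_congr rfl fun d _ => ?_
  rw [meas_unif, smul_eq_mul, Finset.card_univ]
  ring

theorem real_unif_singleton {D : Type} [Fintype D] [MeasurableSpace D]
    [MeasurableSingletonClass D] (d : D) :
    (uniformOn (Set.univ : Set D)).real {d} = 1 / (Fintype.card D : ℝ) := by
  exact meas_unif d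

theorem isProb_unif {D : Type} [Fintype D] [Nonempty D] [MeasurableSpace D]
    [MeasurableSingletonClass D] : IsProbabilityMeasure (uniformOn (Set.univ : Set D)) := by
  infer_instance

variable {Θ ι ι' : Type} [MeasurableSpace Θ] [Fintype ι] [DecidableEq ι] [Fintype ι']

theorem measurePreserving_update (P : Measure Θ) [IsProbabilityMeasure P] (i : ι) :
    MeasurePreserving (fun p : (ι → Θ) × Θ => update p.1 i p.2)
      ((Measure.pi fun _ : ι => P).prod P) (Measure.pi fun _ : ι => P) := by
  have hm : Measurable fun p : (ι → Θ) × Θ => update p.1 i p.2 := measurable_update'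
  refine ⟨hm, (Measure.pi_eq fun s hs => ?_).symm⟩
  rw [Measure.map_apply hm (MeasurableSet.univ_pi hs)]
  have : (fun p : (ι → Θ) × Θ => update p.1 i p.2) ⁻¹' Set.univ.pi s =
      ((Finset.univ.erase i : Finset ι) : Set ι).pi s ×ˢ s i := by
    ext p
    simp only [Set.mem_preimage, Set.mem_pi, Set.mem_univ, true_imp_iff, Set.mem_prod,
      Finset.coe_erase, Finset.coe_univ, Set.mem_sdiff, Set.mem_singleton_iff, true_and]
    refine ⟨fun h => ⟨fun j hj => by simpa [update_of_ne hj] using h j, by simpa using h i⟩,
      fun h j => ?_⟩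
    by_cases hj : j = i
    · subst hj; simpa using h.2
    · simpa [update_of_ne hj] using h.1 j hj
  rw [this, Measure.prod_prod, Measure.pi_pi_finset,
    Finset.prod_erase_mul _ _ (Finset.mem_univ i)]

theorem integral_pi_update (P : Measure Θ) [IsProbabilityMeasure P] (i : ι) {F : (ι → Θ) → ℝ}
    (hF : Integrable F (Measure.pi fun _ : ι => P)) :
    ∫ c, F c ∂(Measure.pi fun _ : ι => P) =
      ∫ c, ∫ e, F (update c i e) ∂P ∂(Measure.pi fun _ : ι => P) := by
  have h := measurePreserving_update P i
  rw [← integral_prod (fun p : (ι → Θ) × Θ => F (update p.1 i p.2))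
    (h.integrable_comp_of_integrable hF), ← integral_map h.measurable.aemeasurable
    (by rw [h.map_eq]; exact hF.aestronglyMeasurable), h.map_eq]

theorem measurePreserving_comp (P : Measure Θ) [IsProbabilityMeasure P] (e : ι' → ι)
    (he : Injective e) :
    MeasurePreserving (fun c : ι → Θ => fun i => c (e i))
      (Measure.pi fun _ : ι => P) (Measure.pi fun _ : ι' => P) := by
  have hm : Measurable fun c : ι → Θ => fun i => c (e i) := by fun_prop
  refine ⟨hm, (Measure.pi_eq fun s hs => ?_).symm⟩
  rw [Measure.map_apply hm (MeasurableSet.univ_pi hs)]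
  have : (fun c : ι → Θ => fun i => c (e i)) ⁻¹' Set.univ.pi s =
      ((Finset.univ.image e : Finset ι) : Set ι).pi (extend e s fun _ => Set.univ) := by
    ext c
    simp [he.extend_apply]
  rw [this, Measure.pi_pi_finset, Finset.prod_image he.injOn]
  simp only [he.extend_apply]

theorem integral_pi_prod_fin {D : Type} [Fintype D] [MeasurableSpace D]
    [MeasurableSingletonClass D] (P : Measure Θ) [IsProbabilityMeasure P] (R : Measure D)
    [IsProbabilityMeasure R] {F : (ι → Θ × D) → ℝ}
    (hF : Integrable F (Measure.pi fun _ : ι => P.prod R)) :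
    (∀ d : ι → D, 0 < cw (fun a => R.real {a}) d →
      Integrable (fun c : ι → Θ => F fun i => (c i, d i)) (Measure.pi fun _ : ι => P)) ∧
    ∫ c, F c ∂(Measure.pi fun _ : ι => P.prod R) =
      ∑ d : ι → D, cw (fun a => R.real {a}) d *
        ∫ c, F (fun i => (c i, d i)) ∂(Measure.pi fun _ : ι => P) := by
  have h := (measurePreserving_arrowProdEquivProdArrow Θ D ι (fun _ => P) fun _ => R).symm
  have hG := h.integrable_comp_of_integrable hF
  have hw : ∀ d : ι → D, (Measure.pi fun _ : ι => R).real {d} = cw (fun a => R.real {a}) d :=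
    fun d => by simp only [Measure.real, Measure.pi_singleton, ENNReal.toReal_prod, cw]
  refine ⟨fun d hd => ae_iff_of_countable.1 hG.prod_left_ae d fun h0 => ?_, ?_⟩
  · rw [← hw, Measure.real, h0] at hd
    simp at hd
  · rw [← h.integral_comp']
    refine (integral_prod_symm _ hG).trans ?_
    rw [integral_fintype Integrable.of_finite]
    simp only [hw, smul_eq_mul]
    rfl

theorem integral_pi_prod_unif {D : Type} [Fintype D] [Nonempty D] [MeasurableSpace D]
    [MeasurableSingletonClass D] (P : Measure Θ) [IsProbabilityMeasure P] {F : (ι → Θ × D) → ℝ}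
    (hF : Integrable F (Measure.pi fun _ : ι => P.prod (uniformOn (Set.univ : Set D)))) :
    ∫ c, F c ∂(Measure.pi fun _ : ι => P.prod (uniformOn (Set.univ : Set D))) =
      ∫ c, 𝔼 d : ι → D, F (fun i => (c i, d i)) ∂(Measure.pi fun _ : ι => P) := by
  obtain ⟨h1, h2⟩ := integral_pi_prod_fin P (uniformOn (Set.univ : Set D)) hF
  have hw : ∀ d : ι → D, cw (fun a => (uniformOn (Set.univ : Set D)).real {a}) d =
      ((Finset.univ : Finset (ι → D)).card : ℝ)⁻¹ := fun d => by
    simp [cw, meas_unif]
  have h0 : (0 : ℝ) < (Finset.univ : Finset (ι → D)).card := by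
    exact_mod_cast Finset.univ_nonempty.card_pos
  simp only [h2, hw, Finset.expect_eq_sum_div_card]
  rw [integral_div, integral_finsetSum _ fun d _ => h1 d (by rw [hw]; positivity),
    ← Finset.mul_sum, div_eq_inv_mul]

theorem map_pi_map {Θ' : Type} [MeasurableSpace Θ'] (P : Measure Θ) [IsProbabilityMeasure P]
    {g : Θ → Θ'} (hg : Measurable g) :
    (Measure.pi fun _ : ι => P).map (fun c i => g (c i)) = Measure.pi fun _ : ι => P.map g := by
  have := Measure.isProbabilityMeasure_map (μ := P) hg.aemeasurable
  exact Measure.pi_map_pi fun _ => hg.aemeasurable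

theorem integrable_sum_eval (P : Measure Θ) [IsProbabilityMeasure P] {g : Θ → ℝ}
    (hg : Integrable g P) :
    Integrable (fun c : ι → Θ => ∑ i, g (c i)) (Measure.pi fun _ : ι => P) ∧
      ∫ c, ∑ i, g (c i) ∂(Measure.pi fun _ : ι => P) = Fintype.card ι * ∫ e, g e ∂P := by
  refine ⟨integrable_finsetSum _ fun i _ => integrable_comp_eval (μ := fun _ => P) hg, ?_⟩
  rw [integral_finsetSum _ fun i _ => integrable_comp_eval (μ := fun _ => P) hg]
  simp [integral_comp_eval (μ := fun _ : ι => P) hg.aestronglyMeasurable]

end Vale.Agent.P168
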