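import Vale.Agent.P168.Pois
import Vale.Agent.P168.Meas

/-! P168 Cp: compound Poisson laws on finite dimensional spaces `C → ℝ`.
Plan. `convPow M k` is finite with mass `(M univ)^k`; `charFunDual (convPow M k) = (charFunDual M)^k`
(`charFunDual_conv`), so `charFunDual (cp M) L = exp (charFunDual M L - M.real univ)`
(`integral_sum_measure` / `hasSum_integral_measure`). The identities follow from
`Measure.ext_of_charFunDual`. Moments: `∫⁻ ‖y‖ d convPow M (k+1) ≤ (k+1) |M|^k ∫⁻ ‖y‖ dM`.
`integral_cp`: `convPow (a • ρ) k = a^k • (pi P).map (∑ X)` (induction or `charFunDual_map_sum_pi_eq_prod`).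
`conv_lip`: `integral_conv` / `integral_prod` and the Lipschitz bound. -/

open MeasureTheory ProbabilityTheory Function Filter Topology
open scoped BigOperators

noncomputable section

namespace Vale.Agent.P168

variable {C C' : Type} [Fintype C] [Fintype C']

instance cp_fin (M : Measure (C → ℝ)) [IsFiniteMeasure M] : ∀ k, IsFiniteMeasure (convPow M k)
  | 0 => inferInstanceAs (IsFiniteMeasure (Measure.dirac 0))
  | k + 1 => have := cp_fin M k; inferInstanceAs (IsFiniteMeasure ((convPow M k).conv M))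

theorem cp_fin_smul {α : Type} [MeasurableSpace α] (a : ℝ) (M : Measure α) [IsFiniteMeasure M] :
    IsFiniteMeasure (ENNReal.ofReal a • M) :=
  ⟨ENNReal.mul_lt_top ENNReal.ofReal_lt_top (measure_lt_top _ _)⟩

theorem cp_char_pow (M : Measure (C → ℝ)) [IsFiniteMeasure M] (L : StrongDual ℝ (C → ℝ)) (k : ℕ) :
    charFunDual (convPow M k) L = charFunDual M L ^ k := by
  induction k with
  | zero => simp [convPow]
  | succ k ih => rw [convPow, charFunDual_conv, ih, pow_succ]

theorem cp_char_zero (M : Measure (C → ℝ)) : charFunDual M 0 = M.real Set.univ := by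
  simp [charFunDual_apply]

theorem cp_char_smul (c : ENNReal) (M : Measure (C → ℝ)) (L : StrongDual ℝ (C → ℝ)) :
    charFunDual (c • M) L = c.toReal * charFunDual M L := by
  simp [charFunDual_apply]

theorem cp_real_pow (M : Measure (C → ℝ)) [IsFiniteMeasure M] (k : ℕ) :
    (convPow M k).real Set.univ = M.real Set.univ ^ k := by
  have := cp_char_pow M 0 k
  rw [cp_char_zero, cp_char_zero] at this
  exact_mod_cast this

theorem cp_integral {F : Type} [NormedAddCommGroup F] [NormedSpace ℝ F] (M : Measure (C → ℝ))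
    {f : (C → ℝ) → F} (hf : Integrable f (cp M)) : ∫ y, f y ∂cp M =
      ∑' k : ℕ, (Real.exp (-M.real Set.univ) / (k.factorial : ℝ)) • ∫ y, f y ∂convPow M k := by
  rw [cp, integral_sum_measure hf]
  exact tsum_congr fun k => by rw [integral_smul_measure, ENNReal.toReal_ofReal (by positivity)]

theorem cp_int_char (M : Measure (C → ℝ)) [IsFiniteMeasure M] (L : StrongDual ℝ (C → ℝ)) :
    Integrable (fun v => Complex.exp (L v * Complex.I)) M :=
  (integrable_const (1 : ℝ)).mono (by fun_prop) (by simp)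

theorem cp_conv_mom {μ ν : Measure (C → ℝ)} [IsFiniteMeasure μ] [IsFiniteMeasure ν]
    (hμ : Integrable (fun y => ‖y‖) μ) (hν : Integrable (fun y => ‖y‖) ν) :
    Integrable (fun y => ‖y‖) (μ.conv ν) ∧ ∫ y, ‖y‖ ∂μ.conv ν ≤
      ν.real Set.univ * ∫ y, ‖y‖ ∂μ + μ.real Set.univ * ∫ y, ‖y‖ ∂ν := by
  have h1 := hμ.comp_fst ν
  have h2 := hν.comp_snd μ
  have hm : Measurable fun x : (C → ℝ) × (C → ℝ) => x.1 + x.2 := measurable_add
  have h3 : Integrable (fun x : (C → ℝ) × (C → ℝ) => ‖x.1 + x.2‖) (μ.prod ν) :=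
    (h1.add h2).mono' hm.norm.aestronglyMeasurable (ae_of_all _ fun x => by
      rw [norm_norm]; exact norm_add_le _ _)
  refine ⟨(integrable_map_measure continuous_norm.aestronglyMeasurable hm.aemeasurable).2 h3, ?_⟩
  rw [Measure.conv, integral_map hm.aemeasurable continuous_norm.aestronglyMeasurable]
  refine (integral_mono h3 (h1.add h2) fun x => norm_add_le _ _).trans (le_of_eq ?_)
  rw [integral_add' h1 h2, integral_fun_fst fun y => ‖y‖, integral_fun_snd fun y => ‖y‖]
  rfl

theorem cp_lip_add {φ : (C → ℝ) → ℝ} (hφ : LipschitzWith 1 φ) (x : C → ℝ) :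
    LipschitzWith 1 fun y => φ (x + y) :=
  LipschitzWith.mk_one fun y y' => by simpa using hφ.dist_le_mul (x + y) (x + y')

theorem cp_log {α : Type} [Fintype α] [Nonempty α] {u u' : α → ℝ} (hu : ∀ a, 0 < u a)
    (hu' : ∀ a, 0 < u' a) {δ : ℝ} (h : ∀ a, |Real.log (u a) - Real.log (u' a)| ≤ δ) :
    |Real.log (∑ a, u a) - Real.log (∑ a, u' a)| ≤ δ := by
  have key : ∀ {u u' : α → ℝ}, (∀ a, 0 < u a) → (∀ a, 0 < u' a) →
      (∀ a, Real.log (u a) ≤ δ + Real.log (u' a)) →
      Real.log (∑ a, u a) ≤ δ + Real.log (∑ a, u' a) := by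
    intro u u' hu hu' h
    rw [Real.log_le_iff_le_exp (Finset.sum_pos (fun a _ => hu a) Finset.univ_nonempty),
      Real.exp_add, Real.exp_log (Finset.sum_pos (fun a _ => hu' a) Finset.univ_nonempty),
      Finset.mul_sum]
    refine Finset.sum_le_sum fun a _ => ?_
    have := (Real.log_le_iff_le_exp (hu a)).1 (h a)
    rwa [Real.exp_add, Real.exp_log (hu' a)] at this
  have h1 := key hu hu' fun a => by linarith [(abs_le.1 (h a)).2]
  have h2 := key hu' hu fun a => by linarith [(abs_le.1 (h a)).1]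
  exact abs_le.2 ⟨by linarith, by linarith⟩

theorem isProb_cp (M : Measure (C → ℝ)) [IsFiniteMeasure M] : IsProbabilityMeasure (cp M) := by
  refine ⟨?_⟩
  have h : ∀ k : ℕ, (ENNReal.ofReal (Real.exp (-M.real Set.univ) / (k.factorial : ℝ)) •
      convPow M k) Set.univ = ENNReal.ofReal (poi (M.real Set.univ) k) := fun k => by
    rw [Measure.smul_apply, ← ofReal_measureReal (μ := convPow M k), cp_real_pow, smul_eq_mul,
      ← ENNReal.ofReal_mul (by positivity), poi]
    congr 1; ring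
  rw [cp, Measure.sum_apply _ MeasurableSet.univ]
  simp only [h]
  rw [← ENNReal.ofReal_tsum_of_nonneg (poi_nonneg measureReal_nonneg) (pois_hasSum _).summable,
    (pois_hasSum _).tsum_eq, ENNReal.ofReal_one]

theorem cp_char (M : Measure (C → ℝ)) [IsFiniteMeasure M] (L : StrongDual ℝ (C → ℝ)) :
    charFunDual (cp M) L = Complex.exp (charFunDual M L - M.real Set.univ) := by
  have := isProb_cp M
  have h := (NormedSpace.expSeries_div_hasSum_exp (charFunDual M L)).mul_left
    (Complex.exp (-M.real Set.univ))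
  rw [← Complex.exp_eq_exp_ℂ, ← Complex.exp_add, neg_add_eq_sub] at h
  rw [charFunDual_apply (μ := cp M), cp_integral M (cp_int_char _ L), ← h.tsum_eq]
  refine tsum_congr fun k => ?_
  rw [← charFunDual_apply, cp_char_pow, Complex.real_smul]
  push_cast
  ring

theorem cp_add (M M' : Measure (C → ℝ)) [IsFiniteMeasure M] [IsFiniteMeasure M'] :
    cp (M + M') = (cp M).conv (cp M') := by
  have := isProb_cp M
  have := isProb_cp M'
  have := isProb_cp (M + M')
  refine Measure.ext_of_charFunDual (funext fun L => ?_)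
  rw [charFunDual_conv, cp_char, cp_char, cp_char, ← Complex.exp_add, measureReal_add_apply,
    charFunDual_apply, integral_add_measure (cp_int_char _ L) (cp_int_char _ L)]
  simp only [charFunDual_apply]
  push_cast
  congr 1; ring

theorem cp_map (M : Measure (C → ℝ)) [IsFiniteMeasure M] (L : (C → ℝ) →L[ℝ] (C' → ℝ)) :
    (cp M).map L = cp (M.map L) := by
  have := isProb_cp M
  have := isProb_cp (M.map L)
  refine Measure.ext_of_charFunDual (funext fun L' => ?_)
  rw [charFunDual_map, cp_char, cp_char, charFunDual_map, ← cp_char_zero, ← cp_char_zero,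
    charFunDual_map, ContinuousLinearMap.zero_comp]

theorem cp_dirac_zero (a : ℝ) :
    cp (ENNReal.ofReal a • Measure.dirac (0 : C → ℝ)) = Measure.dirac 0 := by
  have := cp_fin_smul a (Measure.dirac (0 : C → ℝ))
  have := isProb_cp (ENNReal.ofReal a • Measure.dirac (0 : C → ℝ))
  refine Measure.ext_of_charFunDual (funext fun L => ?_)
  rw [cp_char, ← cp_char_zero, cp_char_smul, cp_char_smul]
  simp

theorem cp_moment (M : Measure (C → ℝ)) [IsFiniteMeasure M]
    (hM : Integrable (fun y => ‖y‖) M) :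
    Integrable (fun y => ‖y‖) (cp M) ∧ ∫ y, ‖y‖ ∂(cp M) ≤ ∫ y, ‖y‖ ∂M := by
  obtain ⟨m, hm⟩ : ∃ m, m = M.real Set.univ := ⟨_, rfl⟩
  have hm0 : 0 ≤ m := hm ▸ measureReal_nonneg
  have h1 : ∀ k, Integrable (fun y => ‖y‖) (convPow M k) ∧
      ∫ y, ‖y‖ ∂convPow M k ≤ k * m ^ (k - 1) * ∫ y, ‖y‖ ∂M := by
    intro k
    induction k with
    | zero => exact ⟨integrable_dirac (by simp), by simp [convPow]⟩
    | succ k ih =>
      obtain ⟨a1, a2⟩ := cp_conv_mom ih.1 hM
      refine ⟨a1, a2.trans ?_⟩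
      rw [cp_real_pow, ← hm]
      refine (add_le_add (mul_le_mul_of_nonneg_left ih.2 hm0) le_rfl).trans (le_of_eq ?_)
      rcases k with _ | k
      · simp
      · simp only [Nat.add_sub_cancel]; push_cast; ring
  have h2 : HasSum (fun k : ℕ => Real.exp (-m) / (k.factorial : ℝ) *
      (k * m ^ (k - 1) * ∫ y, ‖y‖ ∂M)) (∫ y, ‖y‖ ∂M) := by
    rw [← hasSum_nat_add_iff' 1]
    have e : (fun n : ℕ => Real.exp (-m) / ((n + 1).factorial : ℝ) *
        (((n + 1 : ℕ) : ℝ) * m ^ (n + 1 - 1) * ∫ y, ‖y‖ ∂M)) = fun n => poi m n * ∫ y, ‖y‖ ∂M := by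
      funext n
      rw [poi, Nat.factorial_succ, Nat.add_sub_cancel]
      push_cast
      field_simp
    rw [e]
    simpa using (pois_hasSum m).mul_right (∫ y, ‖y‖ ∂M)
  have h3 : ∀ k : ℕ, Real.exp (-m) / (k.factorial : ℝ) * ∫ y, ‖y‖ ∂convPow M k ≤ _ :=
    fun k => mul_le_mul_of_nonneg_left (h1 k).2 (by positivity)
  have h4 : Summable fun k : ℕ => Real.exp (-m) / (k.factorial : ℝ) * ∫ y, ‖y‖ ∂convPow M k :=
    h2.summable.of_nonneg_of_le (fun k => mul_nonneg (by positivity)
      (integral_nonneg fun _ => norm_nonneg _)) h3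
  have h5 : Integrable (fun y => ‖y‖) (cp M) := by
    refine integrable_sum_measure (fun k => (h1 k).1.smul_measure ENNReal.ofReal_ne_top) ?_
    refine h4.congr fun k => ?_
    rw [integral_smul_measure, ENNReal.toReal_ofReal (by positivity), hm]
    simp
  refine ⟨h5, ?_⟩
  rw [cp_integral M h5, ← hm, ← h2.tsum_eq]
  exact h4.tsum_le_tsum h3 h2.summable

theorem integrable_lip {μ : Measure (C → ℝ)} [IsFiniteMeasure μ]
    (hμ : Integrable (fun y => ‖y‖) μ) {φ : (C → ℝ) → ℝ} (hφ : LipschitzWith 1 φ) :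
    Integrable φ μ := by
  refine ((integrable_const |φ 0|).add hμ).mono' hφ.continuous.aestronglyMeasurable
    (ae_of_all _ fun y => ?_)
  have := hφ.dist_le_mul y 0
  rw [Real.dist_eq, dist_zero_right, NNReal.coe_one, one_mul] at this
  have h := abs_sub_abs_le_abs_sub (φ y) (φ 0)
  change |φ y| ≤ |φ 0| + ‖y‖
  linarith

theorem conv_moment {μ ν : Measure (C → ℝ)} [IsProbabilityMeasure μ] [IsProbabilityMeasure ν]
    (hμ : Integrable (fun y => ‖y‖) μ) (hν : Integrable (fun y => ‖y‖) ν) :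
    Integrable (fun y => ‖y‖) (μ.conv ν) := by
  exact (cp_conv_mom hμ hν).1

theorem integral_conv_lip {μ ν : Measure (C → ℝ)} [IsProbabilityMeasure μ]
    [IsProbabilityMeasure ν] (hμ : Integrable (fun y => ‖y‖) μ)
    (hν : Integrable (fun y => ‖y‖) ν) {φ : (C → ℝ) → ℝ} (hφ : LipschitzWith 1 φ) :
    LipschitzWith 1 (fun x => ∫ y, φ (x + y) ∂ν) ∧
    ∫ z, φ z ∂(μ.conv ν) = ∫ x, ∫ y, φ (x + y) ∂ν ∂μ := by
  refine ⟨LipschitzWith.mk_one fun x x' => ?_,
    integral_conv (integrable_lip (conv_moment hμ hν) hφ)⟩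
  rw [Real.dist_eq, ← integral_sub (integrable_lip hν (cp_lip_add hφ x))
    (integrable_lip hν (cp_lip_add hφ x'))]
  have := norm_integral_le_of_norm_le_const (μ := ν) (f := fun y => φ (x + y) - φ (x' + y))
    (C := dist x x') (ae_of_all _ fun y => by
      simpa [Real.dist_eq] using hφ.dist_le_mul (x + y) (x' + y))
  simpa using this

theorem conv_lip {μ ν : Measure (C → ℝ)} [IsProbabilityMeasure μ] [IsProbabilityMeasure ν]
    (hμ : Integrable (fun y => ‖y‖) μ) (hν : Integrable (fun y => ‖y‖) ν) {φ : (C → ℝ) → ℝ}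
    (hφ : LipschitzWith 1 φ) : |∫ z, φ z ∂(μ.conv ν) - ∫ x, φ x ∂μ| ≤ ∫ y, ‖y‖ ∂ν := by
  obtain ⟨h1, h2⟩ := integral_conv_lip hμ hν hφ
  rw [h2, ← integral_sub (integrable_lip hμ h1) (integrable_lip hμ hφ)]
  have := norm_integral_le_of_norm_le_const (μ := μ) (f := fun x => ∫ y, φ (x + y) ∂ν - φ x)
    (C := ∫ y, ‖y‖ ∂ν) (ae_of_all _ fun x => by
      have e : ∫ y, φ (x + y) ∂ν - φ x = ∫ y, (φ (x + y) - φ x) ∂ν := by
        rw [integral_sub (integrable_lip hν (cp_lip_add hφ x)) (integrable_const _)]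
        simp
      simp only [e]
      exact norm_integral_le_of_norm_le hν (ae_of_all _ fun y => by
        simpa [Real.dist_eq] using hφ.dist_le_mul (x + y) x))
  simpa using this

theorem integral_cp {Θ : Type} [MeasurableSpace Θ] (P : Measure Θ) [IsProbabilityMeasure P]
    {Xv : Θ → C → ℝ} (hX : Measurable Xv) (hXi : Integrable (fun e => ‖Xv e‖) P) {a : ℝ}
    (ha : 0 ≤ a) {φ : (C → ℝ) → ℝ} (hφ : LipschitzWith 1 φ) :
    ∫ y, φ y ∂(cp (ENNReal.ofReal a • P.map Xv)) =
      pois a fun k => ∫ c, φ (∑ i, Xv (c i)) ∂(Measure.pi fun _ : Fin k => P) := by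
  have := Measure.isProbabilityMeasure_map (μ := P) hX.aemeasurable
  have := cp_fin_smul a (P.map Xv)
  have h0 : (ENNReal.ofReal a • P.map Xv).real Set.univ = a := by simp [ha]
  have h1 : Integrable (fun y => ‖y‖) (ENNReal.ofReal a • P.map Xv) :=
    ((integrable_map_measure continuous_norm.aestronglyMeasurable hX.aemeasurable).2
      hXi).smul_measure ENNReal.ofReal_ne_top
  have := isProb_cp (ENNReal.ofReal a • P.map Xv)
  rw [cp_integral _ (integrable_lip (cp_moment _ h1).1 hφ), h0, pois_eq]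
  refine tsum_congr fun k => ?_
  have hm : Measurable fun c : Fin k → Θ => ∑ i, Xv (c i) := by fun_prop
  have h2 : convPow (ENNReal.ofReal a • P.map Xv) k = ENNReal.ofReal (a ^ k) •
      (Measure.pi fun _ : Fin k => P).map fun c => ∑ i, Xv (c i) := by
    have := cp_fin_smul (a ^ k) ((Measure.pi fun _ : Fin k => P).map fun c => ∑ i, Xv (c i))
    refine Measure.ext_of_charFunDual (funext fun L => ?_)
    have h3 := congrFun (charFunDual_map_sum_pi_eq_prod (μ := fun _ : Fin k => P.map Xv)) L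
    rw [← map_pi_map P hX, Measure.map_map (by fun_prop) (by fun_prop)] at h3
    rw [cp_char_pow, cp_char_smul, cp_char_smul, ENNReal.toReal_ofReal ha,
      ENNReal.toReal_ofReal (pow_nonneg ha k), mul_pow]
    refine congrArg₂ _ (by simp) ?_
    refine Eq.trans ?_ h3.symm
    simp
  rw [h2, integral_smul_measure, ENNReal.toReal_ofReal (pow_nonneg ha k),
    integral_map hm.aemeasurable hφ.continuous.aestronglyMeasurable, poi, smul_eq_mul, smul_eq_mul]
  ring

theorem logZ_lip {N : ℕ} {w : (Fin N → Bool) → ℝ} (hw : ∀ s, 0 < w s) :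
    LipschitzWith 1 (logZ w) := by
  refine LipschitzWith.mk_one fun H H' => cp_log (fun s => mul_pos (Real.exp_pos _) (hw s))
    (fun s => mul_pos (Real.exp_pos _) (hw s)) fun s => ?_
  rw [Real.log_mul (Real.exp_pos _).ne' (hw s).ne', Real.log_mul (Real.exp_pos _).ne' (hw s).ne',
    Real.log_exp, Real.log_exp, add_sub_add_right_eq_sub]
  exact dist_le_pi_dist H H' s

theorem logZ_add {N : ℕ} {w : (Fin N → Bool) → ℝ} (hw : ∀ s, 0 < w s) (H Y : En N) :
    logZ w (H + Y) = logZ w H + logZ (gib fun s => Real.exp (H s) * w s) Y := by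
  have h1 : 0 < ∑ s, Real.exp (H s) * w s :=
    Finset.sum_pos (fun s _ => mul_pos (Real.exp_pos _) (hw s)) Finset.univ_nonempty
  have h2 : 0 < ∑ s, Real.exp ((H + Y) s) * w s :=
    Finset.sum_pos (fun s _ => mul_pos (Real.exp_pos _) (hw s)) Finset.univ_nonempty
  have h3 : ∑ s, Real.exp (Y s) * gib (fun s => Real.exp (H s) * w s) s =
      (∑ s, Real.exp ((H + Y) s) * w s) / ∑ s, Real.exp (H s) * w s := by
    rw [Finset.sum_div]
    refine Finset.sum_congr rfl fun s _ => ?_
    rw [gib, Pi.add_apply, Real.exp_add]; ring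
  rw [logZ, logZ, logZ, h3, Real.log_div h2.ne' h1.ne']
  ring

theorem abs_logZ_sub_le {N : ℕ} {w w' : (Fin N → Bool) → ℝ} (hw : ∀ s, 0 < w s)
    (hw' : ∀ s, 0 < w' s) {δ : ℝ} (h : ∀ s, |Real.log (w s) - Real.log (w' s)| ≤ δ) (H : En N) :
    |logZ w H - logZ w' H| ≤ δ := by
  refine cp_log (fun s => mul_pos (Real.exp_pos _) (hw s))
    (fun s => mul_pos (Real.exp_pos _) (hw' s)) fun s => ?_
  rw [Real.log_mul (Real.exp_pos _).ne' (hw s).ne', Real.log_mul (Real.exp_pos _).ne' (hw' s).ne',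
    add_sub_add_left_eq_sub]
  exact h s

end Vale.Agent.P168
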