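import Vale.Agent.P168.Fourier

/-! P168 CubeB: the limit space, basic lemmas.
Plan. `Finsupp.mapDomain_comp`, `mapDomain_id`, `mapDomain_congr`,
`mapDomain_support_of_injective`, `mapDomain_single`, `mapDomain_add`. Continuity coordinatewise
(`continuous_pi`, `split_ifs`). `isClosed_good`: intersections of closed sets
(`isClosed_iInter`, `isClosed_le`). `unif_cont`: `CompactSpace.uniformContinuous_of_continuous`;
or by contradiction with a convergent subsequence; or use `Pi.uniformity` and a finite set of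
coordinates. `tendsto_res`: each coordinate is eventually constant. `isF_iff`: `res n` is
idempotent, `MeasurableSpace.measurableSet_comap`. -/

open MeasureTheory ProbabilityTheory Function Filter Topology
open scoped BigOperators

noncomputable section

namespace Vale.Agent.P168

theorem continuous_co (s : ℕ) (c : ℕ →₀ ℕ) : Continuous (co s c) := by
  exact continuous_subtype_val.comp (continuous_apply (s, c))

theorem measurable_co (s : ℕ) (c : ℕ →₀ ℕ) : Measurable (co s c) := by
  exact (continuous_co s c).measurable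

theorem abs_co_le (s : ℕ) (c : ℕ →₀ ℕ) (ω : X) : |co s c ω| ≤ 1 := by
  exact abs_le.2 (ω (s, c)).2

theorem continuous_act (e : Equiv.Perm ℕ) : Continuous (act e) := by
  exact continuous_pi fun i => continuous_apply _

theorem measurable_act (e : Equiv.Perm ℕ) : Measurable (act e) := by
  exact measurable_pi_lambda _ fun i => measurable_pi_apply _

theorem continuous_res (n : ℕ) : Continuous (res n) := by
  refine continuous_pi fun i => ?_
  unfold res
  split_ifs
  · exact continuous_apply _
  · exact continuous_const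

theorem measurable_res (n : ℕ) : Measurable (res n) := by
  exact (continuous_res n).measurable

theorem co_act (s : ℕ) (c : ℕ →₀ ℕ) (e : Equiv.Perm ℕ) (ω : X) :
    co s c (act e ω) = co s (c.mapDomain e) ω := rfl

theorem co_res {s n : ℕ} {c : ℕ →₀ ℕ} (hc : ∀ l ∈ c.support, l < n) (ω : X) :
    co s c (res n ω) = co s c ω := by
  unfold co res
  rw [if_pos hc]

theorem co_res_of_not {s n : ℕ} {c : ℕ →₀ ℕ} (hc : ¬ ∀ l ∈ c.support, l < n) (ω : X) :
    co s c (res n ω) = 0 := by
  unfold co res
  rw [if_neg hc]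

theorem act_one (ω : X) : act 1 ω = ω := by
  funext i
  unfold act
  rw [Equiv.Perm.coe_one, Finsupp.mapDomain_id]

theorem act_act (e e' : Equiv.Perm ℕ) (ω : X) : act e (act e' ω) = act (e' * e) ω := by
  funext i
  unfold act
  rw [Equiv.Perm.coe_mul, Finsupp.mapDomain_comp]

theorem res_res {n n' : ℕ} (h : n ≤ n') (ω : X) : res n (res n' ω) = res n ω := by
  funext i
  unfold res
  split_ifs with h1 h2
  · rfl
  · exact absurd (fun l hl => (h1 l hl).trans_le h) h2
  · rfl

theorem res_act {n n' : ℕ} {e : Equiv.Perm ℕ} (h : ∀ l < n, e l < n') (ω : X) :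
    res n (act e (res n' ω)) = res n (act e ω) := by
  funext i
  by_cases h1 : ∀ l ∈ i.2.support, l < n
  · have h2 : ∀ l ∈ (i.2.mapDomain e).support, l < n' := by
      intro l hl
      obtain ⟨k, hk, rfl⟩ := Finset.mem_image.1 (Finsupp.mapDomain_support hl)
      exact h k (h1 k hk)
    apply Subtype.ext
    exact (co_res (s := i.1) h1 _).trans ((co_res h2 ω).trans (co_res (s := i.1) h1 (act e ω)).symm)
  · simp only [res, if_neg h1]

theorem res_act_congr {n : ℕ} {e e' : Equiv.Perm ℕ} (h : ∀ l < n, e l = e' l) (ω : X) :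
    res n (act e ω) = res n (act e' ω) := by
  funext i
  unfold res
  split_ifs with h1
  · unfold act
    rw [Finsupp.mapDomain_congr fun l hl => h l (h1 l hl)]
  · rfl

theorem Fs_le (n : ℕ) : Fs n ≤ (inferInstance : MeasurableSpace X) := by
  exact (measurable_res n).comap_le

theorem Fs_mono {n n' : ℕ} (h : n ≤ n') : Fs n ≤ Fs n' := by
  have e : res n = res n ∘ res n' := funext fun ω => (res_res h ω).symm
  unfold Fs
  rw [e, ← MeasurableSpace.comap_comp]
  exact MeasurableSpace.comap_mono (Fs_le n)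

theorem isF_iff {n : ℕ} {E : Set X} : IsF n E ↔ MeasurableSet[Fs n] E := by
  constructor
  · intro h
    exact ⟨E, h.1, Set.ext h.2⟩
  · rintro ⟨S, hS, rfl⟩
    exact ⟨measurable_res n hS, fun ω => by simp only [Set.mem_preimage, res_res le_rfl]⟩

theorem IsF.mono {n n' : ℕ} {E : Set X} (hE : IsF n E) (h : n ≤ n') : IsF n' E := by
  exact ⟨hE.1, fun ω => by rw [← hE.2, res_res h, hE.2]⟩

theorem IsF.inter {n : ℕ} {E E' : Set X} (hE : IsF n E) (hE' : IsF n E') : IsF n (E ∩ E') := by
  exact ⟨hE.1.inter hE'.1, fun ω => by simp only [Set.mem_inter_iff, hE.2, hE'.2]⟩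

theorem IsF.preimage_act {n n' : ℕ} {E : Set X} (hE : IsF n E) {e : Equiv.Perm ℕ}
    (h : ∀ l < n, e l < n') : IsF n' (act e ⁻¹' E) := by
  refine ⟨measurable_act e hE.1, fun ω => ?_⟩
  rw [Set.mem_preimage, Set.mem_preimage, ← hE.2, res_act h, hE.2]

theorem IsF.preimage_act_congr {n : ℕ} {E : Set X} (hE : IsF n E) {e e' : Equiv.Perm ℕ}
    (h : ∀ l < n, e l = e' l) : act e ⁻¹' E = act e' ⁻¹' E := by
  ext ω
  rw [Set.mem_preimage, Set.mem_preimage, ← hE.2, res_act_congr h, hE.2]

theorem IsFf.measurable_Fs {n : ℕ} {f : X → ℝ} (hf : IsFf n f) : Measurable[Fs n] f := by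
  have e : f = f ∘ res n := funext fun ω => (hf.2.2 ω).symm
  rw [e]
  exact hf.1.comp (comap_measurable (res n))

theorem IsFf.mono {n n' : ℕ} {f : X → ℝ} (hf : IsFf n f) (h : n ≤ n') : IsFf n' f := by
  exact ⟨hf.1, hf.2.1, fun ω => by rw [← hf.2.2, res_res h, hf.2.2]⟩

theorem IsFf.mul {n : ℕ} {f g : X → ℝ} (hf : IsFf n f) (hg : IsFf n g) :
    IsFf n fun ω => f ω * g ω := by
  obtain ⟨C, hC⟩ := hf.2.1
  obtain ⟨D, hD⟩ := hg.2.1
  refine ⟨hf.1.mul hg.1, ⟨C * D, fun ω => ?_⟩, fun ω => by simp only [hf.2.2, hg.2.2]⟩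
  rw [abs_mul]
  exact mul_le_mul (hC ω) (hD ω) (abs_nonneg _) ((abs_nonneg _).trans (hC ω))

theorem IsF.indicator {n : ℕ} {E : Set X} (hE : IsF n E) :
    IsFf n (E.indicator fun _ => (1 : ℝ)) := by
  refine ⟨measurable_const.indicator hE.1, ⟨1, fun ω => ?_⟩, fun ω => ?_⟩
  · by_cases h : ω ∈ E <;> simp [h]
  · by_cases h : ω ∈ E
    · rw [Set.indicator_of_mem h, Set.indicator_of_mem ((hE.2 ω).2 h)]
    · rw [Set.indicator_of_notMem h, Set.indicator_of_notMem fun h' => h ((hE.2 ω).1 h')]

theorem isFf_co {s n : ℕ} {c : ℕ →₀ ℕ} (hc : ∀ l ∈ c.support, l < n) : IsFf n (co s c) := by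
  exact ⟨measurable_co s c, ⟨1, abs_co_le s c⟩, co_res hc⟩

theorem isFf_of_measurable_Fs {n : ℕ} {f : X → ℝ} (hf : Measurable[Fs n] f) {C : ℝ}
    (hC : ∀ ω, |f ω| ≤ C) : IsFf n f := by
  refine ⟨hf.mono (Fs_le n) le_rfl, ⟨C, hC⟩, fun ω => ?_⟩
  have h : IsF n (f ⁻¹' {f ω}) := isF_iff.2 (hf (measurableSet_singleton _))
  exact (h.2 ω).2 rfl

theorem continuous_lam (n : ℕ) : Continuous (lam n) := by
  exact continuous_lamOf.comp (continuous_pi fun S => continuous_co _ _)

theorem isClosed_good : IsClosed {ω : X | Good ω} := by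
  have hc := continuous_co
  simp only [Good, Set.ofPred_and, Set.ofPred_forall]
  refine (isClosed_iInter fun s => isClosed_eq (hc _ _) continuous_const).inter
    ((isClosed_iInter fun n => isClosed_iInter fun e => isClosed_le continuous_const
      ((continuous_apply e).comp (continuous_lam n))).inter ?_)
  refine isClosed_iInter fun s => isClosed_iInter fun a => isClosed_iInter fun c =>
    isClosed_iInter fun G => isClosed_iInter fun η => isClosed_iInter fun t =>
    isClosed_iInter fun _ => isClosed_iInter fun _ => isClosed_le continuous_const ?_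
  unfold QF
  refine ((continuous_const.add (continuous_const.mul ?_)).add continuous_const).add ?_
  · exact continuous_finsetSum _ fun l _ => continuous_const.mul (hc _ _)
  · exact continuous_finsetSum _ fun l _ => continuous_const.mul (hc _ _)

theorem unif_cont (φ : C(X, ℝ)) {η : ℝ} (hη : 0 < η) :
    ∃ δ > 0, ∀ ω ω' : X, (∀ i, |(ω i : ℝ) - ω' i| ≤ δ) → |φ ω - φ ω'| ≤ η := by
  by_contra hne
  have h1 : ∀ k : ℕ, ∃ p : X × X, (∀ i, |(p.1 i : ℝ) - p.2 i| ≤ 1 / ((k : ℝ) + 1)) ∧
      η < |φ p.1 - φ p.2| := by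
    intro k
    by_contra h2
    refine hne ⟨1 / ((k : ℝ) + 1), Nat.one_div_pos_of_nat, fun ω ω' h3 => ?_⟩
    by_contra h4
    exact h2 ⟨(ω, ω'), h3, not_le.1 h4⟩
  choose p hp1 hp2 using h1
  have h3 : Tendsto p atTop (uniformity X) := by
    rw [Pi.uniformity, tendsto_iInf]
    intro i
    rw [tendsto_comap_iff, tendsto_uniformity_iff_dist_tendsto_zero]
    exact squeeze_zero (fun _ => dist_nonneg) (fun k => hp1 k i)
      tendsto_one_div_add_atTop_nhds_zero_nat
  have h4 : UniformContinuous φ := CompactSpace.uniformContinuous_of_continuous φ.continuous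
  have h5 := tendsto_uniformity_iff_dist_tendsto_zero.1 (Tendsto.comp h4 h3)
  obtain ⟨k, hk⟩ := (h5.eventually (gt_mem_nhds hη)).exists
  exact lt_asymm (hp2 k) hk

theorem tendsto_res (ω : X) : Tendsto (fun n => res n ω) atTop (𝓝 ω) := by
  refine tendsto_pi_nhds.2 fun i => tendsto_const_nhds.congr' ?_
  filter_upwards [eventually_gt_atTop (i.2.support.sup id)] with n hn
  unfold res
  have h : ∀ l ∈ i.2.support, l < n := fun l hl => (Finset.le_sup (f := id) hl).trans_lt hn
  rw [if_pos h]

theorem continuous_mono (J : List Idx) : Continuous (mono J) := by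
  exact continuous_list_prod J fun i _ => continuous_co _ _

theorem cubeB_abs_prod {α : Type} (J : List α) (f : α → ℝ) (hf : ∀ i, |f i| ≤ 1) :
    |(J.map f).prod| ≤ 1 := by
  induction J with
  | nil => simp
  | cons a J ih =>
    rw [List.map_cons, List.prod_cons, abs_mul]
    exact mul_le_one₀ (hf a) (abs_nonneg _) ih

theorem abs_mono_le (J : List Idx) (ω : X) : |mono J ω| ≤ 1 := by
  exact cubeB_abs_prod J _ fun i => abs_co_le _ _ ω

theorem continuous_mono0 (p : ℕ) (J : List Idx) : Continuous (mono0 p J) := by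
  exact continuous_list_prod J fun i _ => continuous_co _ _

theorem abs_mono0_le (p : ℕ) (J : List Idx) (ω : X) : |mono0 p J ω| ≤ 1 := by
  exact cubeB_abs_prod J _ fun i => abs_co_le _ _ ω

theorem mu_mem (t : ℕ) : 0 < mu t ∧ mu t ≤ 1 / 2 := by
  have h : (0 : ℝ) ≤ (sp t).1 := Nat.cast_nonneg _
  unfold mu
  exact ⟨by positivity, one_div_le_one_div_of_le (by norm_num) (by linarith)⟩

theorem cubeB_diag (p l : ℕ) : diag p l = if l < p then l + 1 else 0 := by
  rw [diag, Finsupp.finsetSum_apply]
  simp only [Finsupp.single_apply, Finset.sum_ite_eq', Finset.mem_range]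

theorem support_diag (p : ℕ) : (diag p).support = Finset.range p := by
  ext l
  rw [Finsupp.mem_support_iff, cubeB_diag, Finset.mem_range]
  split_ifs with h <;> simp [h]

theorem diag_apply {p l : ℕ} (hl : l < p) : diag p l = l + 1 := by
  rw [cubeB_diag, if_pos hl]

theorem continuous_mekQ (t : ℕ) : Continuous (mekQ t) := by
  exact (((continuous_co _ _).div_const _).sub (continuous_mono0 _ _)).div_const _

theorem isFf_mekQ (t : ℕ) : IsFf (pp t) (mekQ t) := by
  refine ⟨(continuous_mekQ t).measurable, ?_, fun ω => ?_⟩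
  · obtain ⟨C, hC⟩ := isCompact_univ.exists_bound_of_continuousOn (continuous_mekQ t).continuousOn
    exact ⟨C, fun ω => hC ω trivial⟩
  · have h1 : ∀ l ∈ (diag (pp t)).support, l < pp t := by
      intro l hl
      rwa [support_diag, Finset.mem_range] at hl
    have h2 : mono0 (pp t) (jl t) (res (pp t) ω) = mono0 (pp t) (jl t) ω := by
      unfold mono0
      congr 1
      refine List.map_congr_left fun i _ => co_res (fun l hl => ?_) ω
      rw [Finsupp.support_filter] at hl
      exact (Finset.mem_filter.1 hl).2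
    unfold mekQ
    rw [co_res h1, h2]

theorem continuous_mekD (p : ℕ) (J : List Idx) (n : ℕ) : Continuous (mekD p J n) := by
  exact (continuous_finsetSum _ fun l _ => (continuous_mono J).comp (continuous_act _)).sub
    (continuous_const.mul ((continuous_mono J).comp (continuous_act _)))

theorem abs_mekD_le (p : ℕ) (J : List Idx) (n : ℕ) (ω : X) : |mekD p J n ω| ≤ 2 * n := by
  unfold mekD
  have h1 : |∑ l ∈ Finset.Ico p n, mono J (act (Equiv.swap p l) ω)| ≤ n := by
    refine (Finset.abs_sum_le_sum_abs _ _).trans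
      ((Finset.sum_le_card_nsmul _ _ 1 fun l _ => abs_mono_le J _).trans ?_)
    rw [Nat.card_Ico, nsmul_eq_mul, mul_one]
    exact_mod_cast Nat.sub_le n p
  have h2 : |(n : ℝ) * mono J (act (Equiv.swap p n) ω)| ≤ n := by
    rw [abs_mul, Nat.abs_cast]
    exact mul_le_of_le_one_right (Nat.cast_nonneg _) (abs_mono_le J _)
  refine (abs_sub _ _).trans ?_
  linarith

end Vale.Agent.P168
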