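import Mathlib

/-! P168: definitions used in the statement (diluted spin glasses, Mezard-Parisi functional). -/

open MeasureTheory ProbabilityTheory unitInterval

noncomputable section

namespace Vale.Agent.P168

/-- The spin value of a bit. -/
def spin (b : Bool) : ℝ := if b then 1 else -1

/-- The clause function `θ = log (a (1 + b f_1(σ_1) ⋯ f_K(σ_K)))` with parameters `(a, b, f)`. -/
def theta {K : ℕ} (q : ℝ × ℝ × (Fin K → Bool → ℝ)) (s : Fin K → Bool) : ℝ :=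
  Real.log (q.1 * (1 + q.2.1 * ∏ j, q.2.2 j (s j)))

/-- Expectation of `F π` for `π` Poisson of mean `a`. -/
def pois (a : ℝ) (F : ℕ → ℝ) : ℝ :=
  ∑' k : ℕ, Real.exp (-a) * a ^ k / (k.factorial : ℝ) * F k

/-- The Hamiltonian with `k` clauses (parameters and indices `c`) and fields `h`. -/
def ham {K N k : ℕ} (c : Fin k → (ℝ × ℝ × (Fin K → Bool → ℝ)) × (Fin K → Fin N))
    (h : Fin N → ℝ) (s : Fin N → Bool) : ℝ :=
  ∑ a, theta (c a).1 (fun j => s ((c a).2 j)) + ∑ i, h i * spin (s i)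

/-- The pressure `F_N`; `Q` is the law of `(a, b, f)` and `Ph` the law of the field. -/
def pressure (K : ℕ) (lam : ℝ) (Q : Measure (ℝ × ℝ × (Fin K → Bool → ℝ))) (Ph : Measure ℝ)
    (N : ℕ) : ℝ :=
  1 / (N : ℝ) * pois (lam * N) fun k =>
    ∫ c, ∫ h, Real.log (∑ s, Real.exp (ham c h s)) ∂(Measure.pi fun _ : Fin N => Ph)
      ∂(Measure.pi fun _ : Fin k => Q.prod (uniformOn (Set.univ : Set (Fin K → Fin N))))

/-- One step `Y ↦ (E_p Y^m)^(1/m)`: `w p j` is the level `p` variable of message `j`. -/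
def step {r : ℕ} {J : Type} [Fintype J] (m : ℝ) (p : Fin (r + 1))
    (Y : (Fin (r + 1) → J → I) → ℝ) (w : Fin (r + 1) → J → I) : ℝ :=
  (∫ u : J → I, Y (Function.update w p u) ^ m) ^ (1 / m)

/-- `E log Y_0` over the message variables, `Y_0` obtained from `Y = Y_r` by the steps
`p = r, ..., 1` with exponents `m_p`. -/
def hier {r : ℕ} {J : Type} [Fintype J] (m : Fin r → ℝ) (Y : (Fin (r + 1) → J → I) → ℝ) : ℝ :=
  ∫ w, Real.log ((List.finRange r).foldr (fun p Z => step (m p) p.succ Z) Y w)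

/-- The factor of one clause in `U`: position `l` carries the spin `e`. -/
def siteFac {K : ℕ} (q : ℝ × ℝ × (Fin K → Bool → ℝ)) (l : Fin K) (e : Bool) (x : Fin K → ℝ) : ℝ :=
  ∑ s ∈ Finset.univ.filter (fun s : Fin K → Bool => s l = e),
    Real.exp (theta q s) * ∏ j ∈ Finset.univ.erase l, (1 + x j * spin (s j)) / 2

/-- The factor of one clause in `V`. -/
def fullFac {K : ℕ} (q : ℝ × ℝ × (Fin K → Bool → ℝ)) (x : Fin K → ℝ) : ℝ :=
  ∑ s : Fin K → Bool, Real.exp (theta q s) * ∏ j, (1 + x j * spin (s j)) / 2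

/-- `U` with `k` clauses, field `h`, parameters and positions `c`, messages `x`. -/
def cavU {K k : ℕ} (h : ℝ) (c : Fin k → (ℝ × ℝ × (Fin K → Bool → ℝ)) × Fin K)
    (x : Fin k × Fin K → ℝ) : ℝ :=
  ∑ e : Bool, Real.exp (h * spin e) * ∏ a, siteFac (c a).1 (c a).2 e fun j => x (a, j)

/-- `V` with `k` clauses, parameters `c`, messages `x`. -/
def cavV {K k : ℕ} (c : Fin k → ℝ × ℝ × (Fin K → Bool → ℝ)) (x : Fin k × Fin K → ℝ) : ℝ :=
  ∏ a, fullFac (c a) fun j => x (a, j)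

/-- The trial value `T U - T V` for depth `r`, exponents `m` and message function `x`. -/
def trial (K : ℕ) (lam : ℝ) (Q : Measure (ℝ × ℝ × (Fin K → Bool → ℝ))) (Ph : Measure ℝ)
    {r : ℕ} (m : Fin r → ℝ) (x : (Fin (r + 1) → I) → ℝ) : ℝ :=
  pois (K * lam) (fun k => ∫ h, ∫ c, hier m (fun w => cavU h c fun j => x fun p => w p j)
      ∂(Measure.pi fun _ : Fin k => Q.prod (uniformOn (Set.univ : Set (Fin K)))) ∂Ph)
    - pois ((K - 1) * lam) fun k => ∫ c, hier m (fun w => cavV c fun j => x fun p => w p j)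
      ∂(Measure.pi fun _ : Fin k => Q)

/-- All trial values: any depth `r ≥ 0`, `0 < m_1 < ⋯ < m_r < 1`, measurable `x` into `[-1,1]`. -/
def trials (K : ℕ) (lam : ℝ) (Q : Measure (ℝ × ℝ × (Fin K → Bool → ℝ))) (Ph : Measure ℝ) :
    Set ℝ :=
  {v | ∃ (r : ℕ) (m : Fin r → ℝ) (x : (Fin (r + 1) → I) → ℝ), StrictMono m ∧
    (∀ p, 0 < m p ∧ m p < 1) ∧ Measurable x ∧ (∀ w, |x w| ≤ 1) ∧ v = trial K lam Q Ph m x}

/-- Standing assumptions: probability laws, `a > 0`, `|b| < 1`, `|f_j| ≤ 1` almost surely,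
`θ` and `h` integrable. -/
def Model (K : ℕ) (Q : Measure (ℝ × ℝ × (Fin K → Bool → ℝ))) (Ph : Measure ℝ) : Prop :=
  IsProbabilityMeasure Q ∧ IsProbabilityMeasure Ph ∧
    (∀ᵐ q ∂Q, 0 < q.1 ∧ |q.2.1| < 1 ∧ ∀ j s, |q.2.2 j s| ≤ 1) ∧
    (∀ s, Integrable (fun q => theta q s) Q) ∧ Integrable (fun h : ℝ => h) Ph

/-- Panchenko-Talagrand class: `f_1, …, f_K` i.i.d., independent of `b`, and `E (-b)^n ≥ 0`. -/
def Positive (K : ℕ) (Q : Measure (ℝ × ℝ × (Fin K → Bool → ℝ))) : Prop :=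
  (∃ (Pb : Measure ℝ) (Pf : Measure (Bool → ℝ)), IsProbabilityMeasure Pb ∧
    IsProbabilityMeasure Pf ∧ Q.map Prod.snd = Pb.prod (Measure.pi fun _ : Fin K => Pf)) ∧
  ∀ n : ℕ, 1 ≤ n → 0 ≤ ∫ q, (-q.2.1) ^ n ∂Q

end Vale.Agent.P168
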