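import Vale.Agent.P168.Ultra

/-! P168 Determ: all multi-overlaps are functions of the total overlaps.
Plan. Induction on `n`; `n ≤ 1` from `Triv` (constants). Step `p → p + 1`, `p ≥ 1`: write
`c = c.erase p + single p (c p)`, `x = co s c`. By the induction hypothesis `res p = G ∘ Rm p` a.e.
for a measurable `G : (Fin p → Fin p → ℝ) → X` (countably many coordinates, `Set.projIcc`), so every
`Fs p`-measurable real function is a.e. a measurable function of `Rm p`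
(`Measurable.exists_eq_measurable_comp`), hence of `Rm (p+1)`. For `η > 0` and a cell
`z : Fin p → ℤ` let `C z = {∀ i, ⌊Rt p i / η⌋ = z i}`. For rationals `x1 - x2 > sqrt (L η)`,
`S1 = C z ∩ {x > x1}`, `S2 = C z ∩ {x < x2}` satisfy the hypothesis of `fresh` by `holder`. Define
`g η = ⨆` (or a finite maximum over the grid `x1 = k η`, `|k| ≤ 1/η + 2`) of the `x1` with
`ν[1_{C z ∩ {x > x1}} | Fs p] > 0`, `z` the cell of `ω`. A.e. `1_S ≤ 1{ν[1_S | Fs p] > 0}`; this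
gives `|x - g η| ≤ 2 η + sqrt (L η)` a.e. Finally take `limsup` (or `Filter.limUnder`,
`measurable_of_tendsto_metrizable_ae`-type lemma) along `η = 1/(k+1)`. The abstract lemma
`ae_eq_of_fresh` isolates this argument. -/

open MeasureTheory ProbabilityTheory Function Filter Topology
open scoped BigOperators

noncomputable section

namespace Vale.Agent.P168

theorem determ_pos {Ω : Type} {F mΩ : MeasurableSpace Ω} (ν : Measure Ω) [IsProbabilityMeasure ν]
    (hF : F ≤ mΩ) {A : Set Ω} (hA : MeasurableSet A) :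
    ∀ᵐ ω ∂ν, ω ∈ A → (ν[A.indicator (fun _ => (1 : ℝ)) | F]) ω ≠ 0 := by
  have hN : MeasurableSet[F] {ω | (ν[A.indicator (fun _ => (1 : ℝ)) | F]) ω = 0} :=
    (stronglyMeasurable_condExp (m := F) (μ := ν)
      (f := A.indicator fun _ => (1 : ℝ))).measurable (measurableSet_singleton (0 : ℝ))
  have hi : Integrable (A.indicator fun _ => (1 : ℝ)) ν := (integrable_const _).indicator hA
  have h1 := setIntegral_condExp hF hi hN
  have h0 : ∫ ω in {ω | (ν[A.indicator (fun _ => (1 : ℝ)) | F]) ω = 0},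
      (ν[A.indicator (fun _ => (1 : ℝ)) | F]) ω ∂ν = 0 :=
    setIntegral_eq_zero_of_forall_eq_zero fun ω hω => hω
  rw [h0, setIntegral_indicator hA, setIntegral_const, smul_eq_mul, mul_one] at h1
  have h2 : ν ({ω | (ν[A.indicator (fun _ => (1 : ℝ)) | F]) ω = 0} ∩ A) = 0 :=
    (measureReal_eq_zero_iff (measure_ne_top _ _)).1 h1.symm
  rw [ae_iff]
  refine measure_mono_null (fun ω hω => ?_) h2
  by_contra hc
  exact hω fun h3 h4 => hc ⟨h4, h3⟩

theorem determ_aux {Ω Y : Type} {F mΩ : MeasurableSpace Ω} [MeasurableSpace Y] (ν : Measure Ω)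
    [IsProbabilityMeasure ν] (hF : F ≤ mΩ) {p : ℕ} {π : Ω → Fin p → ℝ}
    (hπ : Measurable π) {x : Ω → ℝ} (hx : Measurable x) (hxb : ∀ ω, |x ω| ≤ 1) {L : ℝ}
    (hfr : ∀ (η x1 x2 : ℝ) (z : Fin p → ℤ), 0 < η → x2 < x1 → L * η < (x1 - x2) ^ 2 →
      ∀ᵐ ω ∂ν,
        (ν[Set.indicator {ω | (∀ i, ⌊π ω i / η⌋ = z i) ∧ x1 < x ω} (fun _ => (1 : ℝ)) | F]) ω *
        (ν[Set.indicator {ω | (∀ i, ⌊π ω i / η⌋ = z i) ∧ x ω < x2} (fun _ => (1 : ℝ)) | F]) ω = 0)
    {T : Ω → Y}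
    (hFT : ∀ f : Ω → ℝ, Measurable[F] f → ∃ g : Y → ℝ, Measurable g ∧ f =ᵐ[ν] fun ω => g (T ω))
    {π' : Y → Fin p → ℝ} (hπ' : Measurable π') (hπT : ∀ ω, π ω = π' (T ω)) :
    ∃ g : Y → ℝ, Measurable g ∧ x =ᵐ[ν] fun ω => g (T ω) := by
  classical
  obtain ⟨η, hη⟩ : ∃ η : ℕ → ℝ, ∀ k, η k = 1 / ((k : ℝ) + 1) := ⟨_, fun _ => rfl⟩
  have hη0 : ∀ k, 0 < η k := fun k => by rw [hη]; positivity
  have hC : ∀ (e : ℝ) (z : Fin p → ℤ), Measurable fun ω => ∀ i, ⌊π ω i / e⌋ = z i := fun e z =>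
    Measurable.forall fun i => measurableSet_setOfPred.1
      ((((measurable_pi_apply i).comp hπ).div_const e).floor (measurableSet_singleton (z i)))
  have hC' : ∀ (e : ℝ) (z : Fin p → ℤ), Measurable fun y => ∀ i, ⌊π' y i / e⌋ = z i := fun e z =>
    Measurable.forall fun i => measurableSet_setOfPred.1
      ((((measurable_pi_apply i).comp hπ').div_const e).floor (measurableSet_singleton (z i)))
  have hA : ∀ (e : ℝ) (z : Fin p → ℤ) (q : ℝ),
      MeasurableSet {ω | (∀ i, ⌊π ω i / e⌋ = z i) ∧ q < x ω} := fun e z q =>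
    (measurableSet_setOfPred.2 (hC e z)).inter (measurableSet_lt measurable_const hx)
  have hB : ∀ (e : ℝ) (z : Fin p → ℤ) (q : ℝ),
      MeasurableSet {ω | (∀ i, ⌊π ω i / e⌋ = z i) ∧ x ω < q} := fun e z q =>
    (measurableSet_setOfPred.2 (hC e z)).inter (measurableSet_lt hx measurable_const)
  choose G hGm hG using fun (k : ℕ) (z : Fin p → ℤ) (q : ℚ) =>
    hFT (ν[Set.indicator {ω | (∀ i, ⌊π ω i / η k⌋ = z i) ∧ (q : ℝ) < x ω} (fun _ => (1 : ℝ)) | F])
      stronglyMeasurable_condExp.measurable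
  have hP : ∀ q : ℚ, MeasurableSet
      {y | ∀ (k : ℕ) (z : Fin p → ℤ), (∀ i, ⌊π' y i / η k⌋ = z i) → G k z q y ≠ 0} := fun q =>
    measurableSet_setOfPred.2 (Measurable.forall fun k => Measurable.forall fun z =>
      (hC' (η k) z).imp (measurableSet_setOfPred.1
        (hGm k z q (measurableSet_singleton (0 : ℝ)).compl)))
  refine ⟨fun y => ⨆ q : ℚ, if (∀ (k : ℕ) (z : Fin p → ℤ),
    (∀ i, ⌊π' y i / η k⌋ = z i) → G k z q y ≠ 0) then (q : ℝ) else -2,
    Measurable.iSup fun q => Measurable.ite (hP q) measurable_const measurable_const, ?_⟩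
  have a1 := ae_all_iff.2 fun k : ℕ => ae_all_iff.2 fun z : Fin p → ℤ =>
    ae_all_iff.2 fun q : ℚ => hG k z q
  have a2 := ae_all_iff.2 fun k : ℕ => ae_all_iff.2 fun z : Fin p → ℤ =>
    ae_all_iff.2 fun q : ℚ => determ_pos ν hF (hA (η k) z q)
  have a3 := ae_all_iff.2 fun k : ℕ => ae_all_iff.2 fun z : Fin p → ℤ =>
    ae_all_iff.2 fun q : ℚ => determ_pos ν hF (hB (η k) z q)
  have a4 : ∀ᵐ ω ∂ν, ∀ (k : ℕ) (z : Fin p → ℤ) (q q' : ℚ), (q' : ℝ) < q →
      L * η k < ((q : ℝ) - q') ^ 2 →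
      (ν[Set.indicator {ω | (∀ i, ⌊π ω i / η k⌋ = z i) ∧ (q : ℝ) < x ω}
        (fun _ => (1 : ℝ)) | F]) ω *
      (ν[Set.indicator {ω | (∀ i, ⌊π ω i / η k⌋ = z i) ∧ x ω < q'}
        (fun _ => (1 : ℝ)) | F]) ω = 0 := by
    refine ae_all_iff.2 fun k => ae_all_iff.2 fun z => ae_all_iff.2 fun q =>
      ae_all_iff.2 fun q' => ?_
    by_cases hc : (q' : ℝ) < q ∧ L * η k < ((q : ℝ) - q') ^ 2
    · exact (hfr (η k) q q' z (hη0 k) hc.1 hc.2).mono fun ω hω _ _ => hω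
    · exact Eventually.of_forall fun ω h1 h2 => absurd ⟨h1, h2⟩ hc
  filter_upwards [a1, a2, a3, a4] with ω b1 b2 b3 b4
  symm
  refine ciSup_eq_of_forall_le_of_forall_lt_exists_gt (fun q => ?_) (fun w hw => ?_)
  · split_ifs with hq
    · by_contra hc
      obtain ⟨q', h1, h2⟩ := exists_rat_btwn (not_le.1 hc)
      have hpos : 0 < ((q : ℝ) - q') ^ 2 := pow_pos (sub_pos.2 h2) 2
      have hl : Tendsto (fun k : ℕ => L * (1 / ((k : ℝ) + 1))) atTop (𝓝 0) := by
        simpa using tendsto_one_div_add_atTop_nhds_zero_nat.const_mul L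
      obtain ⟨k, hk⟩ := (hl.eventually (gt_mem_nhds hpos)).exists
      rw [← hη] at hk
      have h3 := b4 k (fun i => ⌊π ω i / η k⌋) q q' h2 hk
      have h4 := b3 k (fun i => ⌊π ω i / η k⌋) q' ⟨fun _ => rfl, h1⟩
      have h5 := hq k (fun i => ⌊π ω i / η k⌋) fun i => by rw [hπT]
      rw [← b1] at h5
      exact mul_ne_zero h5 h4 h3
    · linarith [(abs_le.1 (hxb ω)).1]
  · obtain ⟨q, h1, h2⟩ := exists_rat_btwn hw
    refine ⟨q, ?_⟩
    rw [if_pos]
    · exact h1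
    · intro k z hz
      rw [← b1]
      exact b2 k z q ⟨fun i => by rw [hπT]; exact hz i, h2⟩

theorem ae_eq_of_fresh {Ω Y : Type} [mΩ : MeasurableSpace Ω] [MeasurableSpace Y] (ν : Measure Ω)
    [IsProbabilityMeasure ν] {F : MeasurableSpace Ω} (hF : F ≤ mΩ) {p : ℕ} {π : Ω → Fin p → ℝ}
    (hπ : Measurable[mΩ] π) {x : Ω → ℝ} (hx : Measurable[mΩ] x) (hxb : ∀ ω, |x ω| ≤ 1) {L : ℝ}
    (hL : 0 ≤ L)
    (hfr : ∀ (η x1 x2 : ℝ) (z : Fin p → ℤ), 0 < η → x2 < x1 → L * η < (x1 - x2) ^ 2 →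
      ∀ᵐ ω ∂ν,
        (ν[Set.indicator {ω | (∀ i, ⌊π ω i / η⌋ = z i) ∧ x1 < x ω} (fun _ => (1 : ℝ)) | F]) ω *
        (ν[Set.indicator {ω | (∀ i, ⌊π ω i / η⌋ = z i) ∧ x ω < x2} (fun _ => (1 : ℝ)) | F]) ω = 0)
    {T : Ω → Y} (hT : Measurable[mΩ] T)
    (hFT : ∀ f : Ω → ℝ, Measurable[F] f → ∃ g : Y → ℝ, Measurable g ∧ f =ᵐ[ν] fun ω => g (T ω))
    {π' : Y → Fin p → ℝ} (hπ' : Measurable π') (hπT : ∀ ω, π ω = π' (T ω)) :
    ∃ g : Y → ℝ, Measurable g ∧ x =ᵐ[ν] fun ω => g (T ω) := by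
  have _ := hL
  have _ := hT
  exact determ_aux (mΩ := mΩ) ν hF hπ hx hxb hfr hFT hπ' hπT

theorem measurable_Rm (n : ℕ) : Measurable (Rm n) := by
  refine measurable_pi_lambda _ fun i => measurable_pi_lambda _ fun j => ?_
  unfold Rm
  split_ifs
  · exact measurable_const
  · exact pair_Rt.1 i j

theorem determ_FT {ν : Measure X} {p : ℕ}
    (ih : ∀ (s : ℕ) (c : ℕ →₀ ℕ), (∀ l ∈ c.support, l < p) →
      ∃ g : (Fin p → Fin p → ℝ) → ℝ, Measurable g ∧ co s c =ᵐ[ν] fun ω => g (Rm p ω))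
    (f : X → ℝ) (hf : Measurable[Fs p] f) :
    ∃ g : (Fin (p + 1) → Fin (p + 1) → ℝ) → ℝ, Measurable g ∧
      f =ᵐ[ν] fun ω => g (Rm (p + 1) ω) := by
  have h1 : ∀ i : Idx, ∃ g : (Fin p → Fin p → ℝ) → ℝ, Measurable g ∧
      ∀ᵐ ω ∂ν, co i.1 i.2 (res p ω) = g (Rm p ω) := by
    intro i
    by_cases hi : ∀ l ∈ i.2.support, l < p
    · obtain ⟨g, hg, hg'⟩ := ih i.1 i.2 hi
      exact ⟨g, hg, hg'.mono fun ω hω => (co_res hi ω).trans hω⟩
    · exact ⟨fun _ => 0, measurable_const, Eventually.of_forall fun ω => co_res_of_not hi ω⟩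
  choose g hgm hg using h1
  obtain ⟨f', hf', rfl⟩ := hf.exists_eq_measurable_comp
  have hle : (-1 : ℝ) ≤ 1 := by norm_num
  have hG : Measurable fun (y : Fin p → Fin p → ℝ) (i : Idx) => Set.projIcc (-1 : ℝ) 1 hle (g i y) :=
    measurable_pi_lambda _ fun i => continuous_projIcc.measurable.comp (hgm i)
  have hr : Measurable fun (y : Fin (p + 1) → Fin (p + 1) → ℝ) (i j : Fin p) =>
      y i.castSucc j.castSucc :=
    measurable_pi_lambda _ fun i => measurable_pi_lambda _ fun j =>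
      (measurable_pi_apply _).comp (measurable_pi_apply _)
  refine ⟨fun y => f' fun i => Set.projIcc (-1 : ℝ) 1 hle (g i fun a b => y a.castSucc b.castSucc),
    hf'.comp (hG.comp hr), ?_⟩
  filter_upwards [ae_all_iff.2 hg] with ω hω
  have e1 : (fun a b : Fin p => Rm (p + 1) ω a.castSucc b.castSucc) = Rm p ω := by
    funext a b
    simp only [Rm, Fin.castSucc_inj, Fin.val_castSucc]
  show f' (res p ω) = _
  rw [e1]
  refine congrArg f' (funext fun i => ?_)
  rw [← hω i]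
  exact (Set.projIcc_val hle (res p ω i)).symm

theorem determ_fresh {ν : Measure X} (h : Str ν) {p : ℕ} (hp : 1 ≤ p) (s a : ℕ) {c : ℕ →₀ ℕ}
    (hc : ∀ l ∈ c.support, l < p) {L : ℝ}
    (hL : ∀ᵐ ω ∂ν, ∀ δ : ℝ, (∀ i < p, |Rt p i ω - Rt (p + 1) i ω| ≤ δ) →
      (co s (c + Finsupp.single p a) ω - co s (c + Finsupp.single (p + 1) a) ω) ^ 2 ≤ L * δ)
    (η x1 x2 : ℝ) (z : Fin p → ℤ) (hη : 0 < η) (hx : x2 < x1) (hLη : L * η < (x1 - x2) ^ 2) :
    ∀ᵐ ω ∂ν,
      (ν[Set.indicator {ω | (∀ i : Fin p, ⌊Rt p i ω / η⌋ = z i) ∧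
        x1 < co s (c + Finsupp.single p a) ω} (fun _ => (1 : ℝ)) | Fs p]) ω *
      (ν[Set.indicator {ω | (∀ i : Fin p, ⌊Rt p i ω / η⌋ = z i) ∧
        co s (c + Finsupp.single p a) ω < x2} (fun _ => (1 : ℝ)) | Fs p]) ω = 0 := by
  have hs : ∀ l ∈ (c + Finsupp.single p a).support, l < p + 1 := by
    intro l hl
    rcases Finset.mem_union.1 (Finsupp.support_add hl) with h2 | h2
    · exact (hc l h2).trans (Nat.lt_succ_self p)
    · have := Finsupp.support_single_subset h2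
      rw [Finset.mem_singleton] at this
      omega
  have hC : MeasurableSet {ω : X | ∀ i : Fin p, ⌊Rt p i ω / η⌋ = z i} :=
    measurableSet_setOfPred.2 (Measurable.forall fun i => measurableSet_setOfPred.1
      (((pair_Rt.1 p i).div_const η).floor (measurableSet_singleton (z i))))
  have hR : ∀ (i : Fin p) ω, Rt p i (res (p + 1) ω) = Rt p i ω := fun i ω =>
    pair_Rt.2.2.2.1 (p + 1) p i ω (Nat.lt_succ_self p) (i.2.trans (Nat.lt_succ_self p))
  refine fresh h hp ⟨hC.inter (measurableSet_lt measurable_const (measurable_co _ _)), fun ω => ?_⟩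
    ⟨hC.inter (measurableSet_lt (measurable_co _ _) measurable_const), fun ω => ?_⟩ ?_
  · simp only [Set.mem_ofPred_eq, hR, co_res hs]
  · simp only [Set.mem_ofPred_eq, hR, co_res hs]
  · refine measure_mono_null (fun ω hω => ?_) (ae_iff.1 hL)
    obtain ⟨⟨h1, h2⟩, h3, h4⟩ := hω
    intro h5
    have e0 : ∀ i < p, Equiv.swap p (p + 1) i = i := fun i hi =>
      Equiv.swap_apply_of_ne_of_ne (by omega) (by omega)
    have e1 : Finsupp.mapDomain (Equiv.swap p (p + 1)) c = c := by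
      rw [Finsupp.mapDomain_congr (g := id) fun i hi => e0 i (hc i hi), Finsupp.mapDomain_id]
    rw [co_act, Finsupp.mapDomain_add, Finsupp.mapDomain_single, e1, Equiv.swap_apply_left] at h4
    have h6 := h5 η fun i hi => by
      have a1 := h1 ⟨i, hi⟩
      have a2 := h3 ⟨i, hi⟩
      rw [pair_Rt.2.2.1, Equiv.swap_apply_left, e0 i hi] at a2
      have a3 := Int.abs_sub_lt_one_of_floor_eq_floor (a1.trans a2.symm)
      rw [← sub_div, abs_div, abs_of_pos hη, div_lt_one hη] at a3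
      exact a3.le
    have h7 : (x1 - x2) ^ 2 ≤
        (co s (c + Finsupp.single p a) ω - co s (c + Finsupp.single (p + 1) a) ω) ^ 2 :=
      pow_le_pow_left₀ (by linarith) (by linarith) 2
    linarith

theorem determ {ν : Measure X} (h : Str ν) (n s : ℕ) {c : ℕ →₀ ℕ} (hc : ∀ l ∈ c.support, l < n) :
    ∃ g : (Fin n → Fin n → ℝ) → ℝ, Measurable g ∧ co s c =ᵐ[ν] fun ω => g (Rm n ω) := by
  have hν := h.1
  have base : ∀ (n s : ℕ) (c : ℕ →₀ ℕ), (∀ l ∈ c.support, l < 1) →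
      ∃ g : (Fin n → Fin n → ℝ) → ℝ, Measurable g ∧ co s c =ᵐ[ν] fun ω => g (Rm n ω) := by
    intro n s c hc
    obtain ⟨ω0, h0⟩ := h.2.2.2.1
    refine ⟨fun _ => co s c ω0, measurable_const, h0.mono fun ω hω => ?_⟩
    show co s c ω = co s c ω0
    rw [← hω, co_res hc]
  induction n generalizing s c with
  | zero => exact base 0 s c fun l hl => (hc l hl).trans Nat.one_pos
  | succ p ih =>
    rcases Nat.eq_zero_or_pos p with rfl | hp
    · exact base _ s c hc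
    have hc' : ∀ l ∈ (c.erase p).support, l < p := by
      intro l hl
      rw [Finsupp.support_erase, Finset.mem_erase] at hl
      have := hc l hl.2
      have := hl.1
      omega
    obtain ⟨L, hL0, hL⟩ := holder h hp s (c p) hc'
    have hfr := determ_fresh h hp s (c p) hc' hL
    rw [Finsupp.erase_add_single] at hfr
    refine ae_eq_of_fresh ν (Fs_le p) (π := fun ω (i : Fin p) => Rt p i ω)
      (measurable_pi_lambda _ fun i => pair_Rt.1 p i) (measurable_co s c) (abs_co_le s c) hL0 hfr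
      (measurable_Rm (p + 1)) (determ_FT fun s c hc => ih s hc)
      (π' := fun y i => y (Fin.last p) i.castSucc)
      (measurable_pi_lambda _ fun i => (measurable_pi_apply _).comp (measurable_pi_apply _))
      fun ω => funext fun i => ?_
    simp only [Rm, (Fin.castSucc_lt_last i).ne', if_false, Fin.val_last, Fin.val_castSucc]

end Vale.Agent.P168
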