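import Vale.Agent.P168.Determ

/-! P168 Disc: discretisation of the total overlap.
Plan. `exists_thr`: let `ζ = ν.map (Rt 0 1)`, cells `J k = [−1 + k η, −1 + (k+1) η)`, `D` the finite
nonempty set of `k` with `ζ (J k) > 0`, `r + 1 = card D`, `k p = D.orderEmbOfFin _ p`,
`t p = −1 + k (p.succ) η`, `g p = −1 + k p η`. A.e. `Rt i j` lies in a cell of `D` (exchangeability,
`Pair`), and in the cell `k q` the level is `q`. `disc`: for the finitely many pairs `(n, S)`
take `g` from `determ` (clip to `[-1,1]`), approximate it in `L^1 (ν.map (Rm (n+1)))` by a bounded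
continuous `φ`, uniformly continuous on the compact cube `[-2,2]`; choose one `η` for all; then
`∫ |co - G (tau)| ≤ ε/2` with `G d = φ (fun i j => if i = j then 0 else g (d i j))`, and
`cond_contr` (conditional expectation on the finite partition by `tau` is an `L^1` contraction). -/

open MeasureTheory ProbabilityTheory Function Filter Topology
open scoped BigOperators

noncomputable section

namespace Vale.Agent.P168

variable {ν : Measure X}

theorem disc_level_mono {r : ℕ} (t : Fin r → ℝ) : Monotone (level t) := fun _ _ hxy =>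
  Finset.card_le_card fun p hp => by
    rw [Finset.mem_filter] at hp ⊢
    exact ⟨hp.1, hp.2.trans hxy⟩

theorem measurable_tau {r : ℕ} (t : Fin r → ℝ) (n : ℕ) : Measurable (tau t n) := by
  refine measurable_pi_lambda _ fun i => measurable_pi_lambda _ fun j => ?_
  unfold tau
  split_ifs
  · exact measurable_const
  · exact (disc_level_mono t).measurable.comp (pair_Rt.1 i j)

theorem tau_le {r : ℕ} (t : Fin r → ℝ) (n : ℕ) (ω : X) (i j : Fin n) : tau t n ω i j ≤ r := by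
  unfold tau
  split_ifs
  · exact le_rfl
  · exact (Finset.card_filter_le _ _).trans (by simp)

theorem disc_lt (h : Str ν) {K : X → ℕ} (hK : Measurable K) {a b : ℕ} (ha : ν {ω | K ω = a} ≠ 0)
    (hab : a < b) : ν.real {ω | K ω < a} < ν.real {ω | K ω < b} := by
  have hν := h.1
  have h1 : 0 < ν.real {ω | K ω = a} :=
    ENNReal.toReal_pos ha (measure_ne_top _ _)
  have h2 : ν.real ({ω | K ω < a} ∪ {ω | K ω = a}) =
      ν.real {ω | K ω < a} + ν.real {ω | K ω = a} :=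
    measureReal_union (Set.disjoint_left.2 fun ω (b1 : K ω < a) (b2 : K ω = a) => by omega)
      (hK (measurableSet_singleton a))
  have h3 : ν.real ({ω | K ω < a} ∪ {ω | K ω = a}) ≤ ν.real {ω | K ω < b} :=
    measureReal_mono fun ω hω => by
      rcases hω with (b1 : K ω < a) | (b1 : K ω = a)
      · exact b1.trans hab
      · exact b1.trans_lt hab
  linarith

theorem exists_thr (h : Str ν) {η : ℝ} (hη : 0 < η) :
    ∃ (r : ℕ) (t m : Fin r → ℝ) (g : ℕ → ℝ), Thr ν t m ∧ (∀ q, |g q| ≤ 2) ∧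
      ∀ᵐ ω ∂ν, ∀ i j, i ≠ j → |Rt i j ω - g (level t (Rt i j ω))| ≤ η := by
  classical
  have hν := h.1
  obtain ⟨κ, hκ⟩ : ∃ κ : ℝ → ℕ, ∀ x, κ x = ⌊(x + 1) / η⌋₊ := ⟨_, fun _ => rfl⟩
  have hκm : Measurable κ := by
    rw [show κ = fun x => ⌊(x + 1) / η⌋₊ from funext hκ]
    exact ((measurable_id.add_const 1).div_const η).nat_floor
  have hK : Measurable fun ω => κ (Rt 0 1 ω) := hκm.comp (pair_Rt.1 0 1)
  have hle : ∀ (x : ℝ) (a : ℕ), |x| ≤ 1 → (-1 + a * η ≤ x ↔ a ≤ κ x) := by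
    intro x a hx
    have h0 : 0 ≤ (x + 1) / η := div_nonneg (by linarith [(abs_le.1 hx).1]) hη.le
    rw [hκ, Nat.le_floor_iff h0, le_div_iff₀ hη]
    constructor <;> intro h1 <;> linarith
  have hlt : ∀ (x : ℝ) (a : ℕ), |x| ≤ 1 → (x < -1 + a * η ↔ κ x < a) := by
    intro x a hx
    rw [← not_le, hle x a hx, not_le]
  have hbd : ∀ x : ℝ, |x| ≤ 1 → κ x < κ 1 + 1 := by
    intro x hx
    rw [Nat.lt_succ_iff, ← hle 1 _ (by simp)]
    exact ((hle x _ hx).2 le_rfl).trans (abs_le.1 hx).2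
  obtain ⟨D, hD⟩ : ∃ D : Finset ℕ, D =
      (Finset.range (κ 1 + 1)).filter fun k => ν {ω | κ (Rt 0 1 ω) = k} ≠ 0 := ⟨_, rfl⟩
  have hae : ∀ᵐ ω ∂ν, κ (Rt 0 1 ω) ∈ D := by
    have h1 : ∀ᵐ ω ∂ν, ∀ k : ℕ, ν {ω | κ (Rt 0 1 ω) = k} = 0 → κ (Rt 0 1 ω) ≠ k := by
      refine ae_all_iff.2 fun k => ?_
      by_cases hk : ν {ω | κ (Rt 0 1 ω) = k} = 0
      · exact (measure_eq_zero_iff_ae_notMem.1 hk).mono fun ω hω _ => hω
      · exact Eventually.of_forall fun ω h2 => absurd h2 hk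
    refine h1.mono fun ω hω => ?_
    rw [hD, Finset.mem_filter, Finset.mem_range]
    exact ⟨hbd _ (pair_Rt.2.2.2.2 0 1 ω), fun h2 => hω _ h2 rfl⟩
  obtain ⟨r, hr⟩ : ∃ r, D.card = r + 1 := by
    obtain ⟨ω, hω⟩ := hae.exists
    exact Nat.exists_eq_succ_of_ne_zero (Finset.card_pos.2 ⟨_, hω⟩).ne'
  obtain ⟨k, hk⟩ : ∃ k : Fin (r + 1) ↪o ℕ, k = D.orderEmbOfFin hr := ⟨_, rfl⟩
  have hkD : ∀ q, k q ∈ D := fun q => by rw [hk]; exact D.orderEmbOfFin_mem hr q
  have hkS : ∀ a ∈ D, ∃ q, k q = a := by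
    intro a ha
    have : a ∈ Set.range (D.orderEmbOfFin hr) := by
      rw [D.range_orderEmbOfFin hr]; exact ha
    rw [hk]; exact this
  have hk1 : ∀ q, k q < κ 1 + 1 ∧ ν {ω | κ (Rt 0 1 ω) = k q} ≠ 0 := fun q => by
    have := hkD q
    rwa [hD, Finset.mem_filter, Finset.mem_range] at this
  have hset : ∀ a : ℕ, {ω | Rt 0 1 ω < -1 + a * η} = {ω | κ (Rt 0 1 ω) < a} := fun a =>
    Set.ext fun ω => hlt _ a (pair_Rt.2.2.2.2 0 1 ω)
  refine ⟨r, fun p => -1 + k p.succ * η, fun p => ν.real {ω | Rt 0 1 ω < -1 + k p.succ * η},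
    fun q => if hq : q < r + 1 then -1 + k ⟨q, hq⟩ * η else 0,
    ⟨fun p p' hp => ?_, ⟨fun p p' hp => ?_, fun p => ⟨?_, ?_⟩⟩, fun _ => rfl⟩, fun q => ?_, ?_⟩
  · have h1 : (k p.succ : ℝ) < k p'.succ := by
      exact_mod_cast k.strictMono (Fin.succ_lt_succ_iff.2 hp)
    have := mul_lt_mul_of_pos_right h1 hη
    show -1 + (k p.succ : ℝ) * η < -1 + k p'.succ * η
    linarith
  · simp only [hset]
    exact disc_lt h hK (hk1 _).2 (k.strictMono (Fin.succ_lt_succ_iff.2 hp))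
  · simp only [hset]
    exact measureReal_nonneg.trans_lt (disc_lt h hK (hk1 0).2 (k.strictMono p.succ_pos))
  · simp only [hset]
    exact (disc_lt h hK (hk1 p.succ).2 (Nat.lt_succ_self _)).trans_le measureReal_le_one
  · beta_reduce
    split_ifs with hq
    · have h1 := (hle 1 (k ⟨q, hq⟩) (by simp)).2 (Nat.lt_succ_iff.1 (hk1 _).1)
      have h2 : 0 ≤ (k ⟨q, hq⟩ : ℝ) * η := by positivity
      rw [abs_le]
      constructor <;> linarith
    · simp
  · have h1 : ∀ᵐ ω ∂ν, ∀ i j, i ≠ j → κ (Rt i j ω) ∈ D := by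
      refine ae_all_iff.2 fun i => ae_all_iff.2 fun j => ?_
      by_cases hij : i = j
      · exact Eventually.of_forall fun ω h2 => absurd hij h2
      · obtain ⟨e, e0, e1, -⟩ := ultra_perm (k := i + j + 1) hij (by omega) (by omega)
        refine (ae_act h e hae).mono fun ω hω _ => ?_
        rwa [pair_Rt.2.2.1, e0, e1] at hω
    refine h1.mono fun ω hω i j hij => ?_
    obtain ⟨q, hq⟩ := hkS _ (hω i j hij)
    have hx := pair_Rt.2.2.2.2 i j ω
    have hl : level (fun p : Fin r => -1 + k p.succ * η) (Rt i j ω) = q := by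
      unfold level
      have : ∀ p : Fin r, (-1 + k p.succ * η ≤ Rt i j ω) ↔ (p : ℕ) < q := by
        intro p
        rw [hle _ _ hx, ← hq, k.le_iff_le, Fin.le_def, Fin.val_succ]
        exact Nat.succ_le_iff
      simp only [this]
      rw [Fin.card_filter_val_lt]
      exact min_eq_right (Nat.lt_succ_iff.1 q.2)
    rw [hl]
    simp only [q.2, dif_pos, Fin.eta]
    have h2 := (hle _ (k q) hx).2 hq.le
    have h3 := (hlt _ (k q + 1) hx).2 (by omega)
    push_cast at h3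
    rw [abs_le]
    constructor <;> linarith

theorem disc_split {Ω D : Type} [MeasurableSpace Ω] (ν : Measure Ω)
    {T : Ω → D} (A : Finset D) (hA : ∀ ω, T ω ∈ A) (hT : ∀ d, MeasurableSet {ω | T ω = d})
    {f : Ω → ℝ} (hf : Integrable f ν) :
    ∫ ω, f ω ∂ν = ∑ d ∈ A, ∫ ω in {ω | T ω = d}, f ω ∂ν := by
  rw [← integral_biUnion_finset A (fun d _ => hT d) ?_ (fun _ _ => hf.integrableOn)]
  · have : ⋃ d ∈ A, {ω | T ω = d} = Set.univ :=
      Set.eq_univ_of_forall fun ω => Set.mem_biUnion (hA ω) rfl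
    rw [this, Measure.restrict_univ]
  · intro d _ d' _ hdd
    exact Set.disjoint_left.2 fun ω (b1 : T ω = d) (b2 : T ω = d') => hdd (b1.symm.trans b2)

theorem disc_int {Ω D : Type} [MeasurableSpace Ω] (ν : Measure Ω) [IsFiniteMeasure ν]
    {T : Ω → D} (A : Finset D) (hA : ∀ ω, T ω ∈ A) (hT : ∀ d, MeasurableSet {ω | T ω = d})
    (H : D → ℝ) : Integrable (fun ω => H (T ω)) ν := by
  classical
  have : (fun ω => H (T ω)) = fun ω => ∑ d ∈ A, Set.indicator {ω | T ω = d} (fun _ => H d) ω := by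
    funext ω
    rw [Finset.sum_eq_single (T ω)]
    · rw [Set.indicator_of_mem (by rfl)]
    · intro d _ hd
      exact Set.indicator_of_notMem (fun h : T ω = d => hd h.symm) _
    · exact fun h => absurd (hA ω) h
  rw [this]
  exact integrable_finsetSum _ fun d _ => (integrable_const _).indicator (hT d)

theorem cond_contr {Ω D : Type} [MeasurableSpace Ω] (ν : Measure Ω) [IsProbabilityMeasure ν]
    {T : Ω → D} (A : Finset D) (hA : ∀ ω, T ω ∈ A) (hT : ∀ d, MeasurableSet {ω | T ω = d})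
    {f : Ω → ℝ} (hf : Integrable f ν) (G : D → ℝ) :
    ∫ ω, |f ω - (∫ ω' in {ω' | T ω' = T ω}, f ω' ∂ν) / ν.real {ω' | T ω' = T ω}| ∂ν ≤
      2 * ∫ ω, |f ω - G (T ω)| ∂ν := by
  obtain ⟨c, hc⟩ : ∃ c : D → ℝ, ∀ d,
      c d = (∫ ω' in {ω' | T ω' = d}, f ω' ∂ν) / ν.real {ω' | T ω' = d} := ⟨_, fun _ => rfl⟩
  simp only [← hc]
  have hG := disc_int ν A hA hT G
  have i1 : Integrable (fun ω => |f ω - G (T ω)|) ν := (hf.sub hG).abs
  have i2 : Integrable (fun ω => |G (T ω) - c (T ω)|) ν := disc_int ν A hA hT fun d => |G d - c d|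
  have h1 : ∫ ω, |G (T ω) - c (T ω)| ∂ν ≤ ∫ ω, |f ω - G (T ω)| ∂ν := by
    rw [disc_split ν A hA hT i1, disc_split ν A hA hT i2]
    refine Finset.sum_le_sum fun d _ => ?_
    rw [setIntegral_congr_fun (hT d) (g := fun _ => |G d - c d|)
      (fun ω (hω : T ω = d) => by simp only [hω]), setIntegral_const, smul_eq_mul]
    by_cases h0 : ν.real {ω | T ω = d} = 0
    · rw [h0, zero_mul]
      exact integral_nonneg fun _ => abs_nonneg _
    · have e1 : ∫ ω in {ω | T ω = d}, (f ω - G (T ω)) ∂ν =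
          ν.real {ω | T ω = d} * (c d - G d) := by
        rw [integral_sub hf.integrableOn hG.integrableOn,
          setIntegral_congr_fun (hT d) (f := fun ω => G (T ω)) (g := fun _ => G d)
            (fun ω (hω : T ω = d) => by simp only [hω]), setIntegral_const, smul_eq_mul, mul_sub, hc,
          mul_div_cancel₀ _ h0]
      have e2 := abs_integral_le_integral_abs (μ := ν.restrict {ω | T ω = d})
        (f := fun ω => f ω - G (T ω))
      rw [e1, abs_mul, abs_of_nonneg measureReal_nonneg, abs_sub_comm] at e2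
      exact e2
  have h2 : ∫ ω, |f ω - c (T ω)| ∂ν ≤ ∫ ω, (|f ω - G (T ω)| + |G (T ω) - c (T ω)|) ∂ν :=
    integral_mono (hf.sub (disc_int ν A hA hT c)).abs (i1.add i2) fun ω => abs_sub_le _ _ _
  rw [integral_add i1 i2] at h2
  linarith

theorem disc_approx (h : Str ν) (n s : ℕ) {c : ℕ →₀ ℕ} (hc : ∀ l ∈ c.support, l < n) {ε : ℝ}
    (hε : 0 < ε) : ∃ (φ : (Fin n → Fin n → ℝ) → ℝ) (δ : ℝ), 0 < δ ∧
      Integrable (fun ω => φ (Rm n ω)) ν ∧ ∫ ω, |co s c ω - φ (Rm n ω)| ∂ν ≤ ε ∧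
      ∀ x y : Fin n → Fin n → ℝ, ‖x‖ ≤ 2 → ‖y‖ ≤ 2 → dist x y ≤ δ → |φ x - φ y| ≤ ε := by
  have hν := h.1
  obtain ⟨g, hg, hco⟩ := determ h n s hc
  have hR := (measurable_Rm n).aemeasurable (μ := ν)
  have i1 : Integrable (co s c) ν :=
    Integrable.of_bound (measurable_co s c).aestronglyMeasurable 1
      (Eventually.of_forall fun ω => abs_co_le s c ω)
  have i2 : Integrable g (ν.map (Rm n)) :=
    (integrable_map_measure hg.aestronglyMeasurable hR).2 (i1.congr hco)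
  obtain ⟨φ, h1, h2⟩ := i2.exists_boundedContinuous_integral_sub_le hε
  have h3 := (isCompact_closedBall (0 : Fin n → Fin n → ℝ) 2).uniformContinuousOn_of_continuous
    φ.continuous.continuousOn
  obtain ⟨δ, hδ, h4⟩ := Metric.uniformContinuousOn_iff_le.1 h3 ε hε
  refine ⟨φ, δ, hδ, (integrable_map_measure h2.aestronglyMeasurable hR).1 h2, ?_,
    fun x y hx hy hxy => ?_⟩
  · have i3 : Integrable (fun x => ‖g x - φ x‖) (ν.map (Rm n)) := (i2.sub h2).norm
    rw [integral_map hR i3.aestronglyMeasurable] at h1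
    refine Eq.trans_le (integral_congr_ae (hco.mono fun ω hω => ?_)) h1
    simp only [hω, Real.norm_eq_abs]
  · exact h4 x (mem_closedBall_zero_iff.2 hx) y (mem_closedBall_zero_iff.2 hy) hxy

theorem disc_one (h : Str ν) (n : ℕ) (S : Finset (Fin n)) {ε : ℝ} (hε : 0 < ε) :
    ∀ᶠ η in 𝓝[>] (0 : ℝ), ∀ (r : ℕ) (t : Fin r → ℝ) (g : ℕ → ℝ), (∀ q, |g q| ≤ 2) →
      (∀ᵐ ω ∂ν, ∀ i j, i ≠ j → |Rt i j ω - g (level t (Rt i j ω))| ≤ η) →
      ∫ ω, |co 0 (ind S) ω - momP ν t n (tau t n ω) S| ∂ν ≤ ε := by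
  classical
  have hν := h.1
  have hS : ∀ l ∈ (ind S).support, l < n := by
    intro l hl
    obtain ⟨a, -, ha⟩ := Finset.mem_biUnion.1 (Finsupp.support_finsetSum hl)
    rw [Finset.mem_singleton.1 (Finsupp.support_single_subset ha)]
    exact a.2
  obtain ⟨φ, δ, hδ, i1, h1, h2⟩ := disc_approx h n 0 hS (ε := ε / 4) (by positivity)
  filter_upwards [Ioc_mem_nhdsGT hδ] with η hη r t g hg hae
  have i0 : Integrable (co 0 (ind S)) ν :=
    Integrable.of_bound (measurable_co _ _).aestronglyMeasurable 1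
      (Eventually.of_forall fun ω => abs_co_le _ _ ω)
  have hA : ∀ ω, tau t n ω ∈ Fintype.piFinset fun _ : Fin n =>
      Fintype.piFinset fun _ : Fin n => Finset.range (r + 1) := fun ω =>
    Fintype.mem_piFinset.2 fun i => Fintype.mem_piFinset.2 fun j =>
      Finset.mem_range.2 (Nat.lt_succ_of_le (tau_le t n ω i j))
  have hT : ∀ d, MeasurableSet {ω | tau t n ω = d} := fun d =>
    measurable_tau t n (measurableSet_singleton d)
  obtain ⟨G, hG⟩ : ∃ G : (Fin n → Fin n → ℕ) → ℝ, ∀ d,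
      G d = φ fun i j => if i = j then 0 else g (d i j) := ⟨_, fun _ => rfl⟩
  have h3 := cond_contr ν _ hA hT i0 G
  have h4 : ∫ ω, |co 0 (ind S) ω - G (tau t n ω)| ∂ν ≤
      ∫ ω, (|co 0 (ind S) ω - φ (Rm n ω)| + ε / 4) ∂ν := by
    refine integral_mono_ae (i0.sub (disc_int ν _ hA hT G)).abs
      ((i0.sub i1).abs.add (integrable_const _)) (hae.mono fun ω hω => ?_)
    refine (abs_sub_le _ (φ (Rm n ω)) _).trans (add_le_add le_rfl ?_)
    rw [hG]
    refine h2 _ _ ?_ ?_ ?_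
    · refine (pi_norm_le_iff_of_nonneg two_pos.le).2 fun i =>
        (pi_norm_le_iff_of_nonneg two_pos.le).2 fun j => ?_
      unfold Rm
      split_ifs
      · simp
      · exact (pair_Rt.2.2.2.2 i j ω).trans one_le_two
    · refine (pi_norm_le_iff_of_nonneg two_pos.le).2 fun i =>
        (pi_norm_le_iff_of_nonneg two_pos.le).2 fun j => ?_
      split_ifs
      · simp
      · exact hg _
    · refine (dist_pi_le_iff hδ.le).2 fun i => (dist_pi_le_iff hδ.le).2 fun j => ?_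
      unfold Rm tau
      split_ifs with hij
      · simpa using hδ.le
      · exact (hω i j fun e => hij (Fin.ext e)).trans hη.2
  have i2 : Integrable (fun ω => |co 0 (ind S) ω - φ (Rm n ω)|) ν := (i0.sub i1).abs
  rw [integral_add i2 (integrable_const _), integral_const] at h4
  simp only [probReal_univ, smul_eq_mul, one_mul] at h4
  refine h3.trans ?_
  linarith

theorem disc (h : Str ν) (n0 : ℕ) {ε : ℝ} (hε : 0 < ε) :
    ∃ (r : ℕ) (t m : Fin r → ℝ), Thr ν t m ∧ ∀ n < n0, ∀ S : Finset (Fin (n + 1)),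
      ∫ ω, |co 0 (ind S) ω - momP ν t (n + 1) (tau t (n + 1) ω) S| ∂ν ≤ ε := by
  have h1 := (Finset.eventually_all (Finset.range n0)).2 fun n _ =>
    Filter.eventually_all.2 fun S : Finset (Fin (n + 1)) => disc_one h (n + 1) S hε
  obtain ⟨η, h2, hη⟩ := (h1.and self_mem_nhdsWithin).exists
  obtain ⟨r, t, m, g, h3, h4, h5⟩ := exists_thr h hη
  exact ⟨r, t, m, h3, fun n hn S => h2 n (Finset.mem_range.2 hn) S r t g h4 h5⟩

end Vale.Agent.P168
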