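import Vale.Agent.P168.Core

/-! P168 Pois: Poisson averages of sequences of linear growth.
Plan. `pois a F = ∑' k, poi a k * F k` (rfl). Summability from `Real.summable_pow_div_factorial`
and `k * a^k / k! = a * a^(k-1) / (k-1)!`. `pois_thin`: Cauchy product
`poi a k * choose k j * p^j * (1-p)^(k-j) = poi (a p) j * poi (a (1-p)) (k-j)`, then
`tsum_mul_tsum_eq_tsum_sum_range_of_summable_norm` (or the antidiagonal version).
`Gval_tendsto`: `tendsto_integral_of_dominated_convergence` for each `k`, then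
`tendsto_tsum_of_dominated_convergence`. -/

open MeasureTheory ProbabilityTheory Function Filter Topology
open scoped BigOperators

noncomputable section

namespace Vale.Agent.P168

theorem poi_nonneg {a : ℝ} (ha : 0 ≤ a) (k : ℕ) : 0 ≤ poi a k := by
  unfold poi; positivity

theorem pois_eq (a : ℝ) (F : ℕ → ℝ) : pois a F = ∑' k, poi a k * F k := rfl

theorem pois_hasSum (a : ℝ) : HasSum (poi a) 1 := by
  have h := (NormedSpace.expSeries_div_hasSum_exp a).mul_left (Real.exp (-a))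
  rw [← Real.exp_eq_exp_ℝ, ← Real.exp_add, neg_add_cancel, Real.exp_zero] at h
  simp only [← mul_div_assoc] at h
  exact h

theorem pois_hasSum_id (a : ℝ) : HasSum (fun k => poi a k * k) a := by
  rw [← hasSum_nat_add_iff' 1]
  have h : (fun n => poi a (n + 1) * ((n + 1 : ℕ) : ℝ)) = fun n => a * poi a n := by
    funext n
    rw [poi, poi, Nat.factorial_succ]
    push_cast
    field_simp
    ring
  rw [h]
  simpa using (pois_hasSum a).mul_left a

theorem pois_hasSum_lin (a C : ℝ) : HasSum (fun k => poi a k * (C * (1 + k))) (C * (1 + a)) := by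
  have h := ((pois_hasSum a).add (pois_hasSum_id a)).mul_left C
  rwa [show (fun k : ℕ => C * (poi a k + poi a k * k)) = fun k => poi a k * (C * (1 + k)) from
    funext fun k => by ring] at h

theorem summable_poi {a : ℝ} (ha : 0 ≤ a) {F : ℕ → ℝ} (hF : Lin F) :
    Summable fun k => poi a k * F k := by
  obtain ⟨C, hC⟩ := hF
  refine Summable.of_norm_bounded (pois_hasSum_lin a C).summable fun k => ?_
  rw [Real.norm_eq_abs, abs_mul, abs_of_nonneg (poi_nonneg ha k)]
  exact mul_le_mul_of_nonneg_left (hC k) (poi_nonneg ha k)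

theorem lin_const (c : ℝ) : Lin fun _ => c := by
  exact ⟨|c|, fun k => le_mul_of_one_le_right (abs_nonneg c) (by simp)⟩

theorem lin_id : Lin fun k => (k : ℝ) := by
  exact ⟨1, fun k => by rw [Nat.abs_cast]; linarith⟩

theorem Lin.add {F G : ℕ → ℝ} (hF : Lin F) (hG : Lin G) : Lin fun k => F k + G k := by
  obtain ⟨C, hC⟩ := hF
  obtain ⟨D, hD⟩ := hG
  exact ⟨C + D, fun k => (abs_add_le _ _).trans (by linarith [hC k, hD k])⟩

theorem Lin.sub {F G : ℕ → ℝ} (hF : Lin F) (hG : Lin G) : Lin fun k => F k - G k := by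
  obtain ⟨C, hC⟩ := hF
  obtain ⟨D, hD⟩ := hG
  exact ⟨C + D, fun k => (abs_sub _ _).trans (by linarith [hC k, hD k])⟩

theorem Lin.const_mul {F : ℕ → ℝ} (hF : Lin F) (c : ℝ) : Lin fun k => c * F k := by
  obtain ⟨C, hC⟩ := hF
  exact ⟨|c| * C, fun k => by
    rw [abs_mul, mul_assoc]; exact mul_le_mul_of_nonneg_left (hC k) (abs_nonneg c)⟩

theorem pois_const (a c : ℝ) : pois a (fun _ => c) = c := by
  rw [pois_eq, ((pois_hasSum a).mul_right c).tsum_eq, one_mul]

theorem pois_id (a : ℝ) : pois a (fun k => (k : ℝ)) = a := by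
  exact (pois_hasSum_id a).tsum_eq

theorem pois_const_mul (a c : ℝ) (F : ℕ → ℝ) : pois a (fun k => c * F k) = c * pois a F := by
  rw [pois_eq, pois_eq, ← tsum_mul_left]
  exact tsum_congr fun k => by ring

theorem pois_add {a : ℝ} (ha : 0 ≤ a) {F G : ℕ → ℝ} (hF : Lin F) (hG : Lin G) :
    pois a (fun k => F k + G k) = pois a F + pois a G := by
  rw [pois_eq, pois_eq, pois_eq, ← (summable_poi ha hF).tsum_add (summable_poi ha hG)]
  exact tsum_congr fun k => by ring

theorem pois_sub {a : ℝ} (ha : 0 ≤ a) {F G : ℕ → ℝ} (hF : Lin F) (hG : Lin G) :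
    pois a (fun k => F k - G k) = pois a F - pois a G := by
  rw [pois_eq, pois_eq, pois_eq, ← (summable_poi ha hF).tsum_sub (summable_poi ha hG)]
  exact tsum_congr fun k => by ring

theorem pois_mono {a : ℝ} (ha : 0 ≤ a) {F G : ℕ → ℝ} (hF : Lin F) (hG : Lin G)
    (h : ∀ k, F k ≤ G k) : pois a F ≤ pois a G := by
  exact (summable_poi ha hF).tsum_le_tsum
    (fun k => mul_le_mul_of_nonneg_left (h k) (poi_nonneg ha k)) (summable_poi ha hG)

theorem pois_thin {a p : ℝ} (ha : 0 ≤ a) (hp0 : 0 ≤ p) (hp1 : p ≤ 1) {t : ℕ → ℝ} (ht : Lin t) :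
    pois a (fun k => ∑ j ∈ Finset.range (k + 1),
      (k.choose j : ℝ) * p ^ j * (1 - p) ^ (k - j) * t j) = pois (a * p) t := by
  have h := tsum_mul_tsum_eq_tsum_sum_range_of_summable_norm
    (summable_poi (mul_nonneg ha hp0) ht).norm (pois_hasSum (a * (1 - p))).summable.norm
  rw [(pois_hasSum _).tsum_eq, mul_one] at h
  rw [pois_eq, pois_eq, h]
  refine tsum_congr fun k => ?_
  rw [Finset.mul_sum]
  refine Finset.sum_congr rfl fun j hj => ?_
  obtain ⟨i, rfl⟩ := Nat.exists_eq_add_of_le (Nat.lt_succ_iff.1 (Finset.mem_range.1 hj))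
  have e : Real.exp (-a) = Real.exp (-(a * p)) * Real.exp (-(a * (1 - p))) := by
    rw [← Real.exp_add]; congr 1; ring
  rw [Nat.cast_add_choose, Nat.add_sub_cancel_left, poi, poi, poi, e, mul_pow, mul_pow, pow_add]
  have := (j + i).factorial_ne_zero
  field_simp

/-- binomial form of an average over i.i.d. Bernoulli activities -/
theorem sum_cw_bool (k : ℕ) (p : ℝ) (t : ℕ → ℝ) :
    ∑ b : Fin k → Bool, cw (fun a : Bool => if a then p else 1 - p) b *
        t (Finset.univ.filter fun i => b i = true).card =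
      ∑ j ∈ Finset.range (k + 1), (k.choose j : ℝ) * p ^ j * (1 - p) ^ (k - j) * t j := by
  have h := Finset.sum_powerset_apply_card (fun j => p ^ j * (1 - p) ^ (k - j) * t j)
    (x := (Finset.univ : Finset (Fin k)))
  simp only [Finset.card_univ, Fintype.card_fin, nsmul_eq_mul, ← mul_assoc] at h
  rw [← h]
  refine Finset.sum_nbij' (fun b => Finset.univ.filter fun i => b i = true)
    (fun S i => decide (i ∈ S)) (by simp) (by simp) (fun b _ => by simp) (fun S _ => by simp)
    fun b _ => ?_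
  have h1 := Finset.card_filter_add_card_filter_not (s := (Finset.univ : Finset (Fin k)))
    fun i => b i = true
  rw [Finset.card_univ, Fintype.card_fin] at h1
  rw [cw, Finset.prod_ite, Finset.prod_const, Finset.prod_const, Nat.eq_sub_of_add_eq' h1]

variable {K : ℕ}

theorem integrable_ev {κ : ∀ k, Measure (Yv K k)} {C : ℝ} (hκ : Mom κ C) {E : ∀ k, Yv K k → ℝ}
    (hE : Ev E) (k : ℕ) : Integrable (E k) (κ k) := by
  exact (hκ k).2.1.mono' (hE k).1.aestronglyMeasurable (ae_of_all _ (hE k).2)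

theorem abs_integral_ev_le {κ : ∀ k, Measure (Yv K k)} {C : ℝ} (hκ : Mom κ C)
    {E : ∀ k, Yv K k → ℝ} (hE : Ev E) (k : ℕ) : |∫ y, E k y ∂κ k| ≤ C * (1 + k) := by
  exact (norm_integral_le_of_norm_le (f := E k) (hκ k).2.1 (ae_of_all _ (hE k).2)).trans (hκ k).2.2

theorem lin_ev {κ : ∀ k, Measure (Yv K k)} {C : ℝ} (hκ : Mom κ C)
    {E : ∀ k, Yv K k → ℝ} (hE : Ev E) : Lin fun k => ∫ y, E k y ∂κ k := by
  exact ⟨C, abs_integral_ev_le hκ hE⟩

theorem abs_Gval_le {a : ℝ} (ha : 0 ≤ a) {κ : ∀ k, Measure (Yv K k)} {C : ℝ} (hκ : Mom κ C)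
    {E : ∀ k, Yv K k → ℝ} (hE : Ev E) : |Gval a κ E| ≤ C * (1 + a) := by
  refine tsum_of_norm_bounded (f := fun k => poi a k * ∫ y, E k y ∂κ k) (pois_hasSum_lin a C)
    fun k => ?_
  rw [Real.norm_eq_abs, abs_mul, abs_of_nonneg (poi_nonneg ha k)]
  exact mul_le_mul_of_nonneg_left (abs_integral_ev_le hκ hE k) (poi_nonneg ha k)

theorem Gval_tendsto {a : ℝ} (ha : 0 ≤ a) {κ : ∀ k, Measure (Yv K k)} {C : ℝ} (hκ : Mom κ C)
    {E : ℕ → ∀ k, Yv K k → ℝ} {E' : ∀ k, Yv K k → ℝ} (hE : ∀ n, Ev (E n))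
    (h : ∀ k y, Tendsto (fun n => E n k y) atTop (𝓝 (E' k y))) :
    Tendsto (fun n => Gval a κ (E n)) atTop (𝓝 (Gval a κ E')) := by
  refine tendsto_tsum_of_dominated_convergence (pois_hasSum_lin a C).summable
    (fun k => Tendsto.const_mul _ (tendsto_integral_of_dominated_convergence _
      (fun n => (hE n k).1.aestronglyMeasurable) (hκ k).2.1 (fun n => ae_of_all _ (hE n k).2)
      (ae_of_all _ (h k)))) (Eventually.of_forall fun n k => ?_)
  change ‖poi a k * _‖ ≤ _
  rw [Real.norm_eq_abs, abs_mul, abs_of_nonneg (poi_nonneg ha k)]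
  exact mul_le_mul_of_nonneg_left (abs_integral_ev_le hκ (hE n) k) (poi_nonneg ha k)

end Vale.Agent.P168
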