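import Vale.Agent.P168.Hybrid
import Vale.Agent.P168.Pois

/-! P168 End0: the endpoint with site terms only.
Plan. For `i = 0`: `∑ s, exp (∑ h spin) * ∏ a, siteFac .. (s (site a)) = ∏ i, U i w` with
`U i w = ∑ e, exp (h i * spin e) * ∏ a with site a = i, siteFac (c a).1 (c a).2.2 e (messages a)`,
`site a = (c a).2.1 (c a).2.2` (`Finset.prod_fiberwise`, `Finset.prod_univ_sum`). `fT_prod` with the
slot sets `{(a, j) | site a = i}`. Fix `i`. The map `e ↦ ((e.1, e.2.2), decide (site = i))` sends
`QE` to `(Q.prod unif).prod R` with `R {true} = 1/N` (`hyb_zero_site` may use `map_pi_map` and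
`integral_pi_prod_fin`). For a fixed activity pattern `d : Fin k → Bool` with active set `S`,
reindex by `Finset.orderEmbOfFin S rfl`: `fT_comp` for the slots, `measurePreserving_comp` for the
parameters, `cavU_eq`; the integral is `t (card S)`, `t j = ∫ y, Efin .. j y ∂kU j`.
Then `sum_cw_bool`, `pois_thin` with `p = 1/N`. -/

open MeasureTheory ProbabilityTheory Function Filter Topology
open scoped BigOperators

noncomputable section

namespace Vale.Agent.P168

def end0phi {K N : ℕ} (i : Fin N) (e : Evt K N) : (Par K × Fin K) × Bool :=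
  ((e.1, e.2.2), decide (e.2.1 e.2.2 = i))

def end0G {K k r : ℕ} {A : Type} [Fintype A] (μ : A → ℝ) (m : Fin r → ℝ)
    (x : (Fin (r + 1) → A) → ℝ) (p : (Fin k → (Par K × Fin K) × Bool) × ℝ) : ℝ :=
  fT (cw μ) m fun w : Fin (r + 1) → Fin k × Fin K → A => ∑ b : Bool, Real.exp (p.2 * spin b) *
    ∏ a, if (p.1 a).2 = true then siteFac (p.1 a).1.1 (p.1 a).1.2 b fun j => x fun q => w q (a, j)
      else 1

theorem end0_hyb {K N k r : ℕ} {A : Type} [Fintype A] {μ : A → ℝ} (hμ : IsPr μ) {m : Fin r → ℝ}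
    (hm : Adm m) {x : (Fin (r + 1) → A) → ℝ} (hx : ∀ w, |x w| ≤ 1) (c : Fin k → Evt K N)
    (h : Fin N → ℝ) : hyb μ m x 0 c h = ∑ i, end0G μ m x (fun a => end0phi i (c a), h i) := by
  unfold end0G
  refine Eq.trans ?_ (fT_prod hμ hm Finset.univ
    (fun i => {p : Fin k × Fin K | (c p.1).2.1 (c p.1).2.2 = i})
    (fun i _ i' _ h => Set.disjoint_left.2 fun j h1 h2 => h (h1.symm.trans h2))
    (fun i _ w => Finset.sum_pos (fun b _ => mul_pos (Real.exp_pos _) (Finset.prod_pos fun a _ => by
      split_ifs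
      · exact (siteFac_pos _ _ _ fun j => hx _).1
      · exact one_pos)) Finset.univ_nonempty)
    fun i _ w w' hw => Finset.sum_congr rfl fun b _ => congrArg _
      (Finset.prod_congr rfl fun a _ => by
        split_ifs with h1
        · simp only [fun q j => hw q (a, j) (of_decide_eq_true h1)]
        · rfl))
  unfold hyb
  congr 1
  funext w
  rw [Finset.prod_univ_sum, Fintype.piFinset_univ]
  refine Finset.sum_congr rfl fun s _ => ?_
  rw [Finset.prod_mul_distrib, Real.exp_sum, Finset.prod_comm]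
  simp [end0phi]

theorem end0_norm {K k : ℕ} (h : ℝ) (c : Fin k → Par K × Fin K) :
    ‖yU h c‖ ≤ Real.log 2 + ‖h‖ + ∑ a, ‖theta (c a).1‖ := by
  have l2 : 0 ≤ Real.log 2 := Real.log_nonneg one_le_two
  rw [pi_norm_le_iff_of_nonneg (by positivity)]
  intro e
  have h1 : IsPr fun _ : Bool => (1 / 2 : ℝ) := ⟨fun _ => by norm_num, by norm_num⟩
  have h2 := mext_avg_abs h1 (y := fun b => h * spin b +
    ∑ a, theta (c a).1 (update (fun j => e (a, j)) (c a).2 b))
    (δ := ‖h‖ + ∑ a, ‖theta (c a).1‖) fun b => (abs_add_le _ _).trans (add_le_add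
      (by rw [abs_mul, abs_spin, mul_one]; rfl) ((Finset.abs_sum_le_sum_abs _ _).trans
      (Finset.sum_le_sum fun a _ => norm_le_pi_norm (theta (c a).1) _)))
  rw [← Finset.sum_mul, mul_one_div, Real.log_div
    (Finset.sum_pos (fun _ _ => Real.exp_pos _) Finset.univ_nonempty).ne' two_ne_zero] at h2
  have h3 := abs_le.1 h2
  exact abs_le.2 ⟨by simp only [yU]; linarith [h3.1], by simp only [yU]; linarith [h3.2]⟩

theorem end0_eq {K k r : ℕ} {A : Type} [Fintype A] {μ : A → ℝ} (hμ : IsPr μ) (m : Fin r → ℝ)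
    (x : (Fin (r + 1) → A) → ℝ) (c : Fin k → Par K × Fin K) (d : Fin k → Bool) (h : ℝ) :
    end0G μ m x (fun a => (c a, d a), h) = Efin K μ m x _ (yU h fun i =>
      c ((Finset.univ.filter fun a => d a = true).orderEmbOfFin rfl i)) := by
  obtain ⟨S, hS⟩ : ∃ S, S = Finset.univ.filter fun a => d a = true := ⟨_, rfl⟩
  rw [← hS]
  have he := (S.orderEmbOfFin rfl).injective
  rw [Efin, ← fT_comp hμ m (Prod.map (S.orderEmbOfFin rfl) id) (he.prodMap injective_id)]
  unfold end0G
  congr 1
  funext w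
  rw [← cavU_eq]
  refine Finset.sum_congr rfl fun b _ => congrArg _ ?_
  rw [← Finset.prod_filter, ← hS]
  conv_lhs => rw [← S.image_orderEmbOfFin_univ rfl]
  rw [Finset.prod_image he.injOn]
  rfl

theorem end0_int {K r : ℕ} {A : Type} [Fintype A] (hK : 1 ≤ K) {Q : Measure (Par K)}
    {Ph : Measure ℝ} (hM : Model K Q Ph) {μ : A → ℝ} (hμ : IsPr μ) {m : Fin r → ℝ} (hm : Adm m)
    {x : (Fin (r + 1) → A) → ℝ} (hx : ∀ w, |x w| ≤ 1) (k : ℕ) (R : Measure Bool)
    [IsProbabilityMeasure R] :
    Integrable (end0G μ m x) ((Measure.pi fun _ : Fin k =>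
      (Q.prod (uniformOn (Set.univ : Set (Fin K)))).prod R).prod Ph) ∧
    ∫ p, end0G μ m x p ∂(Measure.pi fun _ : Fin k =>
      (Q.prod (uniformOn (Set.univ : Set (Fin K)))).prod R).prod Ph =
      ∑ j ∈ Finset.range (k + 1), (k.choose j : ℝ) * R.real {true} ^ j *
        (1 - R.real {true}) ^ (k - j) * ∫ y, Efin K μ m x j y ∂kU K Q Ph j := by
  have := hM.1
  have := hM.2.1
  have : Nonempty (Fin K) := ⟨⟨0, hK⟩⟩
  have hmeas : Measurable (end0G (K := K) (k := k) μ m x) := by
    refine measurable_fT _ _ fun w => Finset.measurable_sum _ fun b _ => Measurable.mul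
      (measurable_snd.mul_const _).exp (Finset.measurable_prod _ fun a _ => ?_)
    have h1 : Measurable fun z : Par K × Fin K =>
        siteFac z.1 z.2 b fun j => x fun q => w q (a, j) :=
      measurable_from_prod_countable_left fun l => measurable_siteFac l b _
    have h2 : Measurable fun z : (Par K × Fin K) × Bool => if z.2 = true then
        siteFac z.1.1 z.1.2 b fun j => x fun q => w q (a, j) else 1 :=
      measurable_from_prod_countable_left fun d => by
        cases d
        · simp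
        · simpa using h1
    have h3 : Measurable fun p : (Fin k → (Par K × Fin K) × Bool) × ℝ => p.1 a := by fun_prop
    exact h2.comp h3
  have b1 := ((integrable_norm_theta hM).comp_fst (uniformOn (Set.univ : Set (Fin K)))).comp_fst R
  have b2 := (integrable_sum_eval (ι := Fin k) _ b1).1
  have hi : Integrable (end0G μ m x) ((Measure.pi fun _ : Fin k =>
      (Q.prod (uniformOn (Set.univ : Set (Fin K)))).prod R).prod Ph) := by
    refine (((integrable_const (Real.log 2)).add (hM.2.2.2.2.norm.comp_snd _)).add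
      (b2.comp_fst Ph)).mono' hmeas.aestronglyMeasurable (ae_of_all _ fun p => ?_)
    have h1 := end0_eq hμ m x (fun a => (p.1 a).1) (fun a => (p.1 a).2) p.2
    refine (congrArg abs h1).trans_le (((ev_Efin K hμ hm hx _).2 _).trans
      ((end0_norm _ _).trans (add_le_add le_rfl ?_)))
    rw [← Finset.sum_image (f := fun a => ‖theta (p.1 a).1.1‖) (RelEmbedding.injective _).injOn]
    exact Finset.sum_le_univ_sum_of_nonneg fun _ => norm_nonneg _
  refine ⟨hi, ?_⟩
  rw [integral_prod _ hi, (integral_pi_prod_fin _ R hi.integral_prod_left).2, ← sum_cw_bool]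
  refine Finset.sum_congr rfl fun d _ => congrArg₂ _ (congrArg (cw · d) (funext fun b => ?_)) ?_
  · cases b
    · rw [if_neg (by simp), ← probReal_compl_eq_one_sub (measurableSet_singleton _)]
      congr 1
      ext b; cases b <;> simp
    · rfl
  · obtain ⟨C, hC⟩ := mom_kU hK hM
    have h1 := (integrable_map_measure (ev_Efin K hμ hm hx _).1.aestronglyMeasurable
      measurable_yU.aemeasurable).1 (integrable_ev hC (ev_Efin K hμ hm hx)
        (Finset.univ.filter fun a => d a = true).card)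
    simp only [end0_eq hμ]
    rw [kU, integral_map measurable_yU.aemeasurable (ev_Efin K hμ hm hx _).1.aestronglyMeasurable]
    exact (mext_mp (measurePreserving_comp _ _ (RelEmbedding.injective _))
      h1.integral_prod_right).2.trans (integral_prod_symm _ h1).symm

theorem end0_law {K N : ℕ} [Nonempty (Fin K)] {Q : Measure (Par K)} [IsProbabilityMeasure Q]
    (i : Fin N) : ∃ R : Measure Bool, IsProbabilityMeasure R ∧ R.real {true} = 1 / N ∧
      MeasurePreserving (end0phi i) (QE K N Q)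
        ((Q.prod (uniformOn (Set.univ : Set (Fin K)))).prod R) := by
  have : Nonempty (Fin N) := ⟨i⟩
  have h0 : Measurable fun n : Fin N => decide (n = i) := Measurable.of_discrete
  have h1 := Measure.isProbabilityMeasure_map (μ := uniformOn (Set.univ : Set (Fin N)))
    h0.aemeasurable
  refine ⟨_, h1, ?_, ?_⟩
  · rw [map_measureReal_apply h0 (measurableSet_singleton _),
      show (fun n : Fin N => decide (n = i)) ⁻¹' {true} = {i} by ext; simp, meas_unif,
      Fintype.card_fin]
  · have h2 : MeasurePreserving (fun p : (Fin K → Fin N) × Fin K => (p.2, decide (p.1 p.2 = i)))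
        ((uniformOn Set.univ).prod (uniformOn Set.univ)) ((uniformOn Set.univ).prod
          ((uniformOn (Set.univ : Set (Fin N))).map fun n => decide (n = i))) := by
      refine ⟨Measurable.of_discrete, Measure.ext_of_singleton fun ⟨l, b⟩ => ?_⟩
      rw [Measure.map_apply Measurable.of_discrete (measurableSet_singleton _),
        show (fun p : (Fin K → Fin N) × Fin K => (p.2, decide (p.1 p.2 = i))) ⁻¹' {(l, b)} =
          (eval l ⁻¹' ((fun n : Fin N => decide (n = i)) ⁻¹' {b})) ×ˢ {l} by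
          ext p; simp only [Set.mem_preimage, Set.mem_singleton_iff, Prod.mk.injEq, Set.mem_prod]
          exact ⟨fun h => ⟨h.1 ▸ h.2, h.1⟩, fun h => ⟨h.2, h.2 ▸ h.1⟩⟩,
        ← Set.singleton_prod_singleton, Measure.prod_prod, Measure.prod_prod, mul_comm,
        Measure.map_apply h0 (measurableSet_singleton _), ← Set.pi_univ (Set.univ : Set (Fin K)),
        uniformOn_pi, (measurePreserving_eval _ l).measure_preimage
          MeasurableSet.of_discrete.nullMeasurableSet]
    exact (measurePreserving_prodAssoc _ _ _).symm.comp ((MeasurePreserving.id Q).prod h2)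

theorem hybI_zero {K N r : ℕ} {A : Type} [Fintype A] (hK : 1 ≤ K) (hN : 1 ≤ N)
    {Q : Measure (Par K)} {Ph : Measure ℝ} (hM : Model K Q Ph)
    {μ : A → ℝ} (hμ : IsPr μ) {m : Fin r → ℝ} (hm : Adm m) {x : (Fin (r + 1) → A) → ℝ}
    (hx : ∀ w, |x w| ≤ 1) (k : ℕ) :
    hybI K N Q Ph μ m x k 0 = N * ∑ j ∈ Finset.range (k + 1),
      (k.choose j : ℝ) * (1 / N) ^ j * (1 - 1 / N) ^ (k - j) *
        ∫ y, Efin K μ m x j y ∂kU K Q Ph j := by
  have := hM.1
  have := hM.2.1
  have := isProb_QE (Q := Q) hK hN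
  have : Nonempty (Fin N) := ⟨⟨0, hN⟩⟩
  have : Nonempty (Fin K) := ⟨⟨0, hK⟩⟩
  have key : ∀ i : Fin N, Integrable (fun p : (Fin k → Evt K N) × (Fin N → ℝ) =>
      end0G μ m x (fun a => end0phi i (p.1 a), p.2 i))
      ((Measure.pi fun _ : Fin k => QE K N Q).prod (Measure.pi fun _ : Fin N => Ph)) ∧
      ∫ p : (Fin k → Evt K N) × (Fin N → ℝ), end0G μ m x (fun a => end0phi i (p.1 a), p.2 i)
        ∂(Measure.pi fun _ : Fin k => QE K N Q).prod (Measure.pi fun _ : Fin N => Ph) =
      ∑ j ∈ Finset.range (k + 1), (k.choose j : ℝ) * (1 / N) ^ j * (1 - 1 / N) ^ (k - j) *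
        ∫ y, Efin K μ m x j y ∂kU K Q Ph j := by
    intro i
    obtain ⟨R, hR, h1, h2⟩ := end0_law (Q := Q) i
    obtain ⟨h3, h4⟩ := end0_int hK hM hμ hm hx k R
    obtain ⟨h5, h6⟩ := mext_mp ((measurePreserving_pi _ _ fun _ : Fin k => h2).prod
      (measurePreserving_eval (fun _ : Fin N => Ph) i)) h3
    exact ⟨h5, h6.trans (h1 ▸ h4)⟩
  have h1 := integrable_finsetSum Finset.univ fun i _ => (key i).1
  have h2 := integral_prod _ h1
  rw [integral_finsetSum _ fun i _ => (key i).1] at h2
  simp only [(key _).2, Finset.sum_const, Finset.card_univ, Fintype.card_fin, nsmul_eq_mul] at h2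
  rw [h2]
  simp only [hybI, end0_hyb hμ hm hx]

theorem end_zero {K N r : ℕ} {A : Type} [Fintype A] (hK : 1 ≤ K) (hN : 1 ≤ N)
    {Q : Measure (Par K)} {Ph : Measure ℝ} (hM : Model K Q Ph) {lam : ℝ} (hlam : 0 ≤ lam)
    {μ : A → ℝ} (hμ : IsPr μ) {m : Fin r → ℝ} (hm : Adm m) {x : (Fin (r + 1) → A) → ℝ}
    (hx : ∀ w, |x w| ≤ 1) :
    pois (lam * K * N) (fun k => hybI K N Q Ph μ m x k 0) =
      N * Gval (K * lam) (kU K Q Ph) (Efin K μ m x) := by
  obtain ⟨C, hC⟩ := mom_kU hK hM
  have h0 : (1 : ℝ) ≤ N := by exact_mod_cast hN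
  simp only [hybI_zero hK hN hM hμ hm hx]
  rw [pois_const_mul, pois_thin (by positivity) (by positivity)
    ((div_le_one (by positivity)).2 h0) (lin_ev hC (ev_Efin K hμ hm hx)), Gval]
  congr 2
  field_simp

end Vale.Agent.P168
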