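import Vale.Agent.P168.FinT
import Vale.Agent.P168.Meas
import Vale.Agent.P168.Avg

/-! P168 Mext: multi-affine extension, the cavity families and their moments.
Plan. The weights `∏ j, (1 + x j * spin (e j)) / 2` sum to one for every `x`
(`Finset.prod_univ_sum`) and are nonnegative when `|x j| ≤ 1`. `cavU_eq`: `exp (log ..)`, swap the
sums over `e` and `b`, curry `e` (`Equiv.curry`), `Finset.prod_univ_sum`
(product over `a` of sums over `Fin K → Bool`), and for one clause group `s'` by
`s = update s' l b` (the factor at position `l` sums to one). `mext_lip_x`: the weights are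
products of numbers whose absolute values sum to one; telescoping over `j` (or induction on a
finset with `Finset.piecewise`). Norm bounds: `‖yU h c‖ ≤ log 2 + |h| + ∑ a, ‖theta (c a).1‖`,
`‖yV c‖ ≤ ∑ a, ‖theta (c a)‖` (`pi_norm_le_iff_of_nonneg`, `norm_le_pi_norm`); measurability of
`yU`: use `measurable_from_prod_countable_left`-type lemmas or write the dependence on the finite
coordinate as a finite sum of indicators. `Ev`: continuity from the Lipschitz bounds (`fT_lip`). -/

open MeasureTheory ProbabilityTheory Function Filter Topology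
open scoped BigOperators

noncomputable section

namespace Vale.Agent.P168

theorem mext_avg_pos {α : Type} [Fintype α] {w : α → ℝ} (hw : IsPr w) (y : α → ℝ) :
    0 < ∑ a, Real.exp (y a) * w a := by
  simpa only [mul_comm] using finT_sum_pos hw fun a => Real.exp_pos (y a)

theorem mext_avg_lip {α : Type} [Fintype α] {w : α → ℝ} (hw : IsPr w) {y y' : α → ℝ} {δ : ℝ}
    (h : ∀ a, |y a - y' a| ≤ δ) :
    |Real.log (∑ a, Real.exp (y a) * w a) - Real.log (∑ a, Real.exp (y' a) * w a)| ≤ δ := by
  have key : ∀ y y' : α → ℝ, (∀ a, y a ≤ δ + y' a) →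
      Real.log (∑ a, Real.exp (y a) * w a) ≤ δ + Real.log (∑ a, Real.exp (y' a) * w a) := by
    intro y y' h
    rw [Real.log_le_iff_le_exp (mext_avg_pos hw y), Real.exp_add, Real.exp_log (mext_avg_pos hw y'),
      Finset.mul_sum]
    refine Finset.sum_le_sum fun a _ => ?_
    rw [← mul_assoc, ← Real.exp_add]
    exact mul_le_mul_of_nonneg_right (Real.exp_le_exp.2 (h a)) (hw.1 a)
  have h1 := key y y' fun a => by linarith [(abs_le.1 (h a)).2]
  have h2 := key y' y fun a => by linarith [(abs_le.1 (h a)).1]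
  exact abs_le.2 ⟨by linarith, by linarith⟩

theorem mext_avg_abs {α : Type} [Fintype α] {w : α → ℝ} (hw : IsPr w) {y : α → ℝ} {δ : ℝ}
    (h : ∀ a, |y a| ≤ δ) : |Real.log (∑ a, Real.exp (y a) * w a)| ≤ δ := by
  simpa [hw.2] using mext_avg_lip hw (y := y) (y' := fun _ => 0) (δ := δ) (by simpa using h)

theorem mext_prod_update {J : Type} [Fintype J] [DecidableEq J] (z : J → ℝ) (l : J) (t : ℝ)
    (e : J → Bool) : ∏ j, (1 + update z l t j * spin (e j)) / 2 =
      (1 + t * spin (e l)) / 2 * ∏ j ∈ Finset.univ.erase l, (1 + z j * spin (e j)) / 2 := by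
  rw [← Finset.mul_prod_erase _ _ (Finset.mem_univ l), update_self]
  exact congrArg _ (Finset.prod_congr rfl fun j hj => by
    rw [update_of_ne (Finset.ne_of_mem_erase hj)])

theorem mext_fiber {J : Type} [Fintype J] [DecidableEq J] (G : (J → Bool) → ℝ) (l : J) (b : Bool) :
    ∑ s, G s = ∑ s ∈ Finset.univ.filter (fun s : J → Bool => s l = b), ∑ u, G (update s l u) := by
  rw [← Finset.sum_product']
  refine Finset.sum_nbij' (fun s => (update s l b, s l)) (fun p => update p.1 l p.2) (by simp)
    (by simp) (by simp) (fun p hp => ?_) (by simp)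
  have : p.1 l = b := by simpa using hp
  simp [← this]

theorem mext_curry {ι κ : Type} [Fintype ι] [DecidableEq ι] [Fintype κ] [DecidableEq κ]
    (Φ : ι → (κ → Bool) → ℝ) :
    ∏ a, ∑ s, Φ a s = ∑ e : ι × κ → Bool, ∏ a, Φ a fun j => e (a, j) := by
  rw [Finset.prod_univ_sum, Fintype.piFinset_univ]
  exact (Fintype.sum_equiv (Equiv.curry _ _ _) _ _ fun _ => rfl).symm

theorem mext_mp {α β : Type} [MeasurableSpace α] [MeasurableSpace β] {μ : Measure α}
    {ν : Measure β} {f : α → β} (h : MeasurePreserving f μ ν) {g : β → ℝ} (hg : Integrable g ν) :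
    Integrable (fun x => g (f x)) μ ∧ ∫ x, g (f x) ∂μ = ∫ y, g y ∂ν :=
  ⟨h.integrable_comp_of_integrable hg, by
    rw [← integral_map h.measurable.aemeasurable
      (by rw [h.map_eq]; exact hg.aestronglyMeasurable), h.map_eq]⟩

theorem mext_mom {α : Type} [MeasurableSpace α] {μ : Measure α} [IsProbabilityMeasure μ] {K k : ℕ}
    {f : α → Yv K k} (hf : Measurable f) {g : α → ℝ} (hg : Integrable g μ)
    (h : ∀ a, ‖f a‖ ≤ g a) : IsProbabilityMeasure (μ.map f) ∧
      Integrable (fun y => ‖y‖) (μ.map f) ∧ ∫ y, ‖y‖ ∂μ.map f ≤ ∫ a, g a ∂μ := by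
  have h1 : Integrable (fun a => ‖f a‖) μ :=
    hg.mono' hf.norm.aestronglyMeasurable (ae_of_all _ fun a => by rw [norm_norm]; exact h a)
  refine ⟨Measure.isProbabilityMeasure_map hf.aemeasurable,
    (integrable_map_measure continuous_norm.aestronglyMeasurable hf.aemeasurable).2 h1, ?_⟩
  rw [integral_map hf.aemeasurable continuous_norm.aestronglyMeasurable]
  exact integral_mono h1 hg h

theorem measurable_theta {K : ℕ} : Measurable fun q : Par K => theta q := by
  refine measurable_pi_lambda _ fun s => ?_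
  unfold theta
  fun_prop

theorem integrable_norm_theta {K : ℕ} {Q : Measure (Par K)} {Ph : Measure ℝ}
    (hM : Model K Q Ph) : Integrable (fun q => ‖theta q‖) Q := by
  refine (integrable_finsetSum Finset.univ fun s _ => (hM.2.2.2.1 s).norm).mono'
    measurable_theta.norm.aestronglyMeasurable (ae_of_all _ fun q => ?_)
  rw [norm_norm, pi_norm_le_iff_of_nonneg (Finset.sum_nonneg fun _ _ => norm_nonneg _)]
  exact fun s => Finset.single_le_sum (f := fun s => ‖theta q s‖) (fun _ _ => norm_nonneg _)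
    (Finset.mem_univ s)

section
variable {J : Type} [Fintype J] [DecidableEq J]

theorem sum_half_prod (x : J → ℝ) : ∑ e : J → Bool, ∏ j, (1 + x j * spin (e j)) / 2 = 1 := by
  have := Finset.prod_univ_sum (fun _ : J => (Finset.univ : Finset Bool))
    fun j b => (1 + x j * spin b) / 2
  rw [Fintype.piFinset_univ] at this
  rw [← this]
  refine Finset.prod_eq_one fun j _ => ?_
  simp [spin]
  ring

theorem isPr_half_prod {x : J → ℝ} (hx : ∀ j, |x j| ≤ 1) :
    IsPr fun e : J → Bool => ∏ j, (1 + x j * spin (e j)) / 2 := by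
  refine ⟨fun e => Finset.prod_nonneg fun j _ => ?_, sum_half_prod x⟩
  have : |x j * spin (e j)| ≤ 1 := by rw [abs_mul, abs_spin, mul_one]; exact hx j
  linarith [(abs_le.1 this).1]

theorem mext_bounds (y : (J → Bool) → ℝ) {x : J → ℝ} (hx : ∀ j, |x j| ≤ 1) :
    Real.exp (-‖y‖) ≤ mext y x ∧ mext y x ≤ Real.exp ‖y‖ := by
  have h1 := mext_avg_pos (isPr_half_prod hx) y
  have h2 := abs_le.1 (mext_avg_abs (isPr_half_prod hx) (norm_le_pi_norm y))
  exact ⟨(Real.le_log_iff_exp_le h1).1 h2.1, (Real.log_le_iff_le_exp h1).1 h2.2⟩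

theorem mext_pos (y : (J → Bool) → ℝ) {x : J → ℝ} (hx : ∀ j, |x j| ≤ 1) : 0 < mext y x := by
  exact mext_avg_pos (isPr_half_prod hx) y

theorem abs_log_mext_le (y : (J → Bool) → ℝ) {x : J → ℝ} (hx : ∀ j, |x j| ≤ 1) :
    |Real.log (mext y x)| ≤ ‖y‖ := by
  exact mext_avg_abs (isPr_half_prod hx) (norm_le_pi_norm y)

theorem log_mext_lip (y y' : (J → Bool) → ℝ) {x : J → ℝ} (hx : ∀ j, |x j| ≤ 1) :
    |Real.log (mext y x) - Real.log (mext y' x)| ≤ ‖y - y'‖ := by
  exact mext_avg_lip (isPr_half_prod hx) (norm_le_pi_norm (y - y'))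

theorem mext_lip_x (y : (J → Bool) → ℝ) {x x' : J → ℝ} (hx : ∀ j, |x j| ≤ 1)
    (hx' : ∀ j, |x' j| ≤ 1) : |mext y x - mext y x'| ≤ Real.exp ‖y‖ * ∑ j, |x j - x' j| := by
  have hu : ∀ (z : J → ℝ) (l : J) (t : ℝ), (∀ j, |z j| ≤ 1) → |t| ≤ 1 →
      ∀ j, |update z l t j| ≤ 1 := fun z l t hz ht j => by
    by_cases h : j = l
    · rwa [h, update_self]
    · rw [update_of_ne h]; exact hz j
  have aff : ∀ (z : J → ℝ) (l : J) (t : ℝ), mext y (update z l t) =
      (1 + t) / 2 * mext y (update z l 1) + (1 - t) / 2 * mext y (update z l (-1)) := by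
    intro z l t
    simp only [mext, mext_prod_update, Finset.mul_sum, ← Finset.sum_add_distrib]
    exact Finset.sum_congr rfl fun e _ => by ring
  have key : ∀ S : Finset J, |mext y x - mext y (S.piecewise x' x)| ≤
      Real.exp ‖y‖ * ∑ j ∈ S, |x j - x' j| := by
    intro S
    induction S using Finset.induction_on with
    | empty => simp
    | insert l S hl ih =>
      have hz : ∀ j, |S.piecewise x' x j| ≤ 1 := fun j => by
        by_cases h : j ∈ S <;> simp [Finset.piecewise, h, hx j, hx' j]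
      have h1 := aff (S.piecewise x' x) l (x l)
      rw [← Finset.piecewise_eq_of_notMem _ x' x hl, update_eq_self,
        Finset.piecewise_eq_of_notMem _ x' x hl] at h1
      have h2 := mext_bounds y (hu _ l 1 hz (by simp))
      have h3 := mext_bounds y (hu _ l (-1) hz (by simp))
      have h4 := Real.exp_pos (-‖y‖)
      rw [Finset.piecewise_insert, Finset.sum_insert hl, mul_add, add_comm]
      refine (abs_sub_le _ _ _).trans (add_le_add ih ?_)
      rw [aff _ l (x' l), h1, show ∀ a b c d : ℝ, (1 + a) / 2 * c + (1 - a) / 2 * d -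
        ((1 + b) / 2 * c + (1 - b) / 2 * d) = ((c - d) / 2) * (a - b) from fun a b c d => by ring,
        abs_mul]
      exact mul_le_mul_of_nonneg_right (abs_le.2 ⟨by linarith [h2.1, h3.2], by
        linarith [h2.2, h3.1]⟩) (abs_nonneg _)
  simpa using key Finset.univ

theorem continuous_mext (y : (J → Bool) → ℝ) : Continuous (mext y) := by
  unfold mext
  fun_prop

theorem mext_eq_zOf (y : (J → Bool) → ℝ) (x : J → ℝ) :
    mext y x = Real.exp ‖y‖ *
      (1 - ∑ e : J → Bool, (∏ j, (1 + x j * spin (e j)) / 2) * zOf y e) := by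
  simp only [zOf, mul_sub, mul_one, Finset.sum_sub_distrib, sum_half_prod, sub_sub_cancel,
    Finset.mul_sum, mext]
  refine Finset.sum_congr rfl fun e _ => ?_
  rw [mul_left_comm, ← Real.exp_add, add_sub_cancel, mul_comm]

theorem zOf_mem (y : (J → Bool) → ℝ) (e : J → Bool) :
    0 ≤ zOf y e ∧ zOf y e ≤ 1 - Real.exp (-(2 * ‖y‖)) := by
  have := abs_le.1 (norm_le_pi_norm y e)
  exact ⟨sub_nonneg.2 (Real.exp_le_one_iff.2 (by linarith [this.2])),
    sub_le_sub_left (Real.exp_le_exp.2 (by linarith [this.1])) _⟩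

end

theorem siteFac_pos {K : ℕ} (q : Par K) (l : Fin K) (e : Bool) {x : Fin K → ℝ}
    (hx : ∀ j, |x j| ≤ 1) :
    0 < siteFac q l e x ∧ |Real.log (siteFac q l e x)| ≤ ‖theta q‖ := by
  have h1 : siteFac q l e x = mext (theta q) (update x l (spin e)) := by
    simp only [siteFac, mext, mext_prod_update, Finset.sum_filter]
    refine Finset.sum_congr rfl fun s _ => ?_
    cases e <;> cases s l <;> simp [spin]
  have h2 : ∀ j, |update x l (spin e) j| ≤ 1 := fun j => by
    by_cases h : j = l
    · rw [h, update_self, abs_spin]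
    · rw [update_of_ne h]; exact hx j
  rw [h1]
  exact ⟨mext_pos _ h2, abs_log_mext_le _ h2⟩

theorem fullFac_pos {K : ℕ} (q : Par K) {x : Fin K → ℝ} (hx : ∀ j, |x j| ≤ 1) :
    0 < fullFac q x ∧ |Real.log (fullFac q x)| ≤ ‖theta q‖ := by
  exact ⟨mext_pos (theta q) hx, abs_log_mext_le (theta q) hx⟩

theorem measurable_siteFac {K : ℕ} (l : Fin K) (e : Bool) (x : Fin K → ℝ) :
    Measurable fun q : Par K => siteFac q l e x := by
  exact Finset.measurable_sum _ fun s _ =>
    ((measurable_pi_apply s).comp measurable_theta).exp.mul_const _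

theorem measurable_fullFac {K : ℕ} (x : Fin K → ℝ) : Measurable fun q : Par K => fullFac q x := by
  exact Finset.measurable_sum _ fun s _ =>
    ((measurable_pi_apply s).comp measurable_theta).exp.mul_const _

theorem cavU_eq {K k : ℕ} (h : ℝ) (c : Fin k → Par K × Fin K) (x : Fin k × Fin K → ℝ) :
    cavU h c x = mext (yU h c) x := by
  have h1 : ∀ (q : Par K) (l : Fin K) (b : Bool) (z : Fin K → ℝ), siteFac q l b z =
      ∑ s : Fin K → Bool, Real.exp (theta q (update s l b)) * ∏ j, (1 + z j * spin (s j)) / 2 := by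
    intro q l b z
    rw [mext_fiber _ l b, siteFac]
    refine Finset.sum_congr rfl fun s hs => ?_
    have h2 : ∀ u, ∏ j, (1 + z j * spin (update s l u j)) / 2 = (1 + z l * spin u) / 2 *
        ∏ j ∈ Finset.univ.erase l, (1 + z j * spin (s j)) / 2 := fun u => by
      rw [← Finset.mul_prod_erase _ _ (Finset.mem_univ l), update_self]
      exact congrArg _ (Finset.prod_congr rfl fun j hj => by
        rw [update_of_ne (Finset.ne_of_mem_erase hj)])
    simp only [update_idem, h2]
    rw [← (Finset.mem_filter.1 hs).2, update_eq_self]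
    simp [spin]
    ring
  have h3 : ∀ e, Real.exp (yU h c e) = ∑ b : Bool, Real.exp (h * spin b) *
      ∏ a, Real.exp (theta (c a).1 (update (fun j => e (a, j)) (c a).2 b)) := fun e => by
    rw [yU, Real.exp_log (Finset.sum_pos (fun _ _ => Real.exp_pos _) Finset.univ_nonempty)]
    simp only [Real.exp_add, Real.exp_sum]
  simp only [cavU, mext, h1, h3, Finset.sum_mul, mext_curry, Finset.mul_sum]
  rw [Finset.sum_comm]
  refine Finset.sum_congr rfl fun b _ => Finset.sum_congr rfl fun e _ => ?_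
  rw [Finset.prod_mul_distrib, Fintype.prod_prod_type, mul_assoc]

theorem cavV_eq {K k : ℕ} (c : Fin k → Par K) (x : Fin k × Fin K → ℝ) :
    cavV c x = mext (yV c) x := by
  simp only [cavV, fullFac, mext, yV, mext_curry, Real.exp_sum]
  refine Finset.sum_congr rfl fun e _ => ?_
  rw [Finset.prod_mul_distrib, Fintype.prod_prod_type]

theorem measurable_yU {K k : ℕ} :
    Measurable fun p : ℝ × (Fin k → Par K × Fin K) => yU p.1 p.2 := by
  refine measurable_pi_lambda _ fun e => ?_
  unfold yU
  refine Measurable.log (Finset.measurable_sum _ fun b _ => Measurable.exp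
    (Measurable.add (measurable_fst.mul_const _) (Finset.measurable_sum _ fun a _ => ?_)))
  have h1 : ∀ s, Measurable fun q : Par K => theta q s := fun s =>
    (measurable_pi_apply s).comp measurable_theta
  have h2 : Measurable fun p : Par K × Fin K => theta p.1 (update (fun j => e (a, j)) p.2 b) :=
    measurable_from_prod_countable_left fun l => h1 (update (fun j => e (a, j)) l b)
  have h3 : Measurable fun p : ℝ × (Fin k → Par K × Fin K) => p.2 a := by fun_prop
  exact h2.comp h3

theorem measurable_yV {K k : ℕ} : Measurable fun c : Fin k → Par K => yV c := by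
  exact measurable_pi_lambda _ fun e => Finset.measurable_sum _ fun a _ =>
    ((measurable_pi_apply _).comp measurable_theta).comp (measurable_pi_apply a)

theorem mom_kU {K : ℕ} (hK : 1 ≤ K) {Q : Measure (Par K)} {Ph : Measure ℝ} (hM : Model K Q Ph) :
    ∃ C, Mom (kU K Q Ph) C := by
  have := hM.1
  have := hM.2.1
  have : Nonempty (Fin K) := ⟨⟨0, hK⟩⟩
  have l2 : 0 ≤ Real.log 2 := Real.log_nonneg one_le_two
  have a1 : 0 ≤ ∫ h, ‖h‖ ∂Ph := integral_nonneg fun _ => norm_nonneg _
  have a2 : 0 ≤ ∫ q, ‖theta q‖ ∂Q := integral_nonneg fun _ => norm_nonneg _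
  refine ⟨Real.log 2 + ∫ h, ‖h‖ ∂Ph + ∫ q, ‖theta q‖ ∂Q, fun k => ?_⟩
  obtain ⟨b1, b2⟩ := mext_mp (measurePreserving_fst (μ := Q)
    (ν := uniformOn (Set.univ : Set (Fin K)))) (integrable_norm_theta hM)
  obtain ⟨b3, b4⟩ := integrable_sum_eval (ι := Fin k) _ b1
  obtain ⟨b5, b6⟩ := mext_mp (measurePreserving_snd (μ := Ph)) b3
  obtain ⟨b7, b8⟩ := mext_mp (measurePreserving_fst (μ := Ph)
    (ν := Measure.pi fun _ : Fin k => Q.prod (uniformOn (Set.univ : Set (Fin K))))) hM.2.2.2.2.norm
  obtain ⟨c1, c2, c3⟩ := mext_mom measurable_yU (((integrable_const (Real.log 2)).add b7).add b5)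
    fun p => by
      rw [pi_norm_le_iff_of_nonneg (by simp only [Pi.add_apply]; positivity)]
      intro e
      have h1 : IsPr fun _ : Bool => (1 / 2 : ℝ) := ⟨fun _ => by norm_num, by norm_num⟩
      have h2 := mext_avg_abs h1 (y := fun b => p.1 * spin b +
        ∑ a, theta (p.2 a).1 (update (fun j => e (a, j)) (p.2 a).2 b))
        (δ := ‖p.1‖ + ∑ a, ‖theta (p.2 a).1‖) fun b => (abs_add_le _ _).trans (add_le_add
          (by rw [abs_mul, abs_spin, mul_one]; rfl) ((Finset.abs_sum_le_sum_abs _ _).trans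
          (Finset.sum_le_sum fun a _ => norm_le_pi_norm (theta (p.2 a).1) _)))
      rw [← Finset.sum_mul, mul_one_div, Real.log_div
        (Finset.sum_pos (fun _ _ => Real.exp_pos _) Finset.univ_nonempty).ne' two_ne_zero] at h2
      have h3 := abs_le.1 h2
      exact abs_le.2 ⟨by simp only [Pi.add_apply, yU]; linarith [h3.1],
        by simp only [Pi.add_apply, yU]; linarith [h3.2]⟩
  refine ⟨c1, c2, c3.trans ?_⟩
  rw [integral_add' ((integrable_const (Real.log 2)).add b7) b5,
    integral_add' (integrable_const (Real.log 2)) b7, b6, b4, b2, b8]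
  simp only [integral_const, probReal_univ, one_smul, Fintype.card_fin]
  have : (0 : ℝ) ≤ k := k.cast_nonneg
  nlinarith [mul_nonneg this l2, mul_nonneg this a1]

theorem mom_kV {K : ℕ} {Q : Measure (Par K)} {Ph : Measure ℝ} (hM : Model K Q Ph) :
    ∃ C, Mom (kV K Q) C := by
  have := hM.1
  have a2 : 0 ≤ ∫ q, ‖theta q‖ ∂Q := integral_nonneg fun _ => norm_nonneg _
  refine ⟨∫ q, ‖theta q‖ ∂Q, fun k => ?_⟩
  obtain ⟨b3, b4⟩ := integrable_sum_eval (ι := Fin k) _ (integrable_norm_theta hM)
  obtain ⟨c1, c2, c3⟩ := mext_mom measurable_yV b3 fun c => by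
    rw [pi_norm_le_iff_of_nonneg (by positivity)]
    exact fun e => (Finset.abs_sum_le_sum_abs _ _).trans
      (Finset.sum_le_sum fun a _ => norm_le_pi_norm (theta (c a)) _)
  refine ⟨c1, c2, c3.trans ?_⟩
  rw [b4, Fintype.card_fin]
  linarith

theorem ev_Efin (K : ℕ) {r : ℕ} {A : Type} [Fintype A] {μ : A → ℝ} (hμ : IsPr μ) {m : Fin r → ℝ}
    (hm : Adm m) {x : (Fin (r + 1) → A) → ℝ} (hx : ∀ w, |x w| ≤ 1) : Ev (Efin K μ m x) := by
  refine fun k => ⟨(LipschitzWith.mk_one fun y y' => ?_).continuous, fun y =>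
    abs_fT_le (isPr_cw hμ) hm (fun w => mext_pos y fun j => hx _)
      fun w => abs_log_mext_le y fun j => hx _⟩
  rw [dist_eq_norm y]
  exact fT_lip (isPr_cw hμ) hm (fun w => mext_pos y fun j => hx _)
    (fun w => mext_pos y' fun j => hx _) fun w => log_mext_lip y y' fun j => hx _

theorem ev_EG (K : ℕ) {N : ℕ} {g : (Fin N → Bool) → ℝ} (hg : IsPr g) : Ev (EG K g) := by
  refine fun k => ⟨(LipschitzWith.mk_one fun y y' => ?_).continuous, fun y =>
    abs_expect_le _ (norm_nonneg y) fun idx _ => ?_⟩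
  · rw [dist_eq_norm y]
    refine abs_expect_sub_le _ (norm_nonneg _) fun idx _ => ?_
    simp only [mul_comm (g _)]
    exact mext_avg_lip hg fun s => norm_le_pi_norm (y - y') _
  · simp only [mul_comm (g _)]
    exact mext_avg_abs hg fun s => norm_le_pi_norm y _

end Vale.Agent.P168
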