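import Vale.Agent.P168.Cp
import Vale.Agent.P168.Mext

/-! P168 Ham: laws of the Hamiltonians.
Plan. Measurability into `En N` coordinatewise (`measurable_pi_lambda`); the sup norm of
`fun s => theta q (s ∘ idx)` is at most `‖theta q‖`. `pressure_eq`: `hamLaw` is a convolution;
use commutativity (`Measure.conv_comm`) and `integral_conv_lip` so that the outer integral is over
the compound Poisson part, `integral_cp` with the 1-Lipschitz function
`y ↦ ∫ F, logZ 1 (y + F) ∂fieldLaw`, and `integral_map` for `fieldLaw`. -/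

open MeasureTheory ProbabilityTheory Function Filter Topology
open scoped BigOperators

noncomputable section

namespace Vale.Agent.P168

variable {K : ℕ} {Q : Measure (Par K)} {Ph : Measure ℝ}

theorem ham_theta (s : Fin K → Bool) : Measurable fun q : Par K => theta q s :=
  (measurable_pi_apply s).comp measurable_theta

theorem ham_field (N : ℕ) :
    Measurable fun h : Fin N → ℝ => (fun s => ∑ i, h i * spin (s i) : En N) := by
  fun_prop

theorem ham_mom {α C : Type} [Fintype C] [MeasurableSpace α] {μ : Measure α}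
    [IsProbabilityMeasure μ] {f : α → C → ℝ} (hf : Measurable f) {g : α → ℝ} (hg : Integrable g μ)
    (h : ∀ a, ‖f a‖ ≤ g a) : IsProbabilityMeasure (μ.map f) ∧
      Integrable (fun y => ‖y‖) (μ.map f) ∧ ∫ y, ‖y‖ ∂μ.map f ≤ ∫ a, g a ∂μ := by
  have h1 : Integrable (fun a => ‖f a‖) μ :=
    hg.mono' hf.norm.aestronglyMeasurable (ae_of_all _ fun a => by rw [norm_norm]; exact h a)
  refine ⟨Measure.isProbabilityMeasure_map hf.aemeasurable,
    (integrable_map_measure continuous_norm.aestronglyMeasurable hf.aemeasurable).2 h1, ?_⟩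
  rw [integral_map hf.aemeasurable continuous_norm.aestronglyMeasurable]
  exact integral_mono h1 hg h

theorem measurable_clause (N : ℕ) : Measurable fun e : Par K × (Fin K → Fin N) =>
    (fun s => theta e.1 fun j => s (e.2 j) : En N) := by
  exact measurable_pi_lambda _ fun s => measurable_from_prod_countable_left fun idx =>
    ham_theta fun j => s (idx j)

theorem measurable_cav (N : ℕ) : Measurable fun e : Evt K N =>
    (fun s => theta e.1 fun j => s (mrg e.2.2 e.2.1 j) : En (N + 1)) := by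
  exact measurable_pi_lambda _ fun s => measurable_from_prod_countable_left fun p =>
    ham_theta fun j => s (mrg p.2 p.1 j)

theorem norm_clause_le {N : ℕ} (q : Par K) (idx : Fin K → Fin N) :
    ‖(fun s => theta q fun j => s (idx j) : En N)‖ ≤ ‖theta q‖ := by
  exact (pi_norm_le_iff_of_nonneg (norm_nonneg _)).2 fun s => norm_le_pi_norm (theta q) _

theorem clauseLaw_spec (hM : Model K Q Ph) {N : ℕ} (hN : 1 ≤ N) :
    IsProbabilityMeasure (clauseLaw K Q N) ∧ Integrable (fun y => ‖y‖) (clauseLaw K Q N) ∧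
      ∫ y, ‖y‖ ∂clauseLaw K Q N ≤ ∫ q, ‖theta q‖ ∂Q := by
  have := hM.1
  have : Nonempty (Fin N) := ⟨⟨0, hN⟩⟩
  obtain ⟨b1, b2⟩ := mext_mp (measurePreserving_fst (μ := Q)
    (ν := uniformOn (Set.univ : Set (Fin K → Fin N)))) (integrable_norm_theta hM)
  exact b2 ▸ ham_mom (measurable_clause N) b1 fun e => norm_clause_le _ _

theorem cavLaw_spec (hK : 1 ≤ K) (hM : Model K Q Ph) {N : ℕ} (hN : 1 ≤ N) :
    IsProbabilityMeasure (cavLaw K Q N) ∧ Integrable (fun y => ‖y‖) (cavLaw K Q N) ∧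
      ∫ y, ‖y‖ ∂cavLaw K Q N ≤ ∫ q, ‖theta q‖ ∂Q := by
  have := hM.1
  have : Nonempty (Fin N) := ⟨⟨0, hN⟩⟩
  have : Nonempty (Fin K) := ⟨⟨0, hK⟩⟩
  obtain ⟨b1, b2⟩ := mext_mp (measurePreserving_fst (μ := Q)
    (ν := (uniformOn (Set.univ : Set (Fin K → Fin N))).prod (uniformOn (Set.univ : Set (Fin K)))))
    (integrable_norm_theta hM)
  have h := ham_mom (measurable_cav N) b1 fun e => norm_clause_le _ _
  rw [b2] at h
  exact h

theorem fieldLaw_spec (hM : Model K Q Ph) (N : ℕ) :
    IsProbabilityMeasure (fieldLaw Ph N) ∧ Integrable (fun y => ‖y‖) (fieldLaw Ph N) := by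
  have := hM.2.1
  obtain ⟨h1, h2, -⟩ := ham_mom (ham_field N) (integrable_sum_eval (ι := Fin N) Ph
    hM.2.2.2.2.norm).1 fun h => (pi_norm_le_iff_of_nonneg (by positivity)).2 fun s =>
      (Finset.abs_sum_le_sum_abs _ _).trans (Finset.sum_le_sum fun i _ => by
        rw [abs_mul, abs_spin, mul_one]; rfl)
  exact ⟨h1, h2⟩

theorem hamLaw_spec (hM : Model K Q Ph) {N : ℕ} (hN : 1 ≤ N) (a : ℝ) :
    IsProbabilityMeasure (hamLaw K Q Ph N a) ∧
      Integrable (fun y => ‖y‖) (hamLaw K Q Ph N a) := by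
  obtain ⟨h1, h2, -⟩ := clauseLaw_spec hM hN
  obtain ⟨h3, h4⟩ := fieldLaw_spec hM N
  have := cp_fin_smul a (clauseLaw K Q N)
  have := isProb_cp (ENNReal.ofReal a • clauseLaw K Q N)
  exact ⟨inferInstanceAs (IsProbabilityMeasure (Measure.conv _ _)),
    conv_moment h4 (cp_moment _ (h2.smul_measure ENNReal.ofReal_ne_top)).1⟩

theorem ham_conv (hM : Model K Q Ph) {N : ℕ} {Θ : Type} [MeasurableSpace Θ] (P : Measure Θ)
    [IsProbabilityMeasure P] {Xv : Θ → En N} (hX : Measurable Xv)
    (hXi : Integrable (fun e => ‖Xv e‖) P) {a : ℝ} (ha : 0 ≤ a) :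
    ∫ H, logZ (fun _ => 1) H ∂(fieldLaw Ph N).conv (cp (ENNReal.ofReal a • P.map Xv)) =
      pois a fun k => ∫ c, ∫ h, logZ (fun _ => 1) (∑ i, Xv (c i) + fun s => ∑ i, h i * spin (s i))
        ∂(Measure.pi fun _ : Fin N => Ph) ∂(Measure.pi fun _ : Fin k => P) := by
  obtain ⟨h1, h2, -⟩ := ham_mom hX hXi fun _ => le_rfl
  obtain ⟨h3, h4⟩ := fieldLaw_spec hM N
  have := cp_fin_smul a (P.map Xv)
  have := isProb_cp (ENNReal.ofReal a • P.map Xv)
  have h5 := logZ_lip (N := N) (w := fun _ => 1) fun _ => one_pos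
  obtain ⟨h6, h7⟩ := integral_conv_lip (cp_moment (ENNReal.ofReal a • P.map Xv)
    (h2.smul_measure ENNReal.ofReal_ne_top)).1 h4 h5
  rw [Measure.conv_comm, h7, integral_cp P hX hXi ha h6]
  congr 1
  funext k
  congr 1
  funext c
  exact integral_map (ham_field N).aemeasurable (cp_lip_add h5 _).continuous.aestronglyMeasurable

theorem pressure_eq (hM : Model K Q Ph) {lam : ℝ} (hlam : 0 ≤ lam) {N : ℕ} (hN : 1 ≤ N) :
    N * pressure K lam Q Ph N = ∫ H, logZ (fun _ => 1) H ∂hamLaw K Q Ph N (lam * N) := by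
  have := hM.1
  have : Nonempty (Fin N) := ⟨⟨0, hN⟩⟩
  have h0 : (N : ℝ) ≠ 0 := Nat.cast_ne_zero.2 (by omega)
  obtain ⟨b1, -⟩ := mext_mp (measurePreserving_fst (μ := Q)
    (ν := uniformOn (Set.univ : Set (Fin K → Fin N)))) (integrable_norm_theta hM)
  rw [pressure, ← mul_assoc, mul_one_div_cancel h0, one_mul, hamLaw, clauseLaw,
    ham_conv hM _ (measurable_clause N) (b1.mono' (measurable_clause N).norm.aestronglyMeasurable
      (ae_of_all _ fun e => by rw [norm_norm]; exact norm_clause_le _ _)) (by positivity)]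
  simp only [logZ, mul_one, ham, Pi.add_apply, Finset.sum_apply]

end Vale.Agent.P168
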