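import Vale.Agent.P168.Hybrid
import Vale.Agent.P168.Ham

/-! P168 End1: the endpoint with mixed clauses only.
Plan. For `i = k` the function inside `hyb` does not depend on `w`, so by `fT_const`
`hyb k c h = logZ 1 (∑ a, mixF (c a) + field h)`. By `integral_cp` (backwards) the Poisson average
is `∫ φ ∂cp (ofReal (lam K N) • (QE).map mixF)` with `φ y = ∫ F, logZ 1 (y + F) ∂fieldLaw`.
The measure `ofReal (lam K N) • QE.map mixF` equals
`ofReal (lam N) • clauseLaw + ofReal (lam (K-1) N) • dirac 0` (split on the uniform position);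
`cp_add`, `cp_dirac_zero`, `Measure.conv_dirac_zero`, and `pressure_eq` (or its proof). -/

open MeasureTheory ProbabilityTheory Function Filter Topology
open scoped BigOperators

noncomputable section

namespace Vale.Agent.P168

theorem end_one {K N r : ℕ} {A : Type} [Fintype A] (hK : 1 ≤ K) (hN : 1 ≤ N)
    {Q : Measure (Par K)} {Ph : Measure ℝ} (hM : Model K Q Ph) {lam : ℝ} (hlam : 0 ≤ lam)
    {μ : A → ℝ} (hμ : IsPr μ) {m : Fin r → ℝ} (hm : Adm m) {x : (Fin (r + 1) → A) → ℝ}
    (hx : ∀ w, |x w| ≤ 1) :
    pois (lam * K * N) (fun k => hybI K N Q Ph μ m x k k) = N * pressure K lam Q Ph N := by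
  have := hM.1
  have := isProb_QE (Q := Q) hK hN
  have : Nonempty (Fin N) := ⟨⟨0, hN⟩⟩
  obtain ⟨K, rfl⟩ : ∃ K', K = K' + 1 := ⟨K - 1, by omega⟩
  have hX : Measurable fun e : Evt (K + 1) N => (mixF e : En N) :=
    measurable_pi_lambda _ fun s => measurable_from_prod_countable_left fun p => by
      by_cases h : (p.2 : ℕ) = 0
      · simp only [mixF, h, if_true]; exact ham_theta _
      · simp only [mixF, h, if_false]; exact measurable_const
  have hXi : Integrable (fun e : Evt (K + 1) N => ‖(mixF e : En N)‖) (QE (K + 1) N Q) :=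
    (mext_mp measurePreserving_fst (integrable_norm_theta hM)).1.mono'
      hX.norm.aestronglyMeasurable (ae_of_all _ fun e => by
        rw [norm_norm, pi_norm_le_iff_of_nonneg (norm_nonneg _)]
        intro s
        unfold mixF
        split_ifs
        · exact norm_le_pi_norm (theta e.1) _
        · simp)
  have h1 : ∀ k (c : Fin k → Evt (K + 1) N) (h : Fin N → ℝ), hyb μ m x k c h =
      logZ (fun _ => 1) (∑ i, (mixF (c i) : En N) + fun s => ∑ i, h i * spin (s i)) := by
    intro k c h
    simp only [hyb, Fin.is_lt, if_true]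
    rw [fT_const (isPr_cw hμ) hm (Finset.sum_pos (fun s _ => by positivity) Finset.univ_nonempty)]
    simp only [logZ, mul_one, Pi.add_apply, Finset.sum_apply, Real.exp_add, ← Real.exp_sum]
    simp only [mul_comm]
  simp only [hybI, h1]
  rw [← ham_conv hM _ hX hXi (by positivity), pressure_eq hM hlam hN, hamLaw]
  obtain ⟨h2, -⟩ := clauseLaw_spec hM hN
  have := Measure.isProbabilityMeasure_map (μ := QE (K + 1) N Q) hX.aemeasurable
  have := cp_fin_smul (lam * N) (clauseLaw (K + 1) Q N)
  have := cp_fin_smul (lam * (K + 1 : ℕ) * N) ((QE (K + 1) N Q).map fun e => (mixF e : En N))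
  have := isProb_cp (ENNReal.ofReal (lam * N) • clauseLaw (K + 1) Q N)
  have := isProb_cp (ENNReal.ofReal (lam * (K + 1 : ℕ) * N) •
    (QE (K + 1) N Q).map fun e => (mixF e : En N))
  congr 2
  refine Measure.ext_of_charFunDual (funext fun L => ?_)
  have hm : Measurable fun v : En N => Complex.exp (L v * Complex.I) := by fun_prop
  have h3 : charFunDual ((QE (K + 1) N Q).map fun e => (mixF e : En N)) L =
      (charFunDual (clauseLaw (K + 1) Q N) L + K) / (K + 1) := by
    have h4 := (measurePreserving_prodAssoc Q (uniformOn (Set.univ : Set (Fin (K + 1) → Fin N)))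
      (uniformOn (Set.univ : Set (Fin (K + 1)))))
    rw [charFunDual_apply, integral_map hX.aemeasurable hm.aestronglyMeasurable, QE,
      ← h4.integral_comp']
    refine (integral_prod_symm _ ((integrable_const (1 : ℝ)).mono
        (hm.comp (hX.comp h4.measurable)).aestronglyMeasurable (by simp))).trans ?_
    change ∫ l, ∫ e : Par (K + 1) × (Fin (K + 1) → Fin N),
      Complex.exp (L (mixF (e.1, e.2, l)) * Complex.I) ∂_ ∂_ = _
    rw [integral_fintype Integrable.of_finite, Fin.sum_univ_succ, charFunDual_apply, clauseLaw,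
      integral_map (measurable_clause N).aemeasurable hm.aestronglyMeasurable]
    have h5 : ∀ (e : Par (K + 1) × (Fin (K + 1) → Fin N)) (i : Fin K),
        (mixF (e.1, e.2, i.succ) : En N) = 0 := fun e i => rfl
    have h6 : ∀ e : Par (K + 1) × (Fin (K + 1) → Fin N), (mixF
        (e.1, e.2, (0 : Fin (K + 1))) : En N) = fun s => theta e.1 fun j => s (e.2 j) := fun e => rfl
    simp only [h5, h6, meas_unif]
    simp
    ring
  have h0 : (K : ℂ) + 1 ≠ 0 := by exact_mod_cast K.succ_ne_zero
  rw [cp_char, cp_char, ← cp_char_zero, ← cp_char_zero, cp_char_smul, cp_char_smul, cp_char_smul,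
    cp_char_smul, cp_char_zero, cp_char_zero, h3, ENNReal.toReal_ofReal (by positivity),
    ENNReal.toReal_ofReal (by positivity), probReal_univ, probReal_univ]
  congr 1
  push_cast
  field_simp
  ring

end Vale.Agent.P168
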