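import Vale.Agent.P168.FinTSlot
import Vale.Agent.P168.Mext
import Vale.Agent.P168.Pois

/-! P168 EndV: the `V` part is linear in the number of clauses.
Plan. `∫ y, Efin k y ∂kV k = ∫ c, fT (fun w => cavV c ..)` (`integral_map`, `cavV_eq`), `fT_prod`
with the slot sets `{a} × univ`, `fT_comp` with `j ↦ (a, j)`, `integrable_sum_eval`, then
`pois_const_mul`, `pois_id`. -/

open MeasureTheory ProbabilityTheory Function Filter Topology
open scoped BigOperators

noncomputable section

namespace Vale.Agent.P168

theorem gval_V {K r : ℕ} {A : Type} [Fintype A] {Q : Measure (Par K)} {Ph : Measure ℝ}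
    (hM : Model K Q Ph) (a : ℝ) {μ : A → ℝ} (hμ : IsPr μ) {m : Fin r → ℝ} (hm : Adm m)
    {x : (Fin (r + 1) → A) → ℝ} (hx : ∀ w, |x w| ≤ 1) :
    Gval a (kV K Q) (Efin K μ m x) = a * vval K Q μ m x := by
  have := hM.1
  have hg : Integrable (fun q : Par K => fT (cw μ) m
      fun w : Fin (r + 1) → Fin K → A => fullFac q fun j => x fun p => w p j) Q :=
    (integrable_norm_theta hM).mono' (measurable_fT _ _ fun w =>
      measurable_fullFac _).aestronglyMeasurable (ae_of_all _ fun q =>
      abs_fT_le (isPr_cw hμ) hm (fun w => (fullFac_pos q fun j => hx _).1)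
        fun w => (fullFac_pos q fun j => hx _).2)
  have key : ∀ k, ∫ y, Efin K μ m x k y ∂kV K Q k = vval K Q μ m x * k := by
    intro k
    rw [kV, integral_map measurable_yV.aemeasurable
      (ev_Efin K hμ hm hx k).1.aestronglyMeasurable, vval, mul_comm]
    have h1 := (integrable_sum_eval (ι := Fin k) Q hg).2
    rw [Fintype.card_fin] at h1
    rw [← h1]
    refine integral_congr_ae (ae_of_all _ fun c => ?_)
    simp only [Efin, ← cavV_eq, cavV]
    rw [fT_prod hμ hm Finset.univ (fun a => {j : Fin k × Fin K | j.1 = a})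
      (fun i _ i' _ h => Set.disjoint_left.2 fun j h1 h2 => h (h1.symm.trans h2))
      (fun i _ w => (fullFac_pos _ fun j => hx _).1) fun i _ w w' h => by
        simp only [fun p j => h p (i, j) rfl]]
    exact Finset.sum_congr rfl fun i _ => fT_comp hμ m (fun j => (i, j)) (Prod.mk_right_injective i)
      fun w => fullFac (c i) fun j => x fun p => w p j
  simp only [Gval, key]
  rw [pois_const_mul, pois_id, mul_comm]

end Vale.Agent.P168
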