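import Vale.Agent.P168.Wt

/-! P168 Expand: the replica expansion of `fT`.
Plan. Put `Y t w = Y w * (1 - t * z w)` (positive for `t ∈ [0,1]`, and in a neighbourhood),
`zh t w = z w / (1 - t * z w)`, `u t p w = ∑ w', ker μ (tilt μ m (Y t)) p w w' * zh t w'`.
(1) `HasDerivAt (fun t => flev μ m (Y t) p w) (-(u t p w) * flev μ m (Y t) p w) t` for `p ≤ r`, by
downward induction (`flev_top`, `ker_top`; `flev_succ`, `ker_step`, `mm_succ`, `flev_depLe`).
(2) hence `tilt q` has log-derivative `-(mm q) * (u q - u (q-1))` for `1 ≤ q ≤ r`, and by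
`wt_factor` the derivative of `wt μ (tilt (Y t)) h v * ∏ l, zh t (v l)` is this quantity times
`∑ l, (zh t (v l) - ∑ q > lev h l, mm q * (u q (v l) - u (q-1) (v l)))
 = ∑ l, ∑ p, acoef (lev h l) p * u p (v l)` (`abel_acoef`, `u r = zh`).
(3) `A n t = ∑ h, hP m h * ∑ v, wt .. h v * ∏ l, zh t (v l)` has derivative `(n+1) * A (n+1) t`
(`sum_hist_succ`, `sum_wt_succ`, `Fin.prod_univ_castSucc`), `fT (Y t)` has derivative `-A 0 t`
(`sum_hist_zero`, `sum_wt_zero`, `sum_first`), `|A n t| ≤ (c / (1 - t c)) ^ (n+1)`.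
(4) `g t = -fT (Y t) + ∑ n < k, A n t * (1-t)^(n+1) / (n+1)` has derivative `A k t * (1-t)^k`,
bounded by `c^k * (c / (1 - t c))`, the derivative of `-c^k log (1 - t c)`; conclude with
monotonicity on `[0,1]` (`monotoneOn_of_deriv_nonneg` or `image_le_of_deriv_right_le_deriv_boundary`). -/

open MeasureTheory ProbabilityTheory Function Filter Topology
open scoped BigOperators

noncomputable section

namespace Vale.Agent.P168

theorem expand_mono (f f' : ℝ → ℝ) (h : ∀ t ∈ Set.Icc (0 : ℝ) 1, HasDerivAt f (f' t) t)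
    (h0 : ∀ t ∈ Set.Icc (0 : ℝ) 1, 0 ≤ f' t) : f 0 ≤ f 1 := by
  obtain ⟨x, hx, e⟩ := exists_hasDerivAt_eq_slope f f' zero_lt_one
    (fun t ht => (h t ht).continuousAt.continuousWithinAt)
    (fun t ht => h t (Set.Ioo_subset_Icc_self ht))
  have := h0 x (Set.Ioo_subset_Icc_self hx)
  rw [e, sub_zero, div_one] at this
  linarith

theorem expand_prod {ι : Type} (S : Finset ι) (f : ι → ℝ → ℝ) (a : ι → ℝ) (t : ℝ)
    (h : ∀ i ∈ S, HasDerivAt (f i) (a i * f i t) t) :
    HasDerivAt (fun s => ∏ i ∈ S, f i s) ((∑ i ∈ S, a i) * ∏ i ∈ S, f i t) t := by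
  classical
  induction S using Finset.induction_on with
  | empty => simpa using hasDerivAt_const t (1 : ℝ)
  | insert i S hi ih =>
    simp only [Finset.prod_insert hi, Finset.sum_insert hi]
    have h1 := (h i (Finset.mem_insert_self i S)).mul
      (ih fun j hj => h j (Finset.mem_insert_of_mem hj))
    refine h1.congr_deriv ?_
    ring

section Aux

variable {r : ℕ} {B : Type} [Fintype B] {μ : B → ℝ} {m : Fin r → ℝ}

theorem expand_flev (hμ : IsPr μ) (hm : Adm m) {Y : ℝ → (Fin (r + 1) → B) → ℝ}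
    {ζ : (Fin (r + 1) → B) → ℝ} {t : ℝ} (hY : ∀ w, 0 < Y t w)
    (hd : ∀ w, HasDerivAt (fun s => Y s w) (-ζ w * Y t w) t) (p : ℕ) (w : Fin (r + 1) → B) :
    HasDerivAt (fun s => flev μ m (Y s) p w)
      (-(∑ w', ker μ (tilt μ m (Y t)) p w w' * ζ w') * flev μ m (Y t) p w) t := by
  have key : ∀ k p, r ≤ p + k → ∀ w, HasDerivAt (fun s => flev μ m (Y s) p w)
      (-(∑ w', ker μ (tilt μ m (Y t)) p w w' * ζ w') * flev μ m (Y t) p w) t := by
    have top : ∀ p, r ≤ p → ∀ w, HasDerivAt (fun s => flev μ m (Y s) p w)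
        (-(∑ w', ker μ (tilt μ m (Y t)) p w w' * ζ w') * flev μ m (Y t) p w) t := by
      intro p hp w
      simp only [flev_top μ m _ hp, ker_top μ _ hp]
      exact hd w
    intro k
    induction k with
    | zero => intro p hp w; exact top p hp w
    | succ k ih =>
      intro p hp w
      by_cases h : p < r
      swap
      · exact top p (by omega) w
      have hm0 : 0 < m ⟨p, h⟩ := (hm.2 _).1
      have hF : ∀ u, 0 < flev μ m (Y t) (p + 1) (update w (Fin.succ ⟨p, h⟩) u) := fun u =>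
        flev_pos hμ hm hY _ _
      have hfl : ∀ s, flev μ m (Y s) p w = (∑ u, μ u *
          flev μ m (Y s) (p + 1) (update w (Fin.succ ⟨p, h⟩) u) ^ m ⟨p, h⟩) ^ (1 / m ⟨p, h⟩) :=
        fun s => by rw [flev_succ μ m _ h]; rfl
      have hS0 : 0 ≤ ∑ u, μ u *
          flev μ m (Y t) (p + 1) (update w (Fin.succ ⟨p, h⟩) u) ^ m ⟨p, h⟩ :=
        Finset.sum_nonneg fun u _ => mul_nonneg (hμ.1 u) (Real.rpow_nonneg (hF u).le _)
      have hS : 0 < ∑ u, μ u *
          flev μ m (Y t) (p + 1) (update w (Fin.succ ⟨p, h⟩) u) ^ m ⟨p, h⟩ := by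
        refine lt_of_le_of_ne hS0 fun e => ?_
        have := flev_pos hμ hm hY p w
        rw [hfl, ← e, Real.zero_rpow (one_div_pos.2 hm0).ne'] at this
        exact lt_irrefl _ this
      have h1 := (HasDerivAt.fun_sum (u := Finset.univ) fun u _ =>
        ((ih (p + 1) (by omega) (update w (Fin.succ ⟨p, h⟩) u)).rpow_const
          (p := m ⟨p, h⟩) (Or.inl (hF u).ne')).const_mul (μ u)).rpow_const
          (p := 1 / m ⟨p, h⟩) (Or.inl hS.ne')
      simp only [hfl]
      refine h1.congr_deriv ?_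
      rw [ker_step μ (normW_tilt hμ hm hY).2.1 h]
      have ht : ∀ u, tilt μ m (Y t) (p + 1) (update w (Fin.succ ⟨p, h⟩) u) =
          flev μ m (Y t) (p + 1) (update w (Fin.succ ⟨p, h⟩) u) ^ m ⟨p, h⟩ / ∑ u, μ u *
            flev μ m (Y t) (p + 1) (update w (Fin.succ ⟨p, h⟩) u) ^ m ⟨p, h⟩ := by
        intro u
        have e1 : flev μ m (Y t) p (update w (Fin.succ ⟨p, h⟩) u) = flev μ m (Y t) p w := by
          refine flev_depLe μ m (Y t) p _ _ fun q hq => update_of_ne (fun e => ?_) _ _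
          rw [e] at hq
          exact absurd hq (Nat.not_succ_le_self p)
        unfold tilt
        rw [Nat.add_sub_cancel, e1, mm_succ m h, Real.div_rpow (hF u).le (flev_pos hμ hm hY p w).le,
          hfl, one_div, Real.rpow_inv_rpow hS0 hm0.ne']
      simp only [ht]
      rw [Real.rpow_sub_one hS.ne', ← Finset.sum_neg_distrib, Finset.sum_mul, Finset.sum_mul,
        Finset.sum_mul]
      refine Finset.sum_congr rfl fun u _ => ?_
      rw [Real.rpow_sub_one (hF u).ne']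
      have := (hF u).ne'
      field_simp
  exact key r p (by omega) w

theorem expand_tilt (hμ : IsPr μ) (hm : Adm m) {Y : ℝ → (Fin (r + 1) → B) → ℝ}
    {ζ : (Fin (r + 1) → B) → ℝ} {t : ℝ} (hY : ∀ w, 0 < Y t w)
    (hd : ∀ w, HasDerivAt (fun s => Y s w) (-ζ w * Y t w) t) (q : ℕ) (w : Fin (r + 1) → B) :
    HasDerivAt (fun s => tilt μ m (Y s) q w)
      (-(mm m q * ((∑ w', ker μ (tilt μ m (Y t)) q w w' * ζ w') -
        ∑ w', ker μ (tilt μ m (Y t)) (q - 1) w w' * ζ w')) * tilt μ m (Y t) q w) t := by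
  have h1 := flev_pos hμ hm hY q w
  have h2 := flev_pos hμ hm hY (q - 1) w
  have h3 := ((expand_flev hμ hm hY hd q w).fun_div (expand_flev hμ hm hY hd (q - 1) w)
    h2.ne').rpow_const (p := mm m q) (Or.inl (div_pos h1 h2).ne')
  refine h3.congr_deriv ?_
  rw [Real.rpow_sub_one (div_pos h1 h2).ne']
  have e : tilt μ m (Y t) q w = (flev μ m (Y t) q w / flev μ m (Y t) (q - 1) w) ^ mm m q := rfl
  rw [e]
  field_simp
  ring

/-- interpolated weight -/
def expY (Y z : (Fin (r + 1) → B) → ℝ) (s : ℝ) (w : Fin (r + 1) → B) : ℝ := Y w * (1 - s * z w)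

/-- interpolated perturbation -/
def expZ (z : (Fin (r + 1) → B) → ℝ) (s : ℝ) (w : Fin (r + 1) → B) : ℝ := z w / (1 - s * z w)

/-- interpolated term of the expansion -/
def expA (μ : B → ℝ) (m : Fin r → ℝ) (Y z : (Fin (r + 1) → B) → ℝ) (n : ℕ) (s : ℝ) : ℝ :=
  ∑ h : Hist r n, hP m h * ∑ v, wt μ (tilt μ m (expY Y z s)) h v * ∏ l, expZ z s (v l)

variable {Y z : (Fin (r + 1) → B) → ℝ} {t : ℝ}

omit [Fintype B] in
theorem expand_dY (hz : ∀ w, 0 < 1 - t * z w) (w : Fin (r + 1) → B) :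
    HasDerivAt (fun s => expY Y z s w) (-expZ z t w * expY Y z t w) t := by
  have h1 := (((hasDerivAt_id t).mul_const (z w)).const_sub 1).const_mul (Y w)
  refine h1.congr_deriv ?_
  unfold expZ expY
  rw [neg_mul, mul_left_comm, div_mul_cancel₀ _ (hz w).ne']
  ring

omit [Fintype B] in
theorem expand_dZ (hz : ∀ w, 0 < 1 - t * z w) (w : Fin (r + 1) → B) :
    HasDerivAt (fun s => expZ z s w) (expZ z t w * expZ z t w) t := by
  have h1 := (hasDerivAt_const t (z w)).fun_div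
    (((hasDerivAt_id t).mul_const (z w)).const_sub 1) (hz w).ne'
  refine h1.congr_deriv ?_
  have := (hz w).ne'
  unfold expZ
  simp only [id]
  field_simp
  ring

theorem expand_dT (hμ : IsPr μ) (hm : Adm m) (hY : ∀ w, 0 < Y w) (hz : ∀ w, 0 < 1 - t * z w) :
    HasDerivAt (fun s => fT μ m (expY Y z s)) (-expA μ m Y z 0 t) t := by
  have hp : ∀ w, 0 < expY Y z t w := fun w => mul_pos (hY w) (hz w)
  have h1 := HasDerivAt.fun_sum (u := Finset.univ) fun w _ =>
    ((expand_flev hμ hm hp (expand_dY hz) 0 w).log (flev_pos hμ hm hp 0 w).ne').const_mul (cw μ w)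
  refine h1.congr_deriv ?_
  unfold expA
  have h2 := sum_first hμ (tilt μ m (expY Y z t)) (expZ z t)
  have h3 : ∀ h : Hist r 0, hP m h * ∑ v, wt μ (tilt μ m (expY Y z t)) h v * ∏ l, expZ z t (v l) =
      ∑ w, cw μ w * ∑ w', ker μ (tilt μ m (expY Y z t)) 0 w w' * expZ z t w' := by
    intro h
    rw [sum_wt_zero, ← h2, show hP m h = 1 from rfl, one_mul]
    simp only [Fin.prod_univ_succ, Fin.prod_univ_zero, mul_one]
  simp only [h3]
  rw [sum_hist_zero, ← Finset.sum_neg_distrib]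
  refine Finset.sum_congr rfl fun w _ => ?_
  have := (flev_pos hμ hm hp 0 w).ne'
  field_simp

theorem expand_dG (hμ : IsPr μ) (hm : Adm m) (hY : ∀ w, 0 < Y w) (hz : ∀ w, 0 < 1 - t * z w)
    {n : ℕ} (h : Hist r n) (v : Fin (n + 1) → Fin (r + 1) → B) :
    HasDerivAt (fun s => wt μ (tilt μ m (expY Y z s)) h v * ∏ l, expZ z s (v l))
      ((∑ l, ∑ p : Fin (r + 1), acoef m (lev h l) p *
        ∑ w', ker μ (tilt μ m (expY Y z t)) p (v l) w' * expZ z t w') *
        (wt μ (tilt μ m (expY Y z t)) h v * ∏ l, expZ z t (v l))) t := by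
  have hp : ∀ w, 0 < expY Y z t w := fun w => mul_pos (hY w) (hz w)
  have h1 := expand_prod Finset.univ _ _ t fun (l : Fin (n + 1)) _ =>
    expand_prod (Finset.univ.filter fun q : Fin (r + 1) => lev h l < (q : ℕ)) _ _ t fun q _ =>
      expand_tilt hμ hm hp (expand_dY hz) q (v l)
  have h2 := expand_prod Finset.univ _ _ t fun (l : Fin (n + 1)) _ => expand_dZ hz (v l)
  have h3 := (h1.const_mul (wt μ (fun _ _ => 1) h v)).mul h2
  simp only [wt_factor μ (tilt μ m _) h v]
  refine h3.congr_deriv ?_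
  have h4 : ∀ l, ∑ p : Fin (r + 1), acoef m (lev h l) p *
      ∑ w', ker μ (tilt μ m (expY Y z t)) p (v l) w' * expZ z t w' = expZ z t (v l) +
      ∑ q ∈ Finset.univ.filter fun q : Fin (r + 1) => lev h l < (q : ℕ),
        -(mm m q * ((∑ w', ker μ (tilt μ m (expY Y z t)) q (v l) w' * expZ z t w') -
        ∑ w', ker μ (tilt μ m (expY Y z t)) ((q : ℕ) - 1) (v l) w' * expZ z t w')) := by
    intro l
    rw [abel_acoef m (lev_le h l)
      (fun p => ∑ w', ker μ (tilt μ m (expY Y z t)) p (v l) w' * expZ z t w'),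
      ker_top μ _ le_rfl, Finset.sum_neg_distrib, sub_eq_add_neg]
  rw [Finset.sum_congr rfl fun l _ => h4 l, Finset.sum_add_distrib]
  ring

theorem expand_dA (hμ : IsPr μ) (hm : Adm m) (hY : ∀ w, 0 < Y w) (hz : ∀ w, 0 < 1 - t * z w)
    (n : ℕ) : HasDerivAt (expA μ m Y z n) (((n : ℝ) + 1) * expA μ m Y z (n + 1) t) t := by
  have h1 := HasDerivAt.fun_sum (u := Finset.univ) fun (h : Hist r n) _ =>
    (HasDerivAt.fun_sum (u := Finset.univ) fun v _ =>
      expand_dG hμ hm hY hz h v).const_mul (hP m h)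
  refine h1.congr_deriv ?_
  unfold expA
  rw [sum_hist_succ, Finset.mul_sum]
  refine Finset.sum_congr rfl fun h _ => ?_
  have hn : (n : ℝ) + 1 ≠ 0 := by positivity
  have h2 : ∀ (l : Fin (n + 1)) (p : Fin (r + 1)), ((n : ℝ) + 1) * (hP m (n := n + 1) (h, l, p) *
      ∑ v, wt μ (tilt μ m (expY Y z t)) (n := n + 1) (h, l, p) v * ∏ l, expZ z t (v l)) =
      ∑ v, hP m h * (acoef m (lev h l) p *
        (∑ w', ker μ (tilt μ m (expY Y z t)) p (v l) w' * expZ z t w') *
        (wt μ (tilt μ m (expY Y z t)) h v * ∏ l, expZ z t (v l))) := by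
    intro l p
    rw [sum_wt_succ, show hP m (n := n + 1) (h, l, p) =
      hP m h * (acoef m (lev h l) p / (n + 1)) from rfl, Finset.mul_sum, Finset.mul_sum]
    refine Finset.sum_congr rfl fun v _ => ?_
    simp only [Fin.prod_univ_castSucc (n := n + 1), Fin.snoc_castSucc, Fin.snoc_last]
    have h3 : ∑ w', ker μ (tilt μ m (expY Y z t)) p (v l) w' *
        ((∏ i, expZ z t (v i)) * expZ z t w') =
        (∑ w', ker μ (tilt μ m (expY Y z t)) p (v l) w' * expZ z t w') * ∏ i, expZ z t (v i) := by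
      rw [Finset.sum_mul]
      exact Finset.sum_congr rfl fun w' _ => by ring
    rw [h3]
    field_simp
  simp only [Finset.mul_sum (a := (n : ℝ) + 1), h2]
  simp only [Finset.sum_mul, Finset.mul_sum (a := hP m h)]
  rw [Finset.sum_comm]
  exact Finset.sum_congr rfl fun l _ => Finset.sum_comm

theorem expand_bA (hμ : IsPr μ) (hm : Adm m) (hY : ∀ w, 0 < Y w) (hz : ∀ w, 0 < 1 - t * z w)
    {b : ℝ} (hb : ∀ w, |expZ z t w| ≤ b) (n : ℕ) : |expA μ m Y z n t| ≤ b ^ (n + 1) := by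
  have hp : ∀ w, 0 < expY Y z t w := fun w => mul_pos (hY w) (hz w)
  refine abs_sum_pr_le ⟨hP_nonneg hm, sum_hP m n⟩ fun h => ?_
  refine abs_sum_pr_le (isPr_wt hμ (normW_tilt hμ hm hp) h) fun v => ?_
  rw [Finset.abs_prod]
  refine (Finset.prod_le_prod (fun l _ => abs_nonneg _) fun l _ => hb (v l)).trans ?_
  rw [Finset.prod_const, Finset.card_univ, Fintype.card_fin]

end Aux

theorem expand {r : ℕ} {B : Type} [Fintype B] {μ : B → ℝ} (hμ : IsPr μ) {m : Fin r → ℝ}
    (hm : Adm m) {Y z : (Fin (r + 1) → B) → ℝ} (hY : ∀ w, 0 < Y w) {c : ℝ} (hc0 : 0 ≤ c)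
    (hc1 : c < 1) (hz : ∀ w, |z w| ≤ c) (k : ℕ) :
    |fT μ m (fun w => Y w * (1 - z w)) - fT μ m Y +
      ∑ n ∈ Finset.range k, 1 / ((n : ℝ) + 1) *
        ∑ h : Hist r n, hP m h * ∑ v, wt μ (tilt μ m Y) h v * ∏ l, z (v l)| ≤
      c ^ k * -Real.log (1 - c) := by
  have hpos : ∀ t ∈ Set.Icc (0 : ℝ) 1, 0 < 1 - t * c := fun t ht => by
    have := mul_le_of_le_one_left hc0 ht.2
    linarith
  have hle : ∀ t ∈ Set.Icc (0 : ℝ) 1, ∀ w, 1 - t * c ≤ 1 - t * z w := fun t ht w => by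
    have := mul_le_mul_of_nonneg_left ((le_abs_self _).trans (hz w)) ht.1
    linarith
  have hpos' : ∀ t ∈ Set.Icc (0 : ℝ) 1, ∀ w, 0 < 1 - t * z w := fun t ht w =>
    (hpos t ht).trans_le (hle t ht w)
  let g : ℝ → ℝ := fun s => -fT μ m (expY Y z s) +
    ∑ n ∈ Finset.range k, expA μ m Y z n s * (1 - s) ^ (n + 1) / ((n : ℝ) + 1)
  have hg : ∀ t ∈ Set.Icc (0 : ℝ) 1, HasDerivAt g (expA μ m Y z k t * (1 - t) ^ k) t := by
    intro t ht
    have h1 : ∀ n ∈ Finset.range k, HasDerivAt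
        (fun s => expA μ m Y z n s * (1 - s) ^ (n + 1) / ((n : ℝ) + 1))
        (expA μ m Y z (n + 1) t * (1 - t) ^ (n + 1) - expA μ m Y z n t * (1 - t) ^ n) t := by
      intro n _
      have h2 := ((expand_dA hμ hm hY (hpos' t ht) n).mul
        (((hasDerivAt_id t).const_sub 1).fun_pow (n + 1))).div_const ((n : ℝ) + 1)
      refine h2.congr_deriv ?_
      have h3 : (n : ℝ) + 1 ≠ 0 := by positivity
      simp only [id, Nat.add_sub_cancel]
      push_cast
      field_simp
      ring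
    have h2 := (expand_dT hμ hm hY (hpos' t ht)).neg.add (HasDerivAt.fun_sum h1)
    refine h2.congr_deriv ?_
    rw [Finset.sum_range_sub (fun n => expA μ m Y z n t * (1 - t) ^ n)]
    ring
  have hB : ∀ t ∈ Set.Icc (0 : ℝ) 1, HasDerivAt (fun s => c ^ k * -Real.log (1 - s * c))
      (c ^ k * (c / (1 - t * c))) t := by
    intro t ht
    have h1 := ((((hasDerivAt_id t).mul_const c).const_sub 1).log (hpos t ht).ne').neg.const_mul
      (c ^ k)
    refine h1.congr_deriv ?_
    simp only [id]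
    ring
  have hb : ∀ t ∈ Set.Icc (0 : ℝ) 1,
      |expA μ m Y z k t * (1 - t) ^ k| ≤ c ^ k * (c / (1 - t * c)) := by
    intro t ht
    have h0 : 0 ≤ 1 - t := sub_nonneg.2 ht.2
    have h1 : 0 ≤ c / (1 - t * c) := div_nonneg hc0 (hpos t ht).le
    have h2 : ∀ w, |expZ z t w| ≤ c / (1 - t * c) := fun w => by
      unfold expZ
      rw [abs_div, abs_of_pos (hpos' t ht w)]
      exact div_le_div₀ hc0 (hz w) (hpos t ht) (hle t ht w)
    have h3 := expand_bA hμ hm hY (hpos' t ht) h2 k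
    have h4 : c / (1 - t * c) * (1 - t) ≤ c := by
      rw [div_mul_eq_mul_div, div_le_iff₀ (hpos t ht)]
      refine mul_le_mul_of_nonneg_left ?_ hc0
      have := mul_le_of_le_one_right ht.1 hc1.le
      linarith
    rw [abs_mul, abs_of_nonneg (pow_nonneg h0 k)]
    calc |expA μ m Y z k t| * (1 - t) ^ k ≤ (c / (1 - t * c)) ^ (k + 1) * (1 - t) ^ k :=
          mul_le_mul_of_nonneg_right h3 (pow_nonneg h0 k)
      _ = (c / (1 - t * c) * (1 - t)) ^ k * (c / (1 - t * c)) := by rw [mul_pow]; ring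
      _ ≤ c ^ k * (c / (1 - t * c)) :=
          mul_le_mul_of_nonneg_right (pow_le_pow_left₀ (mul_nonneg h1 h0) h4 k) h1
  have m1 := expand_mono _ _ (fun t ht => (hB t ht).add (hg t ht)) fun t ht => by
    have := (abs_le.1 (hb t ht)).1
    linarith
  have m2 := expand_mono _ _ (fun t ht => (hB t ht).sub (hg t ht)) fun t ht => by
    have := (abs_le.1 (hb t ht)).2
    linarith
  have e0 : expY Y z 0 = Y := funext fun w => by simp [expY]
  have e1 : expY Y z 1 = fun w => Y w * (1 - z w) := funext fun w => by simp [expY]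
  have e2 : expZ z 0 = z := funext fun w => by simp [expZ]
  have g0 : g 0 = -fT μ m Y + ∑ n ∈ Finset.range k, 1 / ((n : ℝ) + 1) *
      ∑ h : Hist r n, hP m h * ∑ v, wt μ (tilt μ m Y) h v * ∏ l, z (v l) := by
    simp only [g, expA, e0, e2]
    congr 1
    refine Finset.sum_congr rfl fun n _ => ?_
    rw [sub_zero, one_pow]
    ring
  have g1 : g 1 = -fT μ m fun w => Y w * (1 - z w) := by
    simp [g, e1]
  simp only [Pi.add_apply, Pi.sub_apply, zero_mul, one_mul, sub_zero, Real.log_one, neg_zero,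
    mul_zero, g0, g1] at m1 m2
  rw [abs_le]
  constructor <;> linarith

end Vale.Agent.P168
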