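import Vale.Agent.P168.CubeB

/-! P168 Limit: closedness of `InM` and passage to the limit.
Plan. `ProbabilityMeasure X` is compact (Mathlib Prokhorov instance) and metrizable. Integrals of
continuous functions are continuous in the measure
(`ProbabilityMeasure.continuous_integral_boundedContinuousFunction`,
`BoundedContinuousFunction.mkOfCompact`). `ν Good = 1` is closed by
`ProbabilityMeasure.limsup_measure_closed_le_of_tendsto` (or: `Good` a.e. iff the integral of the
continuous function `min 1 (infDist · Good)` vanishes, after choosing a metric).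
`exists_limit`: a convergent subsequence (`CompactSpace.tendsto_subseq`) or a cluster point. -/

open MeasureTheory ProbabilityTheory Function Filter Topology
open scoped BigOperators

noncomputable section

namespace Vale.Agent.P168

theorem continuous_integral_X {φ : X → ℝ} (hφ : Continuous φ) :
    Continuous fun ν : ProbabilityMeasure X => ∫ ω, φ ω ∂(ν : Measure X) := by
  exact ProbabilityMeasure.continuous_integral_boundedContinuousFunction
    (BoundedContinuousFunction.mkOfCompact ⟨φ, hφ⟩)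

theorem isClosed_ae_good : IsClosed {ν : ProbabilityMeasure X | ∀ᵐ ω ∂(ν : Measure X), Good ω} := by
  refine isClosed_of_closure_subset fun μ hμ => ?_
  have hne := mem_closure_iff_nhdsWithin_neBot.1 hμ
  have h1 := ProbabilityMeasure.limsup_measure_closed_le_of_tendsto
    (L := 𝓝[{ν : ProbabilityMeasure X | ∀ᵐ ω ∂(ν : Measure X), Good ω}] μ) (μs := id)
    (tendsto_id.mono_left nhdsWithin_le_nhds) isClosed_good
  have h2 : ∀ᶠ ν in 𝓝[{ν : ProbabilityMeasure X | ∀ᵐ ω ∂(ν : Measure X), Good ω}] μ,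
      ((id ν : ProbabilityMeasure X) : Measure X) {ω : X | Good ω} = 1 := by
    filter_upwards [self_mem_nhdsWithin] with ν hν
    exact (mem_ae_iff_prob_eq_one isClosed_good.measurableSet).1 hν
  rw [limsup_congr h2, limsup_const] at h1
  exact (mem_ae_iff_prob_eq_one isClosed_good.measurableSet).2 (le_antisymm prob_le_one h1)

theorem limit_c1 (e : Equiv.Perm ℕ) (n : ℕ) (φ : C(X, ℝ)) :
    Continuous fun ν : ProbabilityMeasure X => ∫ ω, φ (res n (act e ω)) ∂(ν : Measure X) :=
  continuous_integral_X (φ.continuous.comp ((continuous_res n).comp (continuous_act e)))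

theorem limit_c2 (n : ℕ) (φ : C(X, ℝ)) :
    Continuous fun ν : ProbabilityMeasure X => ∫ ω, φ (res n ω) ∂(ν : Measure X) :=
  continuous_integral_X (φ.continuous.comp (continuous_res n))

theorem limit_c3 (t n : ℕ) (φ : C(X, ℝ)) :
    Continuous fun ν : ProbabilityMeasure X =>
      |∫ ω, φ (res n ω) * (mekQ t ω - mekD (pp t) (jl t) n ω) ∂(ν : Measure X)| :=
  (continuous_integral_X ((φ.continuous.comp (continuous_res n)).mul
    ((continuous_mekQ t).sub (continuous_mekD _ _ _)))).abs

theorem limit_c4 (C : ℕ → ℝ) (t n : ℕ) (φ : C(X, ℝ)) :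
    Continuous fun ν : ProbabilityMeasure X =>
      C n * mu t * ∫ ω, |φ (res n ω)| ∂(ν : Measure X) :=
  continuous_const.mul (continuous_integral_X (φ.continuous.comp (continuous_res n)).abs)

theorem isClosed_inM (C : ℕ → ℝ) : IsClosed {ν : ProbabilityMeasure X | InM C ν} := by
  simp only [InM, Set.ofPred_and]
  refine IsClosed.inter ?_ (isClosed_ae_good.inter ?_)
  · simp only [Set.ofPred_forall]
    exact isClosed_iInter fun e => isClosed_iInter fun n => isClosed_iInter fun φ =>
      isClosed_eq (limit_c1 e n φ) (limit_c2 n φ)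
  · simp only [Set.ofPred_forall]
    exact isClosed_iInter fun t => isClosed_iInter fun _ => isClosed_iInter fun n =>
      isClosed_iInter fun _ => isClosed_iInter fun _ => isClosed_iInter fun φ =>
      isClosed_le (limit_c3 t n φ) (limit_c4 C t n φ)

theorem exists_limit (C : ℕ → ℝ) (ν : ℕ → ProbabilityMeasure X)
    (hG : ∀ j, ∀ᵐ ω ∂(ν j : Measure X), Good ω)
    (hE : ∀ (e : Equiv.Perm ℕ) (n : ℕ) (φ : C(X, ℝ)), ∀ᶠ j in atTop,
      ∫ ω, φ (res n (act e ω)) ∂(ν j : Measure X) = ∫ ω, φ (res n ω) ∂(ν j : Measure X))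
    (hM : ∀ t, Valid t → ∀ n, 1 ≤ n → pp t ≤ n → ∀ φ : C(X, ℝ), ∀ η > 0, ∀ᶠ j in atTop,
      |∫ ω, φ (res n ω) * (mekQ t ω - mekD (pp t) (jl t) n ω) ∂(ν j : Measure X)| ≤
        C n * mu t * ∫ ω, |φ (res n ω)| ∂(ν j : Measure X) + η)
    {Φ : X → ℝ} (hΦ : Continuous Φ) {c : ℝ} (hc : ∀ᶠ j in atTop, ∫ ω, Φ ω ∂(ν j : Measure X) ≤ c) :
    ∃ ν' : ProbabilityMeasure X, InM C ν' ∧ ∫ ω, Φ ω ∂(ν' : Measure X) ≤ c := by
  let U : Ultrafilter ℕ := Ultrafilter.of atTop
  have hU : (U : Filter ℕ) ≤ atTop := Ultrafilter.of_le _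
  obtain ⟨ν', -, hν'⟩ := isCompact_univ.ultrafilter_le_nhds (U.map ν) (by simp)
  have ht : Tendsto ν U (𝓝 ν') := hν'
  refine ⟨ν', ⟨fun e n φ => ?_, isClosed_ae_good.mem_of_tendsto ht (Eventually.of_forall hG),
    fun t hv n hn hp φ => ?_⟩, ?_⟩
  · exact tendsto_nhds_unique_of_eventuallyEq (((limit_c1 e n φ).tendsto ν').comp ht)
      (((limit_c2 n φ).tendsto ν').comp ht) (hU (hE e n φ))
  · refine le_of_forall_pos_le_add fun η hη => ?_
    exact le_of_tendsto_of_tendsto (((limit_c3 t n φ).tendsto ν').comp ht)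
      ((((limit_c4 C t n φ).tendsto ν').comp ht).add_const η) (hU (hM t hv n hn hp φ η hη))
  · exact le_of_tendsto (((continuous_integral_X hΦ).tendsto ν').comp ht) (hU hc)

end Vale.Agent.P168
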