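import Vale.Agent.P168.MBasic
import Vale.Agent.P168.Limit

/-! P168 Extreme: an extremal minimiser has trivial one-replica sigma-algebra.
Plan. `inM_cond`: for `B = {ω | t0 < co s (single 0 a) ω}` or its complement, with `ν B ≠ 0`, the
measure `ν[|B]` is in `InM C`: integrals are `(ν B)⁻¹ ∫ f * 1_B`; `1_B ∘ act e = 1_B` a.e. by
`single_eq`, so `exch_map` gives exchangeability; `mek_meas` with `f = φ ∘ res n * 1_B` (`n ≥ 1`).
`exists_triv`: on the compact set `InM C` minimise `∫ Φ`; on the compact set of minimisers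
maximise the continuous function `Ψ ν = ∑' u, w0 u * (∫ co u.1 (single 0 u.2))^2`
(`continuous_tsum`; `w0` is summable, compare with the geometric series through the injective
`Nat.pair`). If some `γ = co s (single 0 a)` is not a.e. constant there is `t0` with
`0 < ν B < 1`; `ν = β ν[|B] + (1-β) ν[|Bᶜ]`, both parts are minimisers, and strict convexity
(`∫ γ ∂ν[|B] > t0 ≥ ∫ γ ∂ν[|Bᶜ]`) contradicts maximality. If for all `t0` the probability is `0` or
`1` then `γ` is a.e. constant. Countably many coordinates give `Triv` (a finsupp with support in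
`{0}` is `single 0 (c 0)`). -/

open MeasureTheory ProbabilityTheory Function Filter Topology
open scoped BigOperators

noncomputable section

namespace Vale.Agent.P168

theorem summable_w0 : Summable w0 ∧ ∑' u, w0 u ≤ 1 := by
  have e : w0 = (fun n : ℕ => ((1 : ℝ) / 2) ^ (n + 1)) ∘ Nat.pairEquiv := by
    funext u
    rfl
  have hs : HasSum (fun n : ℕ => ((1 : ℝ) / 2) ^ (n + 1)) 1 := by
    have h1 := hasSum_geometric_two.mul_left ((1 : ℝ) / 2)
    have h2 : (fun n : ℕ => ((1 : ℝ) / 2) ^ (n + 1)) = fun n : ℕ => 1 / 2 * ((1 : ℝ) / 2) ^ n := by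
      funext n
      ring
    rw [h2]
    simpa using h1
  have hs' : HasSum w0 1 := by
    rw [e]
    exact (Nat.pairEquiv.hasSum_iff).2 hs
  exact ⟨hs'.summable, hs'.tsum_eq.le⟩

theorem extreme_int_cond (ν : Measure X) (B : Set X) (f : X → ℝ) :
    ∫ ω, f ω ∂(ν[|B]) = (ν B)⁻¹.toReal * ∫ ω in B, f ω ∂ν := by
  rw [ProbabilityTheory.cond, integral_smul_measure, smul_eq_mul]

theorem extreme_isFf (φ : C(X, ℝ)) (n : ℕ) : IsFf n fun ω => φ (res n ω) :=
  ⟨φ.continuous.measurable.comp (measurable_res n),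
    ⟨‖φ‖, fun ω => φ.norm_coe_le_norm (res n ω)⟩, fun ω => by simp only [res_res le_rfl]⟩

theorem inM_cond {C : ℕ → ℝ} {ν : Measure X} [IsProbabilityMeasure ν] (h : InM C ν) {s a : ℕ}
    {S : Set ℝ} (hS : MeasurableSet S) (h0 : ν {ω | co s (Finsupp.single 0 a) ω ∈ S} ≠ 0) :
    InM C (ν[|{ω | co s (Finsupp.single 0 a) ω ∈ S}]) := by
  set B : Set X := {ω | co s (Finsupp.single 0 a) ω ∈ S} with hBdef
  have hB : MeasurableSet B := measurable_co s _ hS
  refine ⟨fun e n φ => ?_, ?_, fun t hv n hn hp φ => ?_⟩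
  · rw [extreme_int_cond, extreme_int_cond]
    congr 1
    rw [← integral_indicator hB, ← integral_indicator hB]
    have hm : Measurable (B.indicator fun ω => φ (res n ω)) :=
      (extreme_isFf φ n).1.indicator hB
    have h1 : ∫ ω, (B.indicator fun ω => φ (res n ω)) ω ∂ν =
        ∫ ω, (B.indicator fun ω => φ (res n ω)) (act e ω) ∂ν := by
      conv_lhs => rw [← exch_map h e]
      rw [integral_map (measurable_act e).aemeasurable hm.aestronglyMeasurable]
    rw [h1]
    refine integral_congr_ae ?_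
    filter_upwards [single_eq h s a (e 0)] with ω hω
    have h2 : act e ω ∈ B ↔ ω ∈ B := by
      simp only [hBdef, Set.mem_ofPred_eq, co_act, Finsupp.mapDomain_single, hω]
    by_cases hb : ω ∈ B
    · rw [Set.indicator_of_mem hb, Set.indicator_of_mem (h2.2 hb)]
    · rw [Set.indicator_of_notMem hb, Set.indicator_of_notMem fun h3 => hb (h2.1 h3)]
  · exact (cond_absolutelyContinuous (μ := ν) (s := B)).ae_le h.2.1
  · have hF : IsF n B := by
      refine ⟨hB, fun ω => ?_⟩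
      have hc : ∀ l ∈ (Finsupp.single 0 a : ℕ →₀ ℕ).support, l < n := by
        intro l hl
        have := Finsupp.support_single_subset hl
        rw [Finset.mem_singleton] at this
        omega
      simp only [hBdef, Set.mem_ofPred_eq, co_res hc]
    have key := mek_meas h hv hn hp ((extreme_isFf φ n).mul hF.indicator)
    have e1 : ∫ ω, φ (res n ω) * B.indicator (fun _ => (1 : ℝ)) ω *
        (mekQ t ω - mekD (pp t) (jl t) n ω) ∂ν =
        ∫ ω in B, φ (res n ω) * (mekQ t ω - mekD (pp t) (jl t) n ω) ∂ν := by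
      rw [← integral_indicator hB]
      refine integral_congr_ae (Eventually.of_forall fun ω => ?_)
      by_cases hb : ω ∈ B <;> simp [hb]
    have e2 : ∫ ω, |φ (res n ω) * B.indicator (fun _ => (1 : ℝ)) ω| ∂ν =
        ∫ ω in B, |φ (res n ω)| ∂ν := by
      rw [← integral_indicator hB]
      refine integral_congr_ae (Eventually.of_forall fun ω => ?_)
      by_cases hb : ω ∈ B <;> simp [hb]
    rw [e1, e2] at key
    rw [extreme_int_cond, extreme_int_cond, abs_mul, abs_of_nonneg ENNReal.toReal_nonneg]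
    calc _ ≤ (ν B)⁻¹.toReal * (C n * mu t * ∫ ω in B, |φ (res n ω)| ∂ν) :=
          mul_le_mul_of_nonneg_left key ENNReal.toReal_nonneg
      _ = _ := by ring

theorem extreme_mul_cond (ν : Measure X) [IsProbabilityMeasure ν] {B : Set X} (h0 : ν B ≠ 0)
    (f : X → ℝ) : ν.real B * ∫ ω, f ω ∂(ν[|B]) = ∫ ω in B, f ω ∂ν := by
  rw [extreme_int_cond, ← mul_assoc, Measure.real, ← ENNReal.toReal_mul,
    ENNReal.mul_inv_cancel h0 (measure_ne_top ν B)]
  simp

theorem extreme_integrable (ν : Measure X) [IsFiniteMeasure ν] {f : X → ℝ} (hf : Continuous f) :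
    Integrable f ν :=
  hf.integrable_of_hasCompactSupport (HasCompactSupport.of_compactSpace f)

theorem extreme_split (ν : Measure X) [IsProbabilityMeasure ν] {B : Set X} (hB : MeasurableSet B)
    (h0 : ν B ≠ 0) (h1 : ν Bᶜ ≠ 0) {f : X → ℝ} (hf : Continuous f) :
    ∫ ω, f ω ∂ν = ν.real B * ∫ ω, f ω ∂(ν[|B]) + ν.real Bᶜ * ∫ ω, f ω ∂(ν[|Bᶜ]) := by
  rw [extreme_mul_cond ν h0, extreme_mul_cond ν h1,
    integral_add_compl hB (extreme_integrable ν hf)]

theorem extreme_ae_ge (μ : Measure X) [IsProbabilityMeasure μ] {f : X → ℝ} (hf : Continuous f)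
    {m : ℝ} (hm : ∫ ω, f ω ∂μ = m) (h : ∀ᵐ ω ∂μ, m ≤ f ω) : ∀ᵐ ω ∂μ, f ω = m := by
  have hi := extreme_integrable μ hf
  have hi2 : Integrable (fun ω => f ω - m) μ := hi.sub (integrable_const _)
  have h2 : ∫ ω, (f ω - m) ∂μ = 0 := by
    rw [integral_sub hi (integrable_const _), hm]
    simp
  have h3 : 0 ≤ᵐ[μ] fun ω => f ω - m := by
    filter_upwards [h] with ω hω
    exact sub_nonneg.2 hω
  filter_upwards [(integral_eq_zero_iff_of_nonneg_ae h3 hi2).1 h2] with ω hω
  exact sub_eq_zero.1 hω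

theorem extreme_ae_le (μ : Measure X) [IsProbabilityMeasure μ] {f : X → ℝ} (hf : Continuous f)
    {m : ℝ} (hm : ∫ ω, f ω ∂μ = m) (h : ∀ᵐ ω ∂μ, f ω ≤ m) : ∀ᵐ ω ∂μ, f ω = m := by
  have h1 := extreme_ae_ge μ hf.neg (m := -m) (by rw [← hm, ← integral_neg]; rfl)
    (h.mono fun ω hω => neg_le_neg hω)
  exact h1.mono fun ω hω => neg_injective hω

/-- mean of a one-replica coordinate -/
def extM (u : ℕ × ℕ) (ν : ProbabilityMeasure X) : ℝ :=
  ∫ ω, co u.1 (Finsupp.single 0 u.2) ω ∂(ν : Measure X)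

theorem extM_sq_le (u : ℕ × ℕ) (ν : ProbabilityMeasure X) : extM u ν ^ 2 ≤ 1 := by
  have : ‖extM u ν‖ ≤ 1 * (ν : Measure X).real Set.univ :=
    norm_integral_le_of_norm_le_const (Eventually.of_forall fun ω => abs_co_le _ _ ω)
  rw [probReal_univ, mul_one, Real.norm_eq_abs] at this
  exact (sq_le_one_iff_abs_le_one _).2 this

theorem extreme_w0_pos (u : ℕ × ℕ) : 0 < w0 u := by
  unfold w0
  positivity

theorem extreme_summable (ν : ProbabilityMeasure X) : Summable fun u => w0 u * extM u ν ^ 2 :=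
  summable_w0.1.of_nonneg_of_le (fun u => mul_nonneg (extreme_w0_pos u).le (sq_nonneg _))
    fun u => mul_le_of_le_one_right (extreme_w0_pos u).le (extM_sq_le u ν)

theorem extreme_cont : Continuous fun ν : ProbabilityMeasure X => ∑' u, w0 u * extM u ν ^ 2 := by
  refine continuous_tsum (u := w0) (fun u => ?_) summable_w0.1 fun u ν => ?_
  · exact continuous_const.mul ((continuous_integral_X (continuous_co _ _)).pow 2)
  · rw [Real.norm_eq_abs, abs_of_nonneg (mul_nonneg (extreme_w0_pos u).le (sq_nonneg _))]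
    exact mul_le_of_le_one_right (extreme_w0_pos u).le (extM_sq_le u ν)

theorem extreme_convex {ν ν1 ν2 : ProbabilityMeasure X} {b c : ℝ} (hb : 0 < b) (hc : 0 < c)
    (hbc : b + c = 1) (hm : ∀ u, extM u ν = b * extM u ν1 + c * extM u ν2)
    (h1 : ∑' u, w0 u * extM u ν1 ^ 2 ≤ ∑' u, w0 u * extM u ν ^ 2)
    (h2 : ∑' u, w0 u * extM u ν2 ^ 2 ≤ ∑' u, w0 u * extM u ν ^ 2) (u : ℕ × ℕ) :
    extM u ν1 = extM u ν2 := by
  by_contra hne
  have hc' : c = 1 - b := by linarith
  have hle : ∀ v, w0 v * extM v ν ^ 2 ≤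
      b * (w0 v * extM v ν1 ^ 2) + c * (w0 v * extM v ν2 ^ 2) := by
    intro v
    have : b * (w0 v * extM v ν1 ^ 2) + c * (w0 v * extM v ν2 ^ 2) - w0 v * extM v ν ^ 2 =
        w0 v * (b * c) * (extM v ν1 - extM v ν2) ^ 2 := by
      rw [hm v, hc']
      ring
    have h3 : 0 ≤ w0 v * (b * c) * (extM v ν1 - extM v ν2) ^ 2 :=
      mul_nonneg (mul_pos (extreme_w0_pos v) (mul_pos hb hc)).le (sq_nonneg _)
    linarith
  have hlt : w0 u * extM u ν ^ 2 <
      b * (w0 u * extM u ν1 ^ 2) + c * (w0 u * extM u ν2 ^ 2) := by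
    have : b * (w0 u * extM u ν1 ^ 2) + c * (w0 u * extM u ν2 ^ 2) - w0 u * extM u ν ^ 2 =
        w0 u * (b * c) * (extM u ν1 - extM u ν2) ^ 2 := by
      rw [hm u, hc']
      ring
    have h3 : 0 < w0 u * (b * c) * (extM u ν1 - extM u ν2) ^ 2 :=
      mul_pos (mul_pos (extreme_w0_pos u) (mul_pos hb hc))
        (sq_pos_of_ne_zero (sub_ne_zero.2 hne))
    linarith
  have s1 := (extreme_summable ν1).mul_left b
  have s2 := (extreme_summable ν2).mul_left c
  have h4 := (extreme_summable ν).tsum_lt_tsum hle hlt (s1.add s2)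
  rw [s1.tsum_add s2, tsum_mul_left, tsum_mul_left] at h4
  have h5 := mul_le_mul_of_nonneg_left h1 hb.le
  have h6 := mul_le_mul_of_nonneg_left h2 hc.le
  have h7 : b * ∑' u, w0 u * extM u ν ^ 2 + c * ∑' u, w0 u * extM u ν ^ 2 =
      ∑' u, w0 u * extM u ν ^ 2 := by rw [← add_mul, hbc, one_mul]
  linarith

theorem exists_triv {C : ℕ → ℝ} (ν : ProbabilityMeasure X) (h : InM C ν) {Φ : X → ℝ}
    (hΦ : Continuous Φ) :
    ∃ ν' : ProbabilityMeasure X, InM C ν' ∧ Triv ν' ∧
      ∫ ω, Φ ω ∂(ν' : Measure X) ≤ ∫ ω, Φ ω ∂(ν : Measure X) := by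
  have hF := continuous_integral_X hΦ
  obtain ⟨ν1, hν1, hmin⟩ := (isClosed_inM C).isCompact.exists_isMinOn ⟨ν, h⟩ hF.continuousOn
  have hcl : IsClosed ({μ : ProbabilityMeasure X | InM C μ} ∩
      {μ : ProbabilityMeasure X | ∫ ω, Φ ω ∂(μ : Measure X) ≤ ∫ ω, Φ ω ∂(ν1 : Measure X)}) :=
    (isClosed_inM C).inter (isClosed_le hF continuous_const)
  obtain ⟨ν2, ⟨hν2, hle⟩, hmax⟩ := hcl.isCompact.exists_isMaxOn ⟨ν1, hν1, le_refl (∫ ω, Φ ω ∂(ν1 : Measure X))⟩
    extreme_cont.continuousOn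
  have hν2' : InM C ν2 := hν2
  have hle' : ∫ ω, Φ ω ∂(ν2 : Measure X) ≤ ∫ ω, Φ ω ∂(ν1 : Measure X) := hle
  refine ⟨ν2, hν2', ?_, hle'.trans (hmin h)⟩
  have hconst : ∀ u : ℕ × ℕ, ∀ᵐ ω ∂(ν2 : Measure X),
      co u.1 (Finsupp.single 0 u.2) ω = extM u ν2 := by
    intro u
    have hγ := continuous_co u.1 (Finsupp.single 0 u.2)
    set B : Set X := {ω | co u.1 (Finsupp.single 0 u.2) ω ∈ Set.Ioi (extM u ν2)} with hBdef
    have hB : MeasurableSet B := hγ.measurable measurableSet_Ioi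
    by_cases h0 : (ν2 : Measure X) B = 0
    · have h1 : ∀ᵐ ω ∂(ν2 : Measure X), ω ∉ B := measure_eq_zero_iff_ae_notMem.1 h0
      refine extreme_ae_le _ hγ rfl ?_
      filter_upwards [h1] with ω hω
      simpa only [hBdef, Set.mem_ofPred_eq, Set.mem_Ioi, not_lt] using hω
    by_cases h0' : (ν2 : Measure X) Bᶜ = 0
    · have h1 : ∀ᵐ ω ∂(ν2 : Measure X), ω ∉ Bᶜ := measure_eq_zero_iff_ae_notMem.1 h0'
      refine extreme_ae_ge _ hγ rfl ?_
      filter_upwards [h1] with ω hω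
      simp only [hBdef, Set.mem_compl_iff, Set.mem_ofPred_eq, Set.mem_Ioi, not_not] at hω
      exact hω.le
    exfalso
    have p1 : IsProbabilityMeasure ((ν2 : Measure X)[|B]) := cond_isProbabilityMeasure h0
    have p2 : IsProbabilityMeasure ((ν2 : Measure X)[|Bᶜ]) := cond_isProbabilityMeasure h0'
    let μ1 : ProbabilityMeasure X := ⟨(ν2 : Measure X)[|B], p1⟩
    let μ2 : ProbabilityMeasure X := ⟨(ν2 : Measure X)[|Bᶜ], p2⟩
    have m1 : InM C μ1 := inM_cond hν2' measurableSet_Ioi h0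
    have m2 : InM C μ2 := inM_cond (S := (Set.Ioi (extM u ν2))ᶜ) hν2' measurableSet_Ioi.compl h0'
    have hb : 0 < (ν2 : Measure X).real B :=
      ENNReal.toReal_pos h0 (measure_ne_top _ _)
    have hc : 0 < (ν2 : Measure X).real Bᶜ :=
      ENNReal.toReal_pos h0' (measure_ne_top _ _)
    have hbc : (ν2 : Measure X).real B + (ν2 : Measure X).real Bᶜ = 1 := by
      rw [measureReal_add_measureReal_compl hB, probReal_univ]
    have hs : ∫ ω, Φ ω ∂(ν2 : Measure X) = (ν2 : Measure X).real B * ∫ ω, Φ ω ∂(μ1 : Measure X) +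
        (ν2 : Measure X).real Bᶜ * ∫ ω, Φ ω ∂(μ2 : Measure X) := extreme_split _ hB h0 h0' hΦ
    have g1 : ∫ ω, Φ ω ∂(ν1 : Measure X) ≤ ∫ ω, Φ ω ∂(μ1 : Measure X) := hmin m1
    have g2 : ∫ ω, Φ ω ∂(ν1 : Measure X) ≤ ∫ ω, Φ ω ∂(μ2 : Measure X) := hmin m2
    have hv : ∀ x : ℝ, x = (ν2 : Measure X).real B * x + (ν2 : Measure X).real Bᶜ * x := by
      intro x
      rw [← add_mul, hbc, one_mul]
    have l1 : ∫ ω, Φ ω ∂(μ1 : Measure X) ≤ ∫ ω, Φ ω ∂(ν1 : Measure X) := by
      have := hv (∫ ω, Φ ω ∂(ν1 : Measure X))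
      have g3 := mul_le_mul_of_nonneg_left g2 hc.le
      exact le_of_mul_le_mul_left (by linarith) hb
    have l2 : ∫ ω, Φ ω ∂(μ2 : Measure X) ≤ ∫ ω, Φ ω ∂(ν1 : Measure X) := by
      have := hv (∫ ω, Φ ω ∂(ν1 : Measure X))
      have g3 := mul_le_mul_of_nonneg_left g1 hb.le
      exact le_of_mul_le_mul_left (by linarith) hc
    have hm : ∀ v, extM v ν2 = (ν2 : Measure X).real B * extM v μ1 +
        (ν2 : Measure X).real Bᶜ * extM v μ2 := fun v =>
      extreme_split _ hB h0 h0' (continuous_co _ _)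
    have heq := extreme_convex hb hc hbc hm (hmax ⟨m1, l1⟩) (hmax ⟨m2, l2⟩) u
    have hmu : extM u μ1 = extM u ν2 := by
      rw [hm u, ← heq]
      exact hv _
    have h1 : ∀ᵐ ω ∂(μ1 : Measure X), extM u ν2 < co u.1 (Finsupp.single 0 u.2) ω :=
      ae_cond_mem hB
    have h2 := extreme_ae_ge (μ1 : Measure X) hγ hmu (h1.mono fun ω hω => hω.le)
    obtain ⟨ω, hω1, hω2⟩ := (h1.and h2).exists
    exact hω1.ne' hω2
  have hall := ae_all_iff.2 hconst
  obtain ⟨ω1, hω1⟩ := hall.exists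
  refine ⟨res 1 ω1, ?_⟩
  filter_upwards [hall] with ω hω
  funext i
  unfold res
  split_ifs with hi
  · have hs : i.2 = Finsupp.single 0 (i.2 0) := by
      refine Finsupp.ext fun l => ?_
      by_cases hl : l = 0
      · subst hl
        simp
      · have : i.2 l = 0 := by
          by_contra hne
          have := hi l (Finsupp.mem_support_iff.2 hne)
          omega
        rw [this, Finsupp.single_eq_of_ne hl]
    apply Subtype.ext
    have e1 := hω (i.1, i.2 0)
    have e2 := hω1 (i.1, i.2 0)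
    simp only [← hs] at e1 e2
    exact e1.trans e2.symm
  · rfl

end Vale.Agent.P168
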