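import Vale.Agent.P168.Slots

/-! P168 FinT: basic properties of `flev` and `fT`.
Plan. `flev_succ`: `List.drop_eq_getElem_cons` and `List.getElem_finRange`. All the others by
downward induction on `p` (induct on `r - p`, or prove them for `foldr` over an arbitrary list of
levels). Monotonicity and homogeneity of `fstep` use `Real.rpow_le_rpow`, `Real.mul_rpow`,
`Real.rpow_rpow_inv`. `fT_lip` follows from `fT_mono` and `fT_const_mul` applied to
`Y ≤ exp δ * Y'` and `Y' ≤ exp δ * Y`. -/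

open MeasureTheory ProbabilityTheory Function Filter Topology
open scoped BigOperators

noncomputable section

namespace Vale.Agent.P168

variable {r : ℕ} {B : Type} [Fintype B]

theorem finT_down (r : ℕ) (P : ℕ → Prop) (h0 : ∀ p, r ≤ p → P p)
    (h1 : ∀ p, p < r → P (p + 1) → P p) (p : ℕ) : P p := by
  induction' h : r - p with k ih generalizing p
  · exact h0 p (by omega)
  · exact h1 p (by omega) (ih _ (by omega))

theorem finT_sum_pos {μ : B → ℝ} (hμ : IsPr μ) {F : B → ℝ} (hF : ∀ a, 0 < F a) :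
    0 < ∑ a, μ a * F a := by
  obtain ⟨a, -, ha⟩ := Finset.exists_ne_zero_of_sum_ne_zero (hμ.2.trans_ne one_ne_zero)
  exact Finset.sum_pos' (fun a _ => mul_nonneg (hμ.1 a) (hF a).le)
    ⟨a, Finset.mem_univ a, mul_pos ((hμ.1 a).lt_of_ne' ha) (hF a)⟩

theorem flev_top (μ : B → ℝ) (m : Fin r → ℝ) (Y : (Fin (r + 1) → B) → ℝ) {p : ℕ} (hp : r ≤ p) :
    flev μ m Y p = Y := by
  rw [flev, List.drop_of_length_le (by simpa using hp), List.foldr_nil]

theorem flev_succ (μ : B → ℝ) (m : Fin r → ℝ) (Y : (Fin (r + 1) → B) → ℝ) {p : ℕ} (hp : p < r) :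
    flev μ m Y p = fstep μ (m ⟨p, hp⟩) (Fin.succ ⟨p, hp⟩) (flev μ m Y (p + 1)) := by
  rw [flev, List.drop_eq_getElem_cons (by simpa using hp), List.foldr_cons, List.getElem_finRange]
  rfl

theorem mm_succ (m : Fin r → ℝ) {p : ℕ} (hp : p < r) : mm m (p + 1) = m ⟨p, hp⟩ := by
  simp [mm, hp]

theorem flev_pos {μ : B → ℝ} (hμ : IsPr μ) {m : Fin r → ℝ} (hm : Adm m)
    {Y : (Fin (r + 1) → B) → ℝ} (hY : ∀ w, 0 < Y w) (p : ℕ) (w : Fin (r + 1) → B) :
    0 < flev μ m Y p w := by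
  revert w
  refine finT_down r (fun p => ∀ w, 0 < flev μ m Y p w) (fun p hp => ?_) (fun p hp ih w => ?_) p
  · rwa [flev_top μ m Y hp]
  · rw [flev_succ μ m Y hp]
    exact Real.rpow_pos_of_pos (finT_sum_pos hμ fun u => Real.rpow_pos_of_pos (ih _) _) _

theorem flev_depLe (μ : B → ℝ) (m : Fin r → ℝ) (Y : (Fin (r + 1) → B) → ℝ) (p : ℕ) :
    DepLe p (flev μ m Y p) := by
  refine finT_down r (fun p => DepLe p (flev μ m Y p)) (fun p hp w w' h => ?_)
    (fun p hp ih w w' h => ?_) p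
  · rw [show w = w' from funext fun q => h q (by omega)]
  · rw [flev_succ μ m Y hp]
    unfold fstep
    congr 1
    refine Finset.sum_congr rfl fun u _ => ?_
    rw [ih _ (update w' (Fin.succ ⟨p, hp⟩) u) fun q hq => ?_]
    by_cases h1 : q = Fin.succ ⟨p, hp⟩
    · rw [h1, update_self, update_self]
    · rw [update_of_ne h1, update_of_ne h1]
      refine h q ?_
      have : (q : ℕ) ≠ p + 1 := fun h2 => h1 (Fin.ext h2)
      omega

theorem flev_mono {μ : B → ℝ} (hμ : IsPr μ) {m : Fin r → ℝ} (hm : Adm m)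
    {Y Y' : (Fin (r + 1) → B) → ℝ} (hY : ∀ w, 0 < Y w) (hle : ∀ w, Y w ≤ Y' w) (p : ℕ)
    (w : Fin (r + 1) → B) : flev μ m Y p w ≤ flev μ m Y' p w := by
  revert w
  refine finT_down r (fun p => ∀ w, flev μ m Y p w ≤ flev μ m Y' p w) (fun p hp => ?_)
    (fun p hp ih w => ?_) p
  · rwa [flev_top μ m Y hp, flev_top μ m Y' hp]
  · rw [flev_succ μ m Y hp, flev_succ μ m Y' hp]
    have h1 := (hm.2 ⟨p, hp⟩).1
    refine Real.rpow_le_rpow (finT_sum_pos hμ fun u =>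
      Real.rpow_pos_of_pos (flev_pos hμ hm hY _ _) _).le (Finset.sum_le_sum fun u _ => ?_)
      (by positivity)
    exact mul_le_mul_of_nonneg_left
      (Real.rpow_le_rpow (flev_pos hμ hm hY _ _).le (ih _) h1.le) (hμ.1 u)

theorem flev_const_mul {μ : B → ℝ} (hμ : IsPr μ) {m : Fin r → ℝ} (hm : Adm m)
    {Y : (Fin (r + 1) → B) → ℝ} (hY : ∀ w, 0 < Y w) {c : ℝ} (hc : 0 < c) (p : ℕ)
    (w : Fin (r + 1) → B) : flev μ m (fun w => c * Y w) p w = c * flev μ m Y p w := by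
  revert w
  refine finT_down r (fun p => ∀ w, flev μ m (fun w => c * Y w) p w = c * flev μ m Y p w)
    (fun p hp w => ?_) (fun p hp ih w => ?_) p
  · rw [flev_top μ m Y hp, flev_top μ m _ hp]
  · rw [flev_succ μ m Y hp, flev_succ μ m _ hp]
    have h1 := (hm.2 ⟨p, hp⟩).1
    unfold fstep
    have h2 : ∀ u, μ u * flev μ m (fun w => c * Y w) (p + 1) (update w (Fin.succ ⟨p, hp⟩) u) ^
        m ⟨p, hp⟩ = c ^ m ⟨p, hp⟩ *
          (μ u * flev μ m Y (p + 1) (update w (Fin.succ ⟨p, hp⟩) u) ^ m ⟨p, hp⟩) := fun u => by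
      rw [ih, Real.mul_rpow hc.le (flev_pos hμ hm hY _ _).le]; ring
    simp only [h2]
    rw [← Finset.mul_sum, Real.mul_rpow (by positivity) (finT_sum_pos hμ fun u =>
      Real.rpow_pos_of_pos (flev_pos hμ hm hY _ _) _).le, one_div,
      Real.rpow_rpow_inv hc.le h1.ne']

theorem flev_const {μ : B → ℝ} (hμ : IsPr μ) {m : Fin r → ℝ} (hm : Adm m) {c : ℝ} (hc : 0 < c)
    (p : ℕ) (w : Fin (r + 1) → B) : flev μ m (fun _ => c) p w = c := by
  revert w
  refine finT_down r (fun p => ∀ w, flev μ m (fun _ => c) p w = c)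
    (fun p hp w => ?_) (fun p hp ih w => ?_) p
  · rw [flev_top μ m _ hp]
  · rw [flev_succ μ m _ hp]
    unfold fstep
    simp only [ih]
    rw [← Finset.sum_mul, hμ.2, one_mul, one_div, Real.rpow_rpow_inv hc.le (hm.2 ⟨p, hp⟩).1.ne']

theorem fT_const {μ : B → ℝ} (hμ : IsPr μ) {m : Fin r → ℝ} (hm : Adm m) {c : ℝ} (hc : 0 < c) :
    fT μ m (fun _ => c) = Real.log c := by
  unfold fT
  simp only [flev_const hμ hm hc]
  rw [← Finset.sum_mul, (isPr_cw hμ).2, one_mul]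

theorem fT_const_mul {μ : B → ℝ} (hμ : IsPr μ) {m : Fin r → ℝ} (hm : Adm m)
    {Y : (Fin (r + 1) → B) → ℝ} (hY : ∀ w, 0 < Y w) {c : ℝ} (hc : 0 < c) :
    fT μ m (fun w => c * Y w) = Real.log c + fT μ m Y := by
  unfold fT
  simp only [flev_const_mul hμ hm hY hc, Real.log_mul hc.ne' (flev_pos hμ hm hY _ _).ne', mul_add]
  rw [Finset.sum_add_distrib, ← Finset.sum_mul, (isPr_cw hμ).2, one_mul]

theorem fT_mono {μ : B → ℝ} (hμ : IsPr μ) {m : Fin r → ℝ} (hm : Adm m)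
    {Y Y' : (Fin (r + 1) → B) → ℝ} (hY : ∀ w, 0 < Y w) (hle : ∀ w, Y w ≤ Y' w) :
    fT μ m Y ≤ fT μ m Y' := by
  exact Finset.sum_le_sum fun w _ => mul_le_mul_of_nonneg_left
    (Real.log_le_log (flev_pos hμ hm hY _ _) (flev_mono hμ hm hY hle _ _)) (cw_nonneg hμ w)

theorem fT_lip {μ : B → ℝ} (hμ : IsPr μ) {m : Fin r → ℝ} (hm : Adm m)
    {Y Y' : (Fin (r + 1) → B) → ℝ} (hY : ∀ w, 0 < Y w) (hY' : ∀ w, 0 < Y' w) {δ : ℝ}
    (h : ∀ w, |Real.log (Y w) - Real.log (Y' w)| ≤ δ) : |fT μ m Y - fT μ m Y'| ≤ δ := by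
  have key : ∀ {Y Y' : (Fin (r + 1) → B) → ℝ}, (∀ w, 0 < Y w) → (∀ w, 0 < Y' w) →
      (∀ w, Real.log (Y w) - Real.log (Y' w) ≤ δ) → fT μ m Y - fT μ m Y' ≤ δ := by
    intro Y Y' hY hY' h
    have h1 := fT_mono hμ hm hY (Y' := fun w => Real.exp δ * Y' w) fun w => by
      rw [← Real.exp_log (hY w), ← Real.exp_log (hY' w), ← Real.exp_add]
      exact Real.exp_le_exp.2 (by linarith [h w])
    rw [fT_const_mul hμ hm hY' (Real.exp_pos δ), Real.log_exp] at h1
    linarith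
  have h1 := key hY hY' fun w => (abs_le.1 (h w)).2
  have h2 := key hY' hY fun w => by linarith [(abs_le.1 (h w)).1]
  exact abs_le.2 ⟨by linarith, h1⟩

theorem abs_fT_le {μ : B → ℝ} (hμ : IsPr μ) {m : Fin r → ℝ} (hm : Adm m)
    {Y : (Fin (r + 1) → B) → ℝ} (hY : ∀ w, 0 < Y w) {δ : ℝ}
    (h : ∀ w, |Real.log (Y w)| ≤ δ) : |fT μ m Y| ≤ δ := by
  have := fT_lip hμ hm hY (Y' := fun _ => 1) (fun _ => one_pos) (δ := δ) (by simpa using h)
  rwa [fT_const hμ hm one_pos, Real.log_one, sub_zero] at this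

theorem measurable_fT {Ω : Type} [MeasurableSpace Ω] (μ : B → ℝ) (m : Fin r → ℝ)
    {Y : Ω → (Fin (r + 1) → B) → ℝ} (hY : ∀ w, Measurable fun c => Y c w) :
    Measurable fun c => fT μ m (Y c) := by
  have key : ∀ p w, Measurable fun c => flev μ m (Y c) p w := by
    refine finT_down r _ (fun p hp w => ?_) fun p hp ih w => ?_
    · simp only [flev_top μ m _ hp]; exact hY w
    · simp only [flev_succ μ m _ hp, fstep]
      exact (Finset.measurable_sum _ fun u _ => ((ih _).pow_const _).const_mul _).pow_const _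
  exact Finset.measurable_sum _ fun w _ => (key 0 w).log.const_mul _

theorem normW_tilt {μ : B → ℝ} (hμ : IsPr μ) {m : Fin r → ℝ} (hm : Adm m)
    {Y : (Fin (r + 1) → B) → ℝ} (hY : ∀ w, 0 < Y w) : NormW μ (tilt μ m Y) := by
  refine ⟨fun q w => Real.rpow_nonneg (div_pos (flev_pos hμ hm hY _ _) (flev_pos hμ hm hY _ _)).le _,
    fun q w w' h => ?_, fun q w hq => ?_⟩
  · unfold tilt
    rw [flev_depLe μ m Y q w w' h, flev_depLe μ m Y (q - 1) w w' fun q' hq' => h q' (by omega)]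
  · obtain ⟨⟨p, hp⟩, rfl⟩ := Fin.exists_succ_eq.2 (show q ≠ 0 from fun h => by simp [h] at hq)
    have h1 := (hm.2 ⟨p, hp⟩).1
    have h2 := finT_sum_pos hμ fun u => Real.rpow_pos_of_pos
      (flev_pos hμ hm hY (p + 1) (update w (Fin.succ ⟨p, hp⟩) u)) (m ⟨p, hp⟩)
    have h3 : ∀ u, tilt μ m Y (Fin.succ (⟨p, hp⟩ : Fin r) : Fin (r + 1))
        (update w (Fin.succ ⟨p, hp⟩) u) =
        flev μ m Y (p + 1) (update w (Fin.succ ⟨p, hp⟩) u) ^ m ⟨p, hp⟩ / ∑ u, μ u *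
          flev μ m Y (p + 1) (update w (Fin.succ ⟨p, hp⟩) u) ^ m ⟨p, hp⟩ := fun u => by
      change (flev μ m Y (p + 1) _ / flev μ m Y p _) ^ mm m (p + 1) = _
      rw [mm_succ m hp, Real.div_rpow (flev_pos hμ hm hY _ _).le (flev_pos hμ hm hY _ _).le,
        flev_depLe μ m Y p _ w fun q hq => update_of_ne (fun h => by simp [h] at hq) _ _,
        flev_succ μ m Y hp, fstep, one_div, Real.rpow_inv_rpow h2.le h1.ne']
    simp only [h3, ← mul_div_assoc]
    rw [← Finset.sum_div, div_self h2.ne']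

theorem tilt_const {μ : B → ℝ} (hμ : IsPr μ) {m : Fin r → ℝ} (hm : Adm m) {c : ℝ} (hc : 0 < c) :
    tilt μ m (fun _ => c) = fun _ _ => 1 := by
  funext q w
  rw [tilt, flev_const hμ hm hc, flev_const hμ hm hc, div_self hc.ne', Real.one_rpow]

theorem normW_one {μ : B → ℝ} (hμ : IsPr μ) : NormW (r := r) μ (fun _ _ => 1) := by
  exact ⟨fun _ _ => zero_le_one, fun _ _ _ _ => rfl, fun _ _ _ => by simpa using hμ.2⟩

end Vale.Agent.P168
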