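import Vale.Agent.P168.FinT

/-! P168 FinTSlot: `fT` with alphabet `J → A` (slots).
Plan. Downward induction on the level using `flev_top`, `flev_succ`. For `flev_slotDep`: if `w, w'`
agree on the slots of `S` so do `update w p u` and `update w' p u`. For `flev_comp`:
`(fun j => update w p u q (e j)) = update (fun q j => w q (e j)) p (u ∘ e) q` and `sum_cw_comp`;
for the final sum over paths use `cw_cw_swap` and `sum_cw_comp` on the swapped index (or the
equivalence `Equiv.piComm`). For `flev_mul`: `Real.mul_rpow` and `sum_cw_mul` in the variable `u`.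
`fT_prod` by `Finset.induction_on` (use `SlotDep` for the union of the remaining sets). -/

open MeasureTheory ProbabilityTheory Function Filter Topology
open scoped BigOperators

noncomputable section

namespace Vale.Agent.P168

variable {r : ℕ} {A J J' : Type} [Fintype A] [Fintype J] [DecidableEq J] [Fintype J']
  [DecidableEq J']

theorem flev_slotDep (μ : A → ℝ) (m : Fin r → ℝ) {S : Set J} {Y : (Fin (r + 1) → J → A) → ℝ}
    (hY : SlotDep S Y) (p : ℕ) : SlotDep S (flev (cw μ) m Y p) := by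
  refine finT_down r (fun p => SlotDep S (flev (cw μ) m Y p)) (fun p hp => ?_)
    (fun p hp ih w w' h => ?_) p
  · rwa [flev_top _ m Y hp]
  · rw [flev_succ _ m Y hp]
    unfold fstep
    congr 1
    refine Finset.sum_congr rfl fun u _ => ?_
    rw [ih _ (update w' (Fin.succ ⟨p, hp⟩) u) fun q j hj => ?_]
    by_cases h1 : q = Fin.succ ⟨p, hp⟩
    · rw [h1, update_self, update_self]
    · rw [update_of_ne h1, update_of_ne h1]
      exact h q j hj

theorem tilt_slotDep (μ : A → ℝ) (m : Fin r → ℝ) {S : Set J} {Y : (Fin (r + 1) → J → A) → ℝ}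
    (hY : SlotDep S Y) (q : ℕ) : SlotDep S (tilt (cw μ) m Y q) := by
  intro w w' h
  unfold tilt
  rw [flev_slotDep μ m hY q w w' h, flev_slotDep μ m hY (q - 1) w w' h]

theorem finTSlot_swap (μ : A → ℝ) (F : (Fin (r + 1) → J → A) → ℝ) :
    ∑ w, cw (cw μ) w * F w = ∑ x : J → Fin (r + 1) → A, cw (cw μ) x * F fun p j => x j p :=
  Fintype.sum_equiv (Equiv.piComm _) _ _ fun w => by rw [cw_cw_swap]; rfl

theorem fT_comp {μ : A → ℝ} (hμ : IsPr μ) (m : Fin r → ℝ) (e : J' → J) (he : Injective e)
    (Y : (Fin (r + 1) → J' → A) → ℝ) :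
    fT (cw μ) m (fun w : Fin (r + 1) → J → A => Y fun p j => w p (e j)) = fT (cw μ) m Y := by
  have key : ∀ p (w : Fin (r + 1) → J → A),
      flev (cw μ) m (fun w : Fin (r + 1) → J → A => Y fun p j => w p (e j)) p w =
        flev (cw μ) m Y p fun p j => w p (e j) := by
    refine finT_down r _ (fun p hp w => ?_) fun p hp ih w => ?_
    · rw [flev_top _ m _ hp, flev_top _ m _ hp]
    · rw [flev_succ _ m _ hp, flev_succ _ m _ hp]
      unfold fstep
      congr 1
      rw [← sum_cw_comp hμ e he]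
      refine Finset.sum_congr rfl fun u _ => ?_
      rw [ih]
      congr 3
      funext q
      by_cases h1 : q = Fin.succ ⟨p, hp⟩
      · rw [h1, update_self, update_self]
      · rw [update_of_ne h1, update_of_ne h1]
  unfold fT
  simp only [key]
  rw [finTSlot_swap, finTSlot_swap]
  exact sum_cw_comp (isPr_cw hμ) e he fun x => Real.log (flev (cw μ) m Y 0 fun p j => x j p)

theorem fT_mul {μ : A → ℝ} (hμ : IsPr μ) {m : Fin r → ℝ} (hm : Adm m) (S : Set J)
    {Y Y' : (Fin (r + 1) → J → A) → ℝ} (hY : ∀ w, 0 < Y w) (hY' : ∀ w, 0 < Y' w)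
    (hS : SlotDep S Y) (hS' : SlotDep Sᶜ Y') :
    fT (cw μ) m (fun w => Y w * Y' w) = fT (cw μ) m Y + fT (cw μ) m Y' := by
  have hc : IsPr (cw μ : (J → A) → ℝ) := isPr_cw hμ
  have key : ∀ p (w : Fin (r + 1) → J → A), flev (cw μ) m (fun w => Y w * Y' w) p w =
      flev (cw μ) m Y p w * flev (cw μ) m Y' p w := by
    refine finT_down r _ (fun p hp w => ?_) fun p hp ih w => ?_
    · rw [flev_top _ m _ hp, flev_top _ m _ hp, flev_top _ m _ hp]
    · rw [flev_succ _ m _ hp, flev_succ _ m _ hp, flev_succ _ m _ hp]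
      unfold fstep
      have hu : ∀ (T : Set J) (x x' : J → A), (∀ i ∈ T, x i = x' i) → ∀ q, ∀ j ∈ T,
          update w (Fin.succ ⟨p, hp⟩) x q j = update w (Fin.succ ⟨p, hp⟩) x' q j := by
        intro T x x' h q j hj
        by_cases h1 : q = Fin.succ ⟨p, hp⟩
        · rw [h1, update_self, update_self, h j hj]
        · rw [update_of_ne h1, update_of_ne h1]
      rw [← Real.mul_rpow
        (finT_sum_pos hc fun u => Real.rpow_pos_of_pos (flev_pos hc hm hY _ _) _).le
        (finT_sum_pos hc fun u => Real.rpow_pos_of_pos (flev_pos hc hm hY' _ _) _).le,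
        ← sum_cw_mul hμ S _ _
          (fun x x' h => by rw [flev_slotDep μ m hS (p + 1) _ _ (hu S x x' h)])
          fun x x' h => by rw [flev_slotDep μ m hS' (p + 1) _ _ (hu Sᶜ x x' h)]]
      simp only [ih, Real.mul_rpow (flev_pos hc hm hY _ _).le (flev_pos hc hm hY' _ _).le]
  unfold fT
  simp only [key, Real.log_mul (flev_pos hc hm hY _ _).ne' (flev_pos hc hm hY' _ _).ne', mul_add]
  exact Finset.sum_add_distrib

theorem fT_prod {μ : A → ℝ} (hμ : IsPr μ) {m : Fin r → ℝ} (hm : Adm m) {κ : Type}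
    (T : Finset κ) (S : κ → Set J) (hS : ∀ i ∈ T, ∀ i' ∈ T, i ≠ i' → Disjoint (S i) (S i'))
    {Y : κ → (Fin (r + 1) → J → A) → ℝ} (hY : ∀ i ∈ T, ∀ w, 0 < Y i w)
    (hdep : ∀ i ∈ T, SlotDep (S i) (Y i)) :
    fT (cw μ) m (fun w => ∏ i ∈ T, Y i w) = ∑ i ∈ T, fT (cw μ) m (Y i) := by
  classical
  induction T using Finset.induction_on with
  | empty => simpa using fT_const (isPr_cw hμ) hm one_pos
  | insert a T ha ih =>
    have h1 : ∀ i ∈ T, i ∈ insert a T := fun i => Finset.mem_insert_of_mem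
    have h2 := Finset.mem_insert_self a T
    simp only [Finset.prod_insert ha, Finset.sum_insert ha]
    rw [fT_mul hμ hm (S a) (hY a h2) (fun w => Finset.prod_pos fun i hi => hY i (h1 i hi) w)
      (hdep a h2) fun w w' h => Finset.prod_congr rfl fun i hi => hdep i (h1 i hi) w w'
        fun p j hj => h p j (Set.disjoint_left.1 (hS i (h1 i hi) a h2 fun h => ha (h ▸ hi)) hj),
      ih (fun i hi i' hi' => hS i (h1 i hi) i' (h1 i' hi')) (fun i hi => hY i (h1 i hi))
        fun i hi => hdep i (h1 i hi)]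

end Vale.Agent.P168
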