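import Vale.Agent.P168.Slots

/-! P168 Fourier: Fourier analysis on `Fin n → Bool`.
Plan. Orthogonality: `∑ e, ∏ l ∈ S, spin (e l) * ∏ l ∈ T, spin (e l) = if S = T then 2^n else 0`
(write as `∏ l, ∑ b, ..` with `Finset.prod_univ_sum`), and `Finset.prod_one_add`/`Finset.prod_add`
for `∏ l, (1 + x l * spin (e l)) = ∑ S, ∏ l ∈ S, x l * spin (e l)`. -/

open MeasureTheory ProbabilityTheory Function Filter Topology
open scoped BigOperators

noncomputable section

namespace Vale.Agent.P168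

variable {n : ℕ}

theorem prod_half_eq (x : Fin n → ℝ) (e : Fin n → Bool) :
    ∏ l, (1 + x l * spin (e l)) / 2 = lamOf (fun S => ∏ l ∈ S, x l) e := by
  rw [lamOf, Finset.prod_div_distrib, Finset.prod_const, Finset.prod_one_add, Finset.powerset_univ,
    Finset.card_univ, Fintype.card_fin]
  simp only [Finset.prod_mul_distrib]

theorem ite_eq_prod_half (s e : Fin n → Bool) :
    (if s = e then (1 : ℝ) else 0) = ∏ l, (1 + spin (s l) * spin (e l)) / 2 := by
  split_ifs with h
  · subst h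
    simp [spin_mul_self]
  · obtain ⟨l, hl⟩ := Function.ne_iff.1 h
    refine (Finset.prod_eq_zero (Finset.mem_univ l) ?_).symm
    revert hl
    cases s l <;> cases e l <;> simp [spin]

theorem sum_lamOf_mul (mo : Finset (Fin n) → ℝ) (S : Finset (Fin n)) :
    ∑ e, lamOf mo e * ∏ l ∈ S, spin (e l) = mo S := by
  have h1 : ∀ T : Finset (Fin n), ∑ e : Fin n → Bool, (∏ l ∈ T, spin (e l)) * ∏ l ∈ S, spin (e l) =
      if T = S then 2 ^ n else 0 := by
    intro T
    have := Finset.prod_univ_sum (fun _ : Fin n => (Finset.univ : Finset Bool))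
      fun l b => (if l ∈ T then spin b else 1) * if l ∈ S then spin b else 1
    rw [Fintype.piFinset_univ] at this
    simp only [Finset.prod_mul_distrib, Finset.prod_ite_mem, Finset.univ_inter] at this
    rw [← this]
    split_ifs with h
    · subst h
      rw [Finset.prod_congr rfl (g := fun _ => (2 : ℝ)) fun l _ => by
        by_cases h : l ∈ T <;> simp [h, spin] <;> norm_num]
      simp
    · obtain ⟨l, hl⟩ : ∃ l, ¬ (l ∈ T ↔ l ∈ S) := not_forall.1 fun h' => h (Finset.ext h')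
      refine Finset.prod_eq_zero (Finset.mem_univ l) ?_
      by_cases h1 : l ∈ T <;> by_cases h2 : l ∈ S <;> simp [h1, h2, spin] at hl ⊢
  simp only [lamOf, div_mul_eq_mul_div, Finset.sum_mul]
  rw [← Finset.sum_div, Finset.sum_comm]
  simp only [mul_assoc, ← Finset.mul_sum, h1]
  simp

theorem fourier_sum {κ : Type} (T : Finset κ) (c : κ → ℝ) (mo : κ → Finset (Fin n) → ℝ)
    (e : Fin n → Bool) :
    lamOf (fun S => ∑ i ∈ T, c i * mo i S) e = ∑ i ∈ T, c i * lamOf (mo i) e := by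
  simp only [lamOf, Finset.sum_mul, ← mul_div_assoc, Finset.mul_sum, mul_assoc]
  rw [← Finset.sum_div, Finset.sum_comm]

theorem lamOf_moments (la : (Fin n → Bool) → ℝ) :
    lamOf (fun S => ∑ s, la s * ∏ l ∈ S, spin (s l)) = la := by
  funext e
  rw [fourier_sum]
  simp only [← prod_half_eq, ← ite_eq_prod_half]
  simp

theorem lamOf_sum {κ : Type} (T : Finset κ) (c : κ → ℝ) (mo : κ → Finset (Fin n) → ℝ)
    (e : Fin n → Bool) :
    lamOf (fun S => ∑ i ∈ T, c i * mo i S) e = ∑ i ∈ T, c i * lamOf (mo i) e := by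
  exact fourier_sum T c mo e

theorem abs_lamOf_sub_le (mo mo' : Finset (Fin n) → ℝ) {δ : ℝ} (h : ∀ S, |mo S - mo' S| ≤ δ)
    (e : Fin n → Bool) : |lamOf mo e - lamOf mo' e| ≤ δ := by
  have h2 : (0 : ℝ) < 2 ^ n := by positivity
  rw [lamOf, lamOf, ← sub_div, ← Finset.sum_sub_distrib, abs_div, abs_of_pos h2, div_le_iff₀ h2]
  refine (Finset.abs_sum_le_sum_abs _ _).trans ((Finset.sum_le_card_nsmul _ _ δ fun S _ => ?_).trans
    (le_of_eq (by simp [mul_comm])))
  rw [← sub_mul, abs_mul, Finset.abs_prod]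
  simpa [abs_spin] using h S

theorem continuous_lamOf : Continuous fun mo : Finset (Fin n) → ℝ => lamOf mo := by
  unfold lamOf
  fun_prop

theorem lamH_eq {r : ℕ} {A : Type} [Fintype A] (μ : A → ℝ) (x : (Fin (r + 1) → A) → ℝ)
    (h : Hist r n) :
    lamH μ x h = lamOf fun S => ∑ v, wt μ (fun _ _ => 1) h v * ∏ l ∈ S, x (v l) := by
  funext e
  rw [lamOf_sum]
  simp only [← prod_half_eq]
  rfl

theorem emp_eq {N : ℕ} (s : Fin n → Fin N → Bool) :
    emp s = lamOf fun S => 𝔼 i : Fin N, ∏ l ∈ S, spin (s l i) := by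
  funext e
  simp only [emp, Finset.expect_eq_sum_div_card, div_eq_inv_mul, Finset.mul_sum]
  rw [lamOf_sum]
  simp only [← prod_half_eq, ite_eq_prod_half]

theorem mem_support_ind (S : Finset (Fin n)) (l : ℕ) :
    l ∈ (ind S).support ↔ ∃ h : l < n, (⟨l, h⟩ : Fin n) ∈ S := by
  rw [Finsupp.mem_support_iff, ind, Finsupp.finset_sum_apply, Ne, Finset.sum_eq_zero_iff]
  simp only [Finsupp.single_apply, ite_eq_right_iff, one_ne_zero, imp_false, not_forall, not_not]
  exact ⟨fun ⟨i, hi, h⟩ => ⟨h ▸ i.2, by subst h; exact hi⟩, fun ⟨h, hi⟩ => ⟨_, hi, rfl⟩⟩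

theorem ind_apply_of_mem (S : Finset (Fin n)) {l : Fin n} (hl : l ∈ S) : ind S l = 1 := by
  rw [ind, Finsupp.finset_sum_apply, Finset.sum_eq_single_of_mem l hl, Finsupp.single_eq_same]
  exact fun b _ hb => Finsupp.single_eq_of_ne' fun h => hb (Fin.ext h)

theorem mapDomain_ind {n' : ℕ} (e : Fin n ↪ Fin n') (g : Equiv.Perm ℕ)
    (hg : ∀ l : Fin n, g l = e l) (S : Finset (Fin n)) :
    (ind S).mapDomain g = ind (S.map e) := by
  simp only [ind, Finsupp.mapDomain_finset_sum, Finsupp.mapDomain_single, Finset.sum_map, hg]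

end Vale.Agent.P168
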