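import Vale.Agent.P168.Core

/-! P168 HistB: histories, patterns, transition probabilities (finite combinatorics).
Plan. `mm` is monotone with `mm 0 = 0`, `mm (r+1) = 1`, strictly increasing on `0..r+1`.
`sum_acoef`, `abel_acoef`: telescoping (induction on `r - j`, or rewrite as sums over
`Finset.Ico`). `sum_hist_succ` is `Fintype.sum_prod_type` (unfold the instance with `rfl`/`show`).
`up_pat`: `extPat r d (fun l' => min p (d l l'))` is ultrametric when `d` is and `p ≤ r`
(`up_extPat`; case split with `Fin.lastCases`). `lev_eq_jlev`: for the last point the sup is `p`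
because `d l l = r ≥ p`. `kap_marg`: the class `{l' | p ≤ d l' l}` has exactly one element (its
minimum) with `jlev < p` when `p ≥ 1`; for it `∑ p' ≥ p, acoef = 1 - mm p`, for the others the sum
is `1`, points outside the class give `0`; for `p = 0` everything sums to `n + 1`.
`kap_pos`: take the minimal `l*` of the class of `l` at level `p`; `min p (d l* ·) = min p (d l ·)`
and `acoef (jlev d l*) p > 0`. -/

open MeasureTheory ProbabilityTheory Function Filter Topology
open scoped BigOperators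

noncomputable section

namespace Vale.Agent.P168

variable {r : ℕ}

theorem mm_zero (m : Fin r → ℝ) : mm m 0 = 0 := by
  simp [mm]

theorem mm_top (m : Fin r → ℝ) {p : ℕ} (hp : r < p) : mm m p = 1 := by
  have h1 : p ≠ 0 := by omega
  have h2 : ¬ p - 1 < r := by omega
  simp [mm, h1, h2]

theorem histB_succ (m : Fin r → ℝ) {p : ℕ} (hp : p < r) : mm m (p + 1) = m ⟨p, hp⟩ := by
  simp [mm, hp]

theorem mm_lt {m : Fin r → ℝ} (hm : Adm m) {p : ℕ} (hp : p ≤ r) : mm m p < mm m (p + 1) := by
  rcases Nat.eq_zero_or_pos p with rfl | h0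
  · rw [mm_zero]
    by_cases hr : 0 < r
    · rw [histB_succ m hr]; exact (hm.2 _).1
    · rw [mm_top m (by omega)]; exact one_pos
  · obtain ⟨q, rfl⟩ : ∃ q, p = q + 1 := ⟨p - 1, by omega⟩
    have hq : q < r := by omega
    rw [histB_succ m hq]
    by_cases hr : q + 1 < r
    · rw [histB_succ m hr]; exact hm.1 (by simp [Fin.lt_def])
    · rw [mm_top m (by omega)]; exact (hm.2 _).2

theorem mm_mem {m : Fin r → ℝ} (hm : Adm m) (p : ℕ) : 0 ≤ mm m p ∧ mm m p ≤ 1 := by
  rcases Nat.eq_zero_or_pos p with rfl | h0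
  · rw [mm_zero]; exact ⟨le_rfl, zero_le_one⟩
  · obtain ⟨q, rfl⟩ : ∃ q, p = q + 1 := ⟨p - 1, by omega⟩
    by_cases hq : q < r
    · rw [histB_succ m hq]; exact ⟨(hm.2 _).1.le, (hm.2 _).2.le⟩
    · rw [mm_top m (by omega)]; exact ⟨zero_le_one, le_rfl⟩

theorem acoef_nonneg {m : Fin r → ℝ} (hm : Adm m) (j p : ℕ) : 0 ≤ acoef m j p := by
  unfold acoef
  split_ifs with h1 h2
  · exact le_rfl
  · exact (mm_mem hm _).1
  · by_cases hp : p ≤ r
    · exact sub_nonneg.2 (mm_lt hm hp).le
    · rw [mm_top m (by omega), mm_top m (by omega)]; simp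

theorem histB_abel (m : Fin r → ℝ) (u : ℕ → ℝ) (j N : ℕ) (hj : j ≤ N) :
    ∑ p ∈ Finset.range (N + 1), acoef m j p * u p =
      mm m (N + 1) * u N -
        ∑ q ∈ Finset.range (N + 1), if j < q then mm m q * (u q - u (q - 1)) else 0 := by
  induction N, hj using Nat.le_induction with
  | base =>
    rw [Finset.sum_range_succ, Finset.sum_eq_zero, Finset.sum_eq_zero]
    · simp [acoef]
    · intro q hq
      rw [if_neg]
      have := Finset.mem_range.1 hq
      omega
    · intro q hq
      have := Finset.mem_range.1 hq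
      simp [acoef, this]
  | succ N hN ih =>
    rw [Finset.sum_range_succ, ih, Finset.sum_range_succ _ (N + 1), if_pos (by omega)]
    have h1 : acoef m j (N + 1) = mm m (N + 1 + 1) - mm m (N + 1) := by
      unfold acoef
      rw [if_neg (by omega), if_neg (by omega)]
    rw [h1, Nat.add_sub_cancel]
    ring

theorem sum_acoef (m : Fin r → ℝ) {j : ℕ} (hj : j ≤ r) :
    ∑ p : Fin (r + 1), acoef m j p = 1 := by
  have h := histB_abel m (fun _ => 1) j r hj
  rw [mm_top m (Nat.lt_succ_self r)] at h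
  simp only [mul_one, sub_self, mul_zero, ite_self, Finset.sum_const_zero, sub_zero] at h
  rw [← h]
  exact Fin.sum_univ_eq_sum_range (fun p => acoef m j p) (r + 1)

theorem abel_acoef (m : Fin r → ℝ) {j : ℕ} (hj : j ≤ r) (u : ℕ → ℝ) :
    ∑ p : Fin (r + 1), acoef m j p * u p =
      u r - ∑ q ∈ Finset.univ.filter (fun q : Fin (r + 1) => j < (q : ℕ)),
        mm m q * (u q - u ((q : ℕ) - 1)) := by
  have h := histB_abel m u j r hj
  rw [mm_top m (Nat.lt_succ_self r), one_mul] at h
  rw [Finset.sum_filter, Fin.sum_univ_eq_sum_range (fun p => acoef m j p * u p) (r + 1), h,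
    Fin.sum_univ_eq_sum_range (fun q => if j < q then mm m q * (u q - u (q - 1)) else 0) (r + 1)]

theorem sum_hist_zero (F : Hist r 0 → ℝ) : ∑ h, F h = F () := by
  exact Fintype.sum_unique (ι := Unit) F

theorem sum_hist_succ {n : ℕ} (F : Hist r (n + 1) → ℝ) :
    ∑ h, F h = ∑ h : Hist r n, ∑ l : Fin (n + 1), ∑ p : Fin (r + 1), F (h, l, p) := by
  have h := Fintype.sum_prod_type (α₁ := Hist r n) (α₂ := Fin (n + 1) × Fin (r + 1)) F
  refine h.trans (Finset.sum_congr rfl fun h _ => ?_)
  exact Fintype.sum_prod_type (fun x : Fin (n + 1) × Fin (r + 1) => F (h, x))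

theorem histB_lev_last {n : ℕ} (h : Hist r n) (l : Fin (n + 1)) (p : Fin (r + 1)) :
    lev (n := n + 1) (h, l, p) (Fin.last (n + 1)) = p := by
  show Fin.snoc (α := fun _ => ℕ) (lev h) (p : ℕ) (Fin.last (n + 1)) = p
  rw [Fin.snoc_last]

theorem histB_lev_cast {n : ℕ} (h : Hist r n) (l : Fin (n + 1)) (p : Fin (r + 1))
    (i : Fin (n + 1)) : lev (n := n + 1) (h, l, p) i.castSucc = lev h i := by
  show Fin.snoc (α := fun _ => ℕ) (lev h) (p : ℕ) i.castSucc = _
  rw [Fin.snoc_castSucc]

theorem lev_le {n : ℕ} (h : Hist r n) (l : Fin (n + 1)) : lev h l ≤ r := by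
  induction n with
  | zero => exact Nat.zero_le _
  | succ n ih =>
    obtain ⟨h, l0, p⟩ := h
    refine Fin.lastCases ?_ (fun i => ?_) l
    · rw [histB_lev_last]; exact Nat.le_of_lt_succ p.2
    · rw [histB_lev_cast]; exact ih h i

theorem hP_nonneg {m : Fin r → ℝ} (hm : Adm m) {n : ℕ} (h : Hist r n) : 0 ≤ hP m h := by
  induction n with
  | zero => exact zero_le_one
  | succ n ih =>
    obtain ⟨h, l0, p⟩ := h
    exact mul_nonneg (ih h) (div_nonneg (acoef_nonneg hm _ _) (by positivity))

theorem sum_hP (m : Fin r → ℝ) (n : ℕ) : ∑ h : Hist r n, hP m h = 1 := by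
  induction n with
  | zero => rw [sum_hist_zero]; rfl
  | succ n ih =>
    rw [sum_hist_succ, ← ih]
    refine Finset.sum_congr rfl fun h _ => ?_
    have h1 : ∀ l : Fin (n + 1), ∑ p : Fin (r + 1), hP m (n := n + 1) (h, l, p) =
        hP m h / (n + 1) := by
      intro l
      have h2 : ∀ p : Fin (r + 1), hP m (n := n + 1) (h, l, p) =
          hP m h / (n + 1) * acoef m (lev h l) p := by
        intro p
        show hP m h * (acoef m (lev h l) p / (n + 1)) = _
        ring
      rw [Finset.sum_congr rfl fun p _ => h2 p, ← Finset.mul_sum, sum_acoef m (lev_le h l),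
        mul_one]
    rw [Finset.sum_congr rfl fun l _ => h1 l, Finset.sum_const, Finset.card_univ,
      Fintype.card_fin, nsmul_eq_mul]
    have h3 : (n : ℝ) + 1 ≠ 0 := by positivity
    push_cast
    field_simp

theorem histB_cc {n : ℕ} (d : Fin n → Fin n → ℕ) (π : Fin n → ℕ) (i j : Fin n) :
    extPat r d π i.castSucc j.castSucc = d i j := by
  simp [extPat]

theorem histB_cl {n : ℕ} (d : Fin n → Fin n → ℕ) (π : Fin n → ℕ) (i : Fin n) :
    extPat r d π i.castSucc (Fin.last n) = π i := by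
  simp [extPat]

theorem histB_lc {n : ℕ} (d : Fin n → Fin n → ℕ) (π : Fin n → ℕ) (i : Fin n) :
    extPat r d π (Fin.last n) i.castSucc = π i := by
  simp [extPat]

theorem histB_ll {n : ℕ} (d : Fin n → Fin n → ℕ) (π : Fin n → ℕ) :
    extPat r d π (Fin.last n) (Fin.last n) = r := by
  simp [extPat]

theorem up_extPat {n : ℕ} {d : Fin n → Fin n → ℕ} (hd : UP r d) (l : Fin n) {p : ℕ} (hp : p ≤ r) :
    UP r (extPat r d fun l' => min p (d l l')) := by
  obtain ⟨h1, h2, h3, h4⟩ := hd
  refine ⟨fun i => ?_, fun i j => ?_, fun i j => ?_, fun i j k => ?_⟩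
  · refine Fin.lastCases ?_ (fun i => ?_) i
    · rw [histB_ll]
    · rw [histB_cc, h1]
  · refine Fin.lastCases ?_ (fun i => ?_) i <;> refine Fin.lastCases ?_ (fun j => ?_) j <;>
      simp only [histB_cc, histB_cl, histB_lc, histB_ll]
    exact h2 _ _
  · refine Fin.lastCases ?_ (fun i => ?_) i <;> refine Fin.lastCases ?_ (fun j => ?_) j <;>
      simp only [histB_cc, histB_cl, histB_lc, histB_ll]
    · exact le_rfl
    · omega
    · omega
    · exact h3 _ _
  · refine Fin.lastCases ?_ (fun i => ?_) i <;> refine Fin.lastCases ?_ (fun j => ?_) j <;>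
      refine Fin.lastCases ?_ (fun k => ?_) k <;>
      simp only [histB_cc, histB_cl, histB_lc, histB_ll]
    · omega
    · omega
    · omega
    · have := h4 l j k; omega
    · omega
    · have := h4 l i k; omega
    · have := h4 i j l; have := h2 l i; have := h2 l j; omega
    · exact h4 _ _ _

theorem up_pat {n : ℕ} (h : Hist r n) : UP r (pat h) := by
  induction n with
  | zero => exact ⟨fun _ => rfl, fun _ _ => rfl, fun _ _ => le_rfl, fun _ _ _ => min_le_left _ _⟩
  | succ n ih =>
    obtain ⟨h, l0, p⟩ := h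
    exact up_extPat (ih h) l0 (Nat.le_of_lt_succ p.2)

theorem histB_jlev_cast {n : ℕ} (d : Fin n → Fin n → ℕ) (π : Fin n → ℕ) (l : Fin n) :
    jlev (extPat r d π) l.castSucc = jlev d l := by
  refine le_antisymm (Finset.sup_le fun i hi => ?_) (Finset.sup_le fun i hi => ?_)
  · have h1 : i < l.castSucc := (Finset.mem_filter.1 hi).2
    obtain ⟨i', rfl⟩ := Fin.exists_castSucc_eq.2 (Fin.ne_last_of_lt h1)
    rw [histB_cc]
    exact Finset.le_sup (f := d l)
      (Finset.mem_filter.2 ⟨Finset.mem_univ _, Fin.castSucc_lt_castSucc_iff.1 h1⟩)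
  · have h1 : i < l := (Finset.mem_filter.1 hi).2
    rw [← histB_cc (r := r) d π l i]
    exact Finset.le_sup (f := extPat r d π l.castSucc)
      (Finset.mem_filter.2 ⟨Finset.mem_univ _, Fin.castSucc_lt_castSucc_iff.2 h1⟩)

theorem histB_jlev_last {n : ℕ} (d : Fin n → Fin n → ℕ) (π : Fin n → ℕ) :
    jlev (extPat r d π) (Fin.last n) = Finset.univ.sup π := by
  refine le_antisymm (Finset.sup_le fun i hi => ?_) (Finset.sup_le fun i _ => ?_)
  · have h1 : i < Fin.last n := (Finset.mem_filter.1 hi).2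
    obtain ⟨i', rfl⟩ := Fin.exists_castSucc_eq.2 (Fin.ne_last_of_lt h1)
    rw [histB_lc]
    exact Finset.le_sup (f := π) (Finset.mem_univ _)
  · rw [← histB_lc (r := r) d π i]
    exact Finset.le_sup (f := extPat r d π (Fin.last n))
      (Finset.mem_filter.2 ⟨Finset.mem_univ _, Fin.castSucc_lt_last i⟩)

theorem lev_eq_jlev {n : ℕ} (h : Hist r n) (l : Fin (n + 1)) : lev h l = jlev (pat h) l := by
  induction n with
  | zero =>
    refine le_antisymm (Nat.zero_le _) (Finset.sup_le fun i hi => ?_)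
    have h1 := (Finset.mem_filter.1 hi).2
    have h2 := l.2
    have h3 : (i : ℕ) < l := h1
    omega
  | succ n ih =>
    obtain ⟨h, l0, p⟩ := h
    have hp : (p : ℕ) ≤ r := Nat.le_of_lt_succ p.2
    show _ = jlev (extPat r (pat h) fun l => min (p : ℕ) (pat h l0 l)) l
    refine Fin.lastCases ?_ (fun i => ?_) l
    · rw [histB_lev_last, histB_jlev_last]
      refine le_antisymm ?_ (Finset.sup_le fun i _ => min_le_left _ _)
      refine le_trans ?_ (Finset.le_sup (f := fun l => min (p : ℕ) (pat h l0 l))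
        (Finset.mem_univ l0))
      show (p : ℕ) ≤ min (p : ℕ) (pat h l0 l0)
      rw [(up_pat h).1 l0]; omega
    · rw [histB_lev_cast, histB_jlev_cast]; exact ih h i

/-- every ultrametric pattern on `n + 2` points extends its restriction in the standard way -/
theorem up_eq_extPat {n : ℕ} {d : Fin (n + 2) → Fin (n + 2) → ℕ} (hd : UP r d) :
    UP r (fun i j : Fin (n + 1) => d i.castSucc j.castSucc) ∧
    ∃ (l : Fin (n + 1)) (p : Fin (r + 1)),
      (fun i : Fin (n + 1) => d i.castSucc (Fin.last (n + 1))) =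
        (fun l' => min (p : ℕ) (d l.castSucc l'.castSucc)) ∧
      d = extPat r (fun i j : Fin (n + 1) => d i.castSucc j.castSucc)
        (fun i => d i.castSucc (Fin.last (n + 1))) := by
  obtain ⟨h1, h2, h3, h4⟩ := hd
  refine ⟨⟨fun i => h1 _, fun i j => h2 _ _, fun i j => h3 _ _, fun i j k => h4 _ _ _⟩, ?_⟩
  obtain ⟨l, -, hl⟩ := Finset.exists_max_image (Finset.univ : Finset (Fin (n + 1)))
    (fun i => d i.castSucc (Fin.last (n + 1))) Finset.univ_nonempty
  refine ⟨l, ⟨d l.castSucc (Fin.last (n + 1)), Nat.lt_succ_of_le (h3 _ _)⟩, ?_, ?_⟩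
  · funext i
    have a1 : d i.castSucc (Fin.last (n + 1)) ≤ d l.castSucc (Fin.last (n + 1)) :=
      hl i (Finset.mem_univ _)
    have a2 := h4 i.castSucc (Fin.last (n + 1)) l.castSucc
    have a3 := h4 l.castSucc i.castSucc (Fin.last (n + 1))
    have a4 := h2 i.castSucc l.castSucc
    have a5 := h2 (Fin.last (n + 1)) l.castSucc
    show d i.castSucc (Fin.last (n + 1)) =
      min (d l.castSucc (Fin.last (n + 1))) (d l.castSucc i.castSucc)
    omega
  · funext i j
    refine Fin.lastCases ?_ (fun i => ?_) i <;> refine Fin.lastCases ?_ (fun j => ?_) j <;>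
      simp only [histB_cc, histB_cl, histB_lc, histB_ll]
    · exact h1 _
    · exact h2 _ _

theorem extPat_inj {n : ℕ} {d d' : Fin n → Fin n → ℕ} {π π' : Fin n → ℕ}
    (h : extPat r d π = extPat r d' π') : d = d' ∧ π = π' := by
  refine ⟨funext fun i => funext fun j => ?_, funext fun i => ?_⟩
  · have := congrFun (congrFun h i.castSucc) j.castSucc
    rwa [histB_cc, histB_cc] at this
  · have := congrFun (congrFun h i.castSucc) (Fin.last n)
    rwa [histB_cl, histB_cl] at this

theorem histB_jlev_le {n : ℕ} {d : Fin n → Fin n → ℕ} (hd : UP r d) (l : Fin n) :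
    jlev d l ≤ r :=
  Finset.sup_le fun i _ => hd.2.2.1 l i

theorem histB_tail (m : Fin r → ℝ) {j p : ℕ} (hj : j ≤ r) (hp : p ≤ r) :
    ∑ p' : Fin (r + 1), acoef m j p' * (if p ≤ (p' : ℕ) then 1 else 0) =
      1 - if j < p then mm m p else 0 := by
  have h := abel_acoef m hj (fun q => if p ≤ q then (1 : ℝ) else 0)
  refine h.trans ?_
  rw [if_pos hp, Finset.sum_filter, Finset.sum_eq_single (⟨p, Nat.lt_succ_of_le hp⟩ : Fin (r + 1))]
  · show (1 : ℝ) - (if j < p then mm m p * ((if p ≤ p then 1 else 0) -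
      (if p ≤ p - 1 then 1 else 0)) else 0) = _
    by_cases hjp : j < p
    · rw [if_pos hjp, if_pos hjp, if_pos le_rfl, if_neg (by omega)]; ring
    · rw [if_neg hjp, if_neg hjp]
  · intro q _ hq
    have h1 : (q : ℕ) ≠ p := fun h => hq (Fin.ext h)
    by_cases hjq : j < (q : ℕ)
    · rw [if_pos hjq]
      by_cases h2 : p ≤ (q : ℕ)
      · rw [if_pos h2, if_pos (by omega)]; ring
      · rw [if_neg h2, if_neg (by omega)]; ring
    · rw [if_neg hjq]
  · intro h; exact absurd (Finset.mem_univ _) h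

theorem histB_star {n : ℕ} {d : Fin n → Fin n → ℕ} (hd : UP r d) (l : Fin n) {p : ℕ}
    (hp : p ≤ r) : ∃ s, p ≤ d l s ∧ (∀ i, p ≤ d l i → s ≤ i) ∧ (jlev d s < p ∨ p = 0) := by
  have hl : p ≤ d l l := by rw [hd.1]; exact hp
  obtain ⟨s, hs, hmin⟩ := Finset.exists_min_image (Finset.univ.filter fun i => p ≤ d l i) id
    ⟨l, Finset.mem_filter.2 ⟨Finset.mem_univ _, hl⟩⟩
  have hs' : p ≤ d l s := (Finset.mem_filter.1 hs).2
  have hmin' : ∀ i, p ≤ d l i → s ≤ i := fun i hi =>
    hmin i (Finset.mem_filter.2 ⟨Finset.mem_univ _, hi⟩)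
  refine ⟨s, hs', hmin', ?_⟩
  rcases Nat.eq_zero_or_pos p with h0 | h0
  · exact Or.inr h0
  · left
    refine (Finset.sup_lt_iff (show (⊥ : ℕ) < p from h0)).2 fun i hi => ?_
    have b1 : i < s := (Finset.mem_filter.1 hi).2
    by_contra hc
    have a1 := hd.2.2.2 l i s
    have a2 := hd.2.1 i s
    exact absurd (hmin' i (by omega)) (not_le.2 b1)

theorem kap_marg {m : Fin r → ℝ} {n : ℕ} {d : Fin (n + 1) → Fin (n + 1) → ℕ} (hd : UP r d)
    (l : Fin (n + 1)) {p : ℕ} (hp : p ≤ r) :
    ∑ l' : Fin (n + 1), ∑ p' : Fin (r + 1),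
        acoef m (jlev d l') p' * (if p ≤ min (p' : ℕ) (d l' l) then 1 else 0) =
      (((Finset.univ.erase l).filter fun l' => p ≤ d l l').card : ℝ) + (1 - mm m p) := by
  obtain ⟨s, hs, hmin, hj⟩ := histB_star hd l hp
  have hl : p ≤ d l l := by rw [hd.1]; exact hp
  have h1 : ∀ l' : Fin (n + 1), ∑ p' : Fin (r + 1),
      acoef m (jlev d l') p' * (if p ≤ min (p' : ℕ) (d l' l) then 1 else 0) =
      (if p ≤ d l l' then 1 else 0) - (if l' = s then mm m p else 0) := by
    intro l'
    by_cases hc : p ≤ d l l'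
    · have h2 : ∀ p' : Fin (r + 1), (if p ≤ min (p' : ℕ) (d l' l) then (1 : ℝ) else 0) =
          if p ≤ (p' : ℕ) then 1 else 0 := by
        intro p'
        have := hd.2.1 l l'
        refine if_congr ?_ rfl rfl
        omega
      simp only [h2]
      rw [histB_tail m (histB_jlev_le hd l') hp, if_pos hc]
      by_cases hls : l' = s
      · subst hls
        rw [if_pos rfl]
        rcases hj with hj | hj
        · rw [if_pos hj]
        · subst hj; simp [mm_zero]
      · rw [if_neg hls, if_neg]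
        have a1 : s < l' := lt_of_le_of_ne (hmin l' hc) (Ne.symm hls)
        have a2 : d l' s ≤ jlev d l' :=
          Finset.le_sup (f := d l') (Finset.mem_filter.2 ⟨Finset.mem_univ _, a1⟩)
        have a3 := hd.2.2.2 l' s l
        have a4 := hd.2.1 l l'
        have a5 := hd.2.1 l s
        omega
    · have hls : l' ≠ s := fun h => hc (h ▸ hs)
      rw [if_neg hc, if_neg hls, sub_zero]
      refine Finset.sum_eq_zero fun p' _ => ?_
      rw [if_neg, mul_zero]
      have := hd.2.1 l l'
      omega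
  rw [Finset.sum_congr rfl fun l' _ => h1 l', Finset.sum_sub_distrib, Finset.sum_ite_eq',
    if_pos (Finset.mem_univ _), ← Finset.add_sum_erase _ _ (Finset.mem_univ l), if_pos hl,
    Finset.sum_boole]
  ring

theorem kap_pos {m : Fin r → ℝ} (hm : Adm m) {n : ℕ} {d : Fin (n + 1) → Fin (n + 1) → ℕ}
    (hd : UP r d) (l : Fin (n + 1)) {p : ℕ} (hp : p ≤ r) :
    0 < kap m d fun l' => min p (d l l') := by
  obtain ⟨s, hs, hmin, hj⟩ := histB_star hd l hp
  have hn : (0 : ℝ) < n + 1 := by positivity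
  have h0 : ∀ (l1 : Fin (n + 1)) (p1 : Fin (r + 1)), 0 ≤ acoef m (jlev d l1) p1 / (n + 1) *
      (if (fun l' => min p (d l l')) = fun l' => min (p1 : ℕ) (d l1 l') then 1 else 0) := by
    intro l1 p1
    refine mul_nonneg (div_nonneg (acoef_nonneg hm _ _) hn.le) ?_
    split_ifs
    · exact zero_le_one
    · exact le_rfl
  unfold kap
  refine Finset.sum_pos' (fun l1 _ => Finset.sum_nonneg fun p1 _ => h0 l1 p1)
    ⟨s, Finset.mem_univ _, Finset.sum_pos' (fun p1 _ => h0 s p1)
      ⟨⟨p, Nat.lt_succ_of_le hp⟩, Finset.mem_univ _, ?_⟩⟩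
  have h1 : (fun l' => min p (d l l')) = fun l' => min p (d s l') := by
    funext i
    have a1 := hd.2.2.2 l i s
    have a2 := hd.2.2.2 s i l
    have a3 := hd.2.1 l s
    have a4 := hd.2.1 i s
    have a5 := hd.2.1 i l
    omega
  rw [if_pos h1, mul_one]
  refine div_pos ?_ hn
  show 0 < acoef m (jlev d s) p
  have a1 := mm_lt hm hp
  have a2 := (mm_mem hm p).1
  have a3 : jlev d s ≤ p := by
    rcases hj with hj | hj
    · exact hj.le
    · refine Finset.sup_le fun i hi => ?_
      have b1 : i < s := (Finset.mem_filter.1 hi).2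
      exact absurd (hmin i (by omega)) (not_le.2 b1)
  unfold acoef
  rw [if_neg (by omega)]
  split_ifs
  · linarith
  · linarith

end Vale.Agent.P168
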