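import Vale.Agent.P168.OneC

/-! P168 Hybrid: replacing the site terms by mixed clauses one at a time.
Plan. `|hyb| ≤ N log 2 + ∑ |h i| + ∑ ‖theta (c a).1‖` (`abs_fT_le`, `siteFac_pos`), measurable by
`measurable_fT` (dependence on the finite coordinates: `measurable_from_prod_countable`-type
lemmas). `hyb_step`: swap the integrals (`integral_integral_swap`), apply `integral_pi_update` at
the coordinate `a0 = ⟨i, _⟩` on both sides; for fixed `h, c` pull the factor `a0` out of the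
product (`Finset.mul_prod_erase`), the rest `b s w` is positive and `SlotDep` on the complement of
the range of `slot j = (a0, j)`; apply `one_step` and `integral_mono`. -/

open MeasureTheory ProbabilityTheory Function Filter Topology
open scoped BigOperators

noncomputable section

namespace Vale.Agent.P168

variable {K N r : ℕ} {A : Type} [Fintype A]

theorem isProb_QE (hK : 1 ≤ K) (hN : 1 ≤ N) {Q : Measure (Par K)} [IsProbabilityMeasure Q] :
    IsProbabilityMeasure (QE K N Q) := by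
  have : Nonempty (Fin N) := ⟨⟨0, hN⟩⟩
  have : Nonempty (Fin K) := ⟨⟨0, hK⟩⟩
  unfold QE
  infer_instance

/-- the factor of one event -/
def hybF {k : ℕ} (x : (Fin (r + 1) → A) → ℝ) (w : Fin (r + 1) → Fin k × Fin K → A) (a : Fin k)
    (i : ℕ) (e : Evt K N) (s : Fin N → Bool) : ℝ :=
  if (a : ℕ) < i then Real.exp (mixF e s) else
    siteFac e.1 e.2.2 (s (e.2.1 e.2.2)) fun j => x fun p => w p (a, j)

omit [Fintype A] in
theorem hybF_pos {k : ℕ} {x : (Fin (r + 1) → A) → ℝ} (hx : ∀ w, |x w| ≤ 1)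
    (w : Fin (r + 1) → Fin k × Fin K → A) (a : Fin k) (i : ℕ) (e : Evt K N) (s : Fin N → Bool) :
    0 < hybF x w a i e s ∧ |Real.log (hybF x w a i e s)| ≤ ‖theta e.1‖ := by
  unfold hybF
  split_ifs
  · refine ⟨Real.exp_pos _, ?_⟩
    rw [Real.log_exp]
    unfold mixF
    split_ifs
    · exact norm_le_pi_norm (theta e.1) _
    · simp
  · exact siteFac_pos _ _ _ fun j => hx _

omit [Fintype A] in
theorem hybF_meas {k : ℕ} (x : (Fin (r + 1) → A) → ℝ) (w : Fin (r + 1) → Fin k × Fin K → A)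
    (a : Fin k) (i : ℕ) (s : Fin N → Bool) : Measurable fun e : Evt K N => hybF x w a i e s := by
  refine measurable_from_prod_countable_left fun d => ?_
  unfold hybF mixF
  by_cases h1 : (a : ℕ) < i
  · by_cases h2 : (d.2 : ℕ) = 0
    · simp only [h1, h2, if_true]
      exact ((measurable_pi_apply _).comp measurable_theta).exp
    · simp only [h1, h2, if_true, if_false]
      exact measurable_const
  · simp only [h1, if_false]
    exact measurable_siteFac _ _ _

theorem hyb_log_sum {T : (Fin N → Bool) → ℝ} {δ : ℝ} (h0 : ∀ s, 0 < T s)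
    (h1 : ∀ s, |Real.log (T s)| ≤ δ) : |Real.log (∑ s, T s)| ≤ N * Real.log 2 + δ := by
  have hp : 0 < ∑ s, T s := Finset.sum_pos (fun s _ => h0 s) Finset.univ_nonempty
  have h2 : T (fun _ => true) ≤ ∑ s, T s :=
    Finset.single_le_sum (fun s _ => (h0 s).le) (Finset.mem_univ _)
  have h3 : ∑ s, T s ≤ 2 ^ N * Real.exp δ := by
    refine (Finset.sum_le_card_nsmul _ _ _ fun s _ => (oneC_exp (h0 s) (h1 s)).2).trans ?_
    simp
  have h4 := Real.log_le_log (h0 _) h2
  have h5 := Real.log_le_log hp h3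
  rw [Real.log_mul (by positivity) (Real.exp_pos _).ne', Real.log_exp, Real.log_pow] at h5
  have h6 : 0 ≤ N * Real.log 2 := mul_nonneg (Nat.cast_nonneg N) (Real.log_nonneg one_le_two)
  rw [abs_le]
  constructor <;> linarith [(abs_le.1 (h1 fun _ => true)).1]

theorem abs_hyb_le {μ : A → ℝ} (hμ : IsPr μ) {m : Fin r → ℝ} (hm : Adm m)
    {x : (Fin (r + 1) → A) → ℝ} (hx : ∀ w, |x w| ≤ 1) {k : ℕ} (i : ℕ) (c : Fin k → Evt K N)
    (h : Fin N → ℝ) :
    |hyb μ m x i c h| ≤ N * Real.log 2 + ∑ i', |h i'| + ∑ a, ‖theta (c a).1‖ := by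
  have h1 : ∀ (w : Fin (r + 1) → Fin k × Fin K → A) (s : Fin N → Bool),
      0 < Real.exp (∑ i', h i' * spin (s i')) * ∏ a : Fin k, hybF x w a i (c a) s ∧
      |Real.log (Real.exp (∑ i', h i' * spin (s i')) * ∏ a : Fin k, hybF x w a i (c a) s)| ≤
        ∑ i', |h i'| + ∑ a, ‖theta (c a).1‖ := by
    intro w s
    have h2 : 0 < ∏ a : Fin k, hybF x w a i (c a) s :=
      Finset.prod_pos fun a _ => (hybF_pos hx w a i (c a) s).1
    refine ⟨mul_pos (Real.exp_pos _) h2, ?_⟩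
    rw [Real.log_mul (Real.exp_pos _).ne' h2.ne', Real.log_exp,
      Real.log_prod fun a _ => (hybF_pos hx w a i (c a) s).1.ne']
    refine (abs_add_le _ _).trans (add_le_add ?_ ?_)
    · refine (Finset.abs_sum_le_sum_abs _ _).trans (Finset.sum_le_sum fun i' _ => ?_)
      rw [abs_mul, abs_spin, mul_one]
    · exact (Finset.abs_sum_le_sum_abs _ _).trans
        (Finset.sum_le_sum fun a _ => (hybF_pos hx w a i (c a) s).2)
  rw [add_assoc]
  exact abs_fT_le (isPr_cw hμ) hm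
    (fun w => Finset.sum_pos (fun s _ => (h1 w s).1) Finset.univ_nonempty)
    fun w => hyb_log_sum (fun s => (h1 w s).1) fun s => (h1 w s).2

theorem hyb_meas (μ : A → ℝ) (m : Fin r → ℝ) (x : (Fin (r + 1) → A) → ℝ) (k i : ℕ) :
    Measurable fun p : (Fin k → Evt K N) × (Fin N → ℝ) => hyb μ m x i p.1 p.2 :=
  measurable_fT _ _ fun w => Finset.measurable_sum _ fun s _ => Measurable.mul (by fun_prop)
    (Finset.measurable_prod _ fun a _ =>
      (hybF_meas x w a i s).comp ((measurable_pi_apply a).comp measurable_fst))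

theorem hyb_bound (hK : 1 ≤ K) (hN : 1 ≤ N) {Q : Measure (Par K)} {Ph : Measure ℝ}
    (hM : Model K Q Ph) (k : ℕ) :
    Integrable (fun p : (Fin k → Evt K N) × (Fin N → ℝ) =>
      N * Real.log 2 + ∑ i', |p.2 i'| + ∑ a, ‖theta (p.1 a).1‖)
      ((Measure.pi fun _ : Fin k => QE K N Q).prod (Measure.pi fun _ : Fin N => Ph)) ∧
    ∫ p : (Fin k → Evt K N) × (Fin N → ℝ),
      N * Real.log 2 + ∑ i', |p.2 i'| + ∑ a, ‖theta (p.1 a).1‖
      ∂((Measure.pi fun _ : Fin k => QE K N Q).prod (Measure.pi fun _ : Fin N => Ph)) =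
      N * Real.log 2 + N * ∫ h, |h| ∂Ph + k * ∫ q, ‖theta q‖ ∂Q := by
  have := hM.1
  have := hM.2.1
  have := isProb_QE hK hN (Q := Q)
  have : Nonempty (Fin N) := ⟨⟨0, hN⟩⟩
  have : Nonempty (Fin K) := ⟨⟨0, hK⟩⟩
  have hθ : Integrable (fun e : Evt K N => ‖theta e.1‖) (QE K N Q) :=
    (integrable_norm_theta hM).comp_fst _
  have h1 := integrable_sum_eval (ι := Fin N) Ph hM.2.2.2.2.abs
  have h2 := integrable_sum_eval (ι := Fin k) _ hθ
  have h3 := h1.1.comp_snd (Measure.pi fun _ : Fin k => QE K N Q)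
  have h4 := h2.1.comp_fst (Measure.pi fun _ : Fin N => Ph)
  have h5 : Integrable (fun p : (Fin k → Evt K N) × (Fin N → ℝ) =>
      N * Real.log 2 + ∑ i', |p.2 i'|)
      ((Measure.pi fun _ : Fin k => QE K N Q).prod (Measure.pi fun _ : Fin N => Ph)) :=
    (integrable_const _).add h3
  refine ⟨h5.add h4, ?_⟩
  have h6 : ∫ e : Evt K N, ‖theta e.1‖ ∂QE K N Q = ∫ q, ‖theta q‖ ∂Q := by
    unfold QE
    rw [integral_fun_fst (fun q : Par K => ‖theta q‖)]
    simp
  rw [integral_add h5 h4, integral_add (integrable_const _) h3,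
    integral_fun_snd (fun h : Fin N → ℝ => ∑ i', |h i'|),
    integral_fun_fst (fun c : Fin k → Evt K N => ∑ a, ‖theta (c a).1‖), h1.2, h2.2, h6]
  simp

theorem integrable_hyb (hK : 1 ≤ K) (hN : 1 ≤ N) {Q : Measure (Par K)} {Ph : Measure ℝ}
    (hM : Model K Q Ph) {μ : A → ℝ} (hμ : IsPr μ) {m : Fin r → ℝ} (hm : Adm m)
    {x : (Fin (r + 1) → A) → ℝ} (hx : ∀ w, |x w| ≤ 1) (k i : ℕ) :
    Integrable (fun p : (Fin k → Evt K N) × (Fin N → ℝ) => hyb μ m x i p.1 p.2)
      ((Measure.pi fun _ : Fin k => QE K N Q).prod (Measure.pi fun _ : Fin N => Ph)) := by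
  have := hM.1
  have := hM.2.1
  have := isProb_QE hK hN (Q := Q)
  exact (hyb_bound hK hN hM k).1.mono' (hyb_meas μ m x k i).aestronglyMeasurable
    (ae_of_all _ fun p => abs_hyb_le hμ hm hx i p.1 p.2)

theorem lin_hybI (hK : 1 ≤ K) (hN : 1 ≤ N) {Q : Measure (Par K)} {Ph : Measure ℝ}
    (hM : Model K Q Ph) {μ : A → ℝ} (hμ : IsPr μ) {m : Fin r → ℝ} (hm : Adm m)
    {x : (Fin (r + 1) → A) → ℝ} (hx : ∀ w, |x w| ≤ 1) (f : ℕ → ℕ) :
    Lin fun k => hybI K N Q Ph μ m x k (f k) := by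
  have := hM.1
  have := hM.2.1
  have := isProb_QE hK hN (Q := Q)
  have h1 : 0 ≤ N * Real.log 2 + N * ∫ h, |h| ∂Ph :=
    add_nonneg (mul_nonneg (Nat.cast_nonneg N) (Real.log_nonneg one_le_two))
      (mul_nonneg (Nat.cast_nonneg N) (integral_nonneg fun h => abs_nonneg h))
  have h2 : 0 ≤ ∫ q, ‖theta q‖ ∂Q := integral_nonneg fun q => norm_nonneg _
  refine ⟨N * Real.log 2 + N * ∫ h, |h| ∂Ph + ∫ q, ‖theta q‖ ∂Q, fun k => ?_⟩
  have h3 := integral_prod _ (integrable_hyb hK hN hM hμ hm hx k (f k))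
  have h4 := norm_integral_le_of_norm_le (hyb_bound hK hN hM k).1
    (f := fun p : (Fin k → Evt K N) × (Fin N → ℝ) => hyb μ m x (f k) p.1 p.2)
    (ae_of_all _ fun p => abs_hyb_le hμ hm hx (f k) p.1 p.2)
  rw [h3, (hyb_bound hK hN hM k).2] at h4
  refine le_trans h4 ?_
  have h5 : (0 : ℝ) ≤ k := Nat.cast_nonneg k
  nlinarith [mul_nonneg h1 h5]

theorem hyb_one (hK : 1 ≤ K) (he : Even K) (hN : 1 ≤ N) {Q : Measure (Par K)} {Ph : Measure ℝ}
    (hM : Model K Q Ph) (hP : Positive K Q) {μ : A → ℝ} (hμ : IsPr μ) {m : Fin r → ℝ}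
    (hm : Adm m) {x : (Fin (r + 1) → A) → ℝ} (hx : ∀ w, |x w| ≤ 1) {k i : ℕ} (hi : i < k)
    (c : Fin k → Evt K N) (h : Fin N → ℝ) :
    ∫ e, hyb μ m x (i + 1) (update c ⟨i, hi⟩ e) h ∂QE K N Q ≤
      ∫ e, hyb μ m x i (update c ⟨i, hi⟩ e) h ∂QE K N Q - (K - 1) / K * vval K Q μ m x := by
  have h1 := one_step hK he hN hM hP hμ hm hx (slot := fun j => ((⟨i, hi⟩ : Fin k), j))
    (fun j j' e => (Prod.ext_iff.1 e).2)
    (b := fun s w => Real.exp (∑ i', h i' * spin (s i')) *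
      ∏ a ∈ Finset.univ.erase ⟨i, hi⟩, hybF x w a i (c a) s)
    (fun s w => mul_pos (Real.exp_pos _) (Finset.prod_pos fun a _ => (hybF_pos hx w a i (c a) s).1))
    (fun s w w' hw => by
      refine congrArg _ (Finset.prod_congr rfl fun a ha => ?_)
      have : ∀ j, (fun p => w p (a, j)) = fun p => w' p (a, j) := fun j => funext fun p =>
        hw p _ fun ⟨j', e⟩ => (Finset.mem_erase.1 ha).1 (Prod.ext_iff.1 e).1.symm
      simp only [hybF, this])
  have h2 : ∀ (j : ℕ) (e : Evt K N), (∀ a : Fin k, a ≠ ⟨i, hi⟩ → ((a : ℕ) < j ↔ (a : ℕ) < i)) →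
      hyb μ m x j (update c ⟨i, hi⟩ e) h = fT (cw μ) m fun w => ∑ s,
        (Real.exp (∑ i', h i' * spin (s i')) *
          ∏ a ∈ Finset.univ.erase ⟨i, hi⟩, hybF x w a i (c a) s) * hybF x w ⟨i, hi⟩ j e s := by
    intro j e hj
    show (fT (cw μ) m fun w => ∑ s : Fin N → Bool, Real.exp (∑ i', h i' * spin (s i')) *
      ∏ a : Fin k, hybF x w a j (update c ⟨i, hi⟩ e a) s) = _
    congr 1
    funext w
    refine Finset.sum_congr rfl fun s _ => ?_
    rw [← Finset.prod_erase_mul _ _ (Finset.mem_univ ⟨i, hi⟩), update_self, mul_assoc]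
    congr 2
    refine Finset.prod_congr rfl fun a ha => ?_
    rw [update_of_ne (Finset.mem_erase.1 ha).1]
    unfold hybF
    exact if_congr (hj a (Finset.mem_erase.1 ha).1) rfl rfl
  have h3 : ∀ a : Fin k, a ≠ ⟨i, hi⟩ → ((a : ℕ) < i + 1 ↔ (a : ℕ) < i) := fun a ha => by
    have : (a : ℕ) ≠ i := fun e => ha (Fin.ext e)
    omega
  simp only [fun e => h2 (i + 1) e h3, fun e => h2 i e fun _ _ => Iff.rfl]
  have h4 : ∀ w (e : Evt K N) s, hybF x w ⟨i, hi⟩ (i + 1) e s = Real.exp (mixF e s) :=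
    fun w e s => if_pos (Nat.lt_succ_self i)
  have h5 : ∀ w (e : Evt K N) s, hybF x w ⟨i, hi⟩ i e s =
      siteFac e.1 e.2.2 (s (e.2.1 e.2.2)) fun j => x fun p => w p (⟨i, hi⟩, j) :=
    fun w e s => if_neg (lt_irrefl i)
  simp only [h4, h5]
  exact h1

theorem hyb_gen {α : Type} [MeasurableSpace α] {ν : Measure α} [IsProbabilityMeasure ν]
    {f g : α → ℝ} (hf : Integrable f ν) (hg : Integrable g ν) {κ : ℝ} (h : ∀ a, f a ≤ g a - κ) :
    ∫ a, f a ∂ν ≤ ∫ a, g a ∂ν - κ := by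
  have h2 := integral_mono hf (hg.sub (integrable_const κ)) h
  have h3 := integral_sub hg (integrable_const κ)
  simp only [Pi.sub_apply, integral_const, probReal_univ, one_smul] at h2 h3
  exact h2.trans h3.le

theorem hyb_int (hK : 1 ≤ K) (hN : 1 ≤ N) {Q : Measure (Par K)} {Ph : Measure ℝ}
    (hM : Model K Q Ph) {μ : A → ℝ} (hμ : IsPr μ) {m : Fin r → ℝ} (hm : Adm m)
    {x : (Fin (r + 1) → A) → ℝ} (hx : ∀ w, |x w| ≤ 1) (k j : ℕ) (h : Fin N → ℝ) :
    Integrable (fun c : Fin k → Evt K N => hyb μ m x j c h)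
      (Measure.pi fun _ : Fin k => QE K N Q) := by
  have := hM.1
  have := isProb_QE hK hN (Q := Q)
  have hθ : Integrable (fun e : Evt K N => ‖theta e.1‖) (QE K N Q) :=
    (integrable_norm_theta hM).comp_fst _
  have h1 : Measurable fun c : Fin k → Evt K N => (c, h) := measurable_id.prodMk measurable_const
  have h2 := (hyb_meas (K := K) (N := N) μ m x k j).comp h1
  have h3 := (integrable_const (N * Real.log 2 + ∑ i', |h i'|)).add
    (integrable_sum_eval (ι := Fin k) _ hθ).1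
  exact h3.mono' h2.aestronglyMeasurable (ae_of_all _ fun c => abs_hyb_le hμ hm hx j c h)

theorem hyb_two (hK : 1 ≤ K) (he : Even K) (hN : 1 ≤ N) {Q : Measure (Par K)} {Ph : Measure ℝ}
    (hM : Model K Q Ph) (hP : Positive K Q) {μ : A → ℝ} (hμ : IsPr μ) {m : Fin r → ℝ}
    (hm : Adm m) {x : (Fin (r + 1) → A) → ℝ} (hx : ∀ w, |x w| ≤ 1) {k i : ℕ} (hi : i < k)
    (h : Fin N → ℝ) :
    ∫ c, hyb μ m x (i + 1) c h ∂(Measure.pi fun _ : Fin k => QE K N Q) ≤
      ∫ c, hyb μ m x i c h ∂(Measure.pi fun _ : Fin k => QE K N Q) -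
        (K - 1) / K * vval K Q μ m x := by
  have := hM.1
  have := isProb_QE hK hN (Q := Q)
  have hI := fun j => hyb_int hK hN hM hμ hm hx k j h
  have hI2 := fun j => ((measurePreserving_update (QE K N Q)
    (⟨i, hi⟩ : Fin k)).integrable_comp_of_integrable (hI j)).integral_prod_left
  rw [integral_pi_update _ ⟨i, hi⟩ (hI (i + 1)), integral_pi_update _ ⟨i, hi⟩ (hI i)]
  exact hyb_gen (hI2 (i + 1)) (hI2 i) fun c => hyb_one hK he hN hM hP hμ hm hx hi c h

theorem hyb_step (hK : 1 ≤ K) (he : Even K) (hN : 1 ≤ N) {Q : Measure (Par K)} {Ph : Measure ℝ}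
    (hM : Model K Q Ph) (hP : Positive K Q) {μ : A → ℝ} (hμ : IsPr μ) {m : Fin r → ℝ}
    (hm : Adm m) {x : (Fin (r + 1) → A) → ℝ} (hx : ∀ w, |x w| ≤ 1) {k i : ℕ} (hi : i < k) :
    hybI K N Q Ph μ m x k (i + 1) ≤ hybI K N Q Ph μ m x k i - (K - 1) / K * vval K Q μ m x := by
  have := hM.1
  have := hM.2.1
  have := isProb_QE hK hN (Q := Q)
  have hJ := fun j => integrable_hyb hK hN hM hμ hm hx k j
  have h1 : ∀ j, hybI K N Q Ph μ m x k j = ∫ h, ∫ c, hyb μ m x j c h
      ∂(Measure.pi fun _ : Fin k => QE K N Q) ∂(Measure.pi fun _ : Fin N => Ph) := fun j =>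
    (integral_prod _ (hJ j)).symm.trans (integral_prod_symm _ (hJ j))
  rw [h1, h1]
  exact hyb_gen (hJ (i + 1)).integral_prod_right (hJ i).integral_prod_right
    fun h => hyb_two hK he hN hM hP hμ hm hx hi h

theorem hyb_total (hK : 1 ≤ K) (he : Even K) (hN : 1 ≤ N) {Q : Measure (Par K)} {Ph : Measure ℝ}
    (hM : Model K Q Ph) (hP : Positive K Q) {μ : A → ℝ} (hμ : IsPr μ) {m : Fin r → ℝ}
    (hm : Adm m) {x : (Fin (r + 1) → A) → ℝ} (hx : ∀ w, |x w| ≤ 1) (k : ℕ) :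
    hybI K N Q Ph μ m x k k ≤
      hybI K N Q Ph μ m x k 0 - k * ((K - 1) / K * vval K Q μ m x) := by
  have key : ∀ i, i ≤ k → hybI K N Q Ph μ m x k i ≤
      hybI K N Q Ph μ m x k 0 - i * ((K - 1) / K * vval K Q μ m x) := by
    intro i
    induction i with
    | zero => intro _; simp
    | succ i ih =>
      intro hi
      have h1 := hyb_step hK he hN hM hP hμ hm hx (k := k) (i := i) hi
      have h2 := ih (by omega)
      push_cast
      linarith
  exact key k le_rfl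

end Vale.Agent.P168
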