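import Vale.Agent.P168.Cons

/-! P168 LemD: duplication and Cauchy-Schwarz.
Plan. `dup_pos`: `ν (E ∩ copy) ≥ ν E / n` (`dup`), while by `ggi` with `S = Ici β`
`n ν (E ∩ {β ≤ B l n}) = ν E * ν {β ≤ B 0 1} < ν E` (the old terms vanish; `ν {B 0 1 < β} > 0`
because `E ⊆ {B l l' < β}` and exchangeability). For reals `x1 > x2`, `β, β', γ` and disjoint
finsets `G, G'` with `range p ∪ G ∪ G' = range n` let `EV G G'` be the event: `x l > x1` on `G`,
`x l < x2` on `G'`, `B l i < β` for `l ∈ G`, `i < n`, `i ≠ l`, `B l i < β'` for `l ∈ G'`, `i < n`,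
`i ≠ l`, `γ < B l l'` for `l ∈ G`, `l' ∈ G'`. For `l0 ∈ G`,
`EV G G' ∩ act (swap l0 n) ⁻¹' EV G G' ∩ {B l0 n < β} ⊆ EV (insert n G) G'`, symmetrically for
`G'`. So positive probability propagates from `({p}, {p+1})` to `|G| = |G'| = m`; there `QF ≥ 0`
with `η = 1` on `G`, `-1` on `G'`, `t = -∑ η x` gives
`m^2 (x1 - x2)^2 ≤ 2 m + m (m-1) (β + β') - 2 m^2 γ`, impossible for large `m` if
`(x1 - x2)^2 > β + β' - 2 γ` (use `|β|, |β'|` bounds only through `m → ∞`). Hence these events are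
null for all rational parameters (both orders of the two points), which gives the claim. -/

open MeasureTheory ProbabilityTheory Function Filter Topology
open scoped BigOperators

noncomputable section

namespace Vale.Agent.P168

variable {ν : Measure X}

theorem dup_pos (h : Str ν) {B : ℕ → ℕ → X → ℝ} (hB : Pair B) {n l : ℕ} (hn : 2 ≤ n) (hl : l < n)
    {E : Set X} (hE : IsF n E) (h0 : 0 < ν.real E) {β : ℝ}
    (hβ : ∀ ω ∈ E, ∀ l' < n, l' ≠ l → B l l' ω < β) :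
    0 < ν.real (E ∩ act (Equiv.swap l n) ⁻¹' E ∩ {ω | B l n ω < β}) := by
  have := h.1
  have h1 := dup h hn hl hE
  have h2 := ggi h hB hl hE (S := Set.Ici β) measurableSet_Ici
  have h3 : ∑ l' ∈ (Finset.range n).erase l, ν.real (E ∩ {ω | B l l' ω ∈ Set.Ici β}) = 0 := by
    refine Finset.sum_eq_zero fun l' hl' => ?_
    rw [Finset.mem_erase, Finset.mem_range] at hl'
    have : E ∩ {ω | B l l' ω ∈ Set.Ici β} = ∅ := by
      ext ω
      refine ⟨fun hω => ?_, fun hω => hω.elim⟩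
      exact absurd (hβ ω hω.1 l' hl'.2 hl'.1) (not_lt.2 hω.2)
    rw [this, measureReal_empty]
  rw [h3, zero_add] at h2
  obtain ⟨l', hl1, hl2⟩ : ∃ l', l' < n ∧ l' ≠ l := by
    by_cases hc : l = 0
    · exact ⟨1, by omega, by omega⟩
    · exact ⟨0, by omega, by omega⟩
  have hf : Injective (fun a : Fin 2 => (a : ℕ)) := Fin.val_injective
  have hg : Injective (![l, l'] : Fin 2 → ℕ) := by
    intro a b hab
    fin_cases a <;> fin_cases b <;> simp_all [eq_comm]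
  obtain ⟨e, he⟩ := Equiv.Perm.exists_extending_pair _ _ hf hg
  have e0 : e 0 = l := he 0
  have e1 : e 1 = l' := he 1
  have hm : MeasurableSet {ω | B 0 1 ω ∈ Set.Ici β} := hB.1 0 1 measurableSet_Ici
  have h4 : ν.real E ≤ ν.real {ω | B 0 1 ω ∈ Set.Ici β}ᶜ := by
    rw [← real_preimage_act h e hm.compl]
    refine measureReal_mono fun ω hω => ?_
    show ¬ β ≤ B 0 1 (act e ω)
    rw [hB.2.2.1, e0, e1]
    exact not_le.2 (hβ ω hω l' hl1 hl2)
  rw [probReal_compl_eq_one_sub hm] at h4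
  have h5 : ν.real (E ∩ act (Equiv.swap l n) ⁻¹' E) ≤
      ν.real (E ∩ act (Equiv.swap l n) ⁻¹' E ∩ {ω | B l n ω < β}) +
        ν.real (E ∩ {ω | B l n ω ∈ Set.Ici β}) := by
    refine le_trans (measureReal_mono fun ω hω => ?_) (measureReal_union_le _ _)
    rcases lt_or_ge (B l n ω) β with hc | hc
    · exact Or.inl ⟨hω, hc⟩
    · exact Or.inr ⟨hω.1, hc⟩
  have hn0 : (0 : ℝ) < n := by exact_mod_cast (by omega : 0 < n)
  have h6 := mul_le_mul_of_nonneg_left h5 hn0.le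
  have h7 := mul_pos h0 (h0.trans_le h4)
  refine (mul_pos_iff_of_pos_left hn0).1 ?_
  nlinarith

/-- the duplicated events -/
def lemD_EV (B : ℕ → ℕ → X → ℝ) (x : ℕ → X → ℝ) (p : ℕ) (σ : ℕ → Bool) (T : Bool → Set ℝ)
    (b : Bool → ℝ) (γ : ℝ) (n : ℕ) : Set X :=
  {ω | (∀ l, p ≤ l → l < n → x l ω ∈ T (σ l)) ∧
    (∀ l i, p ≤ l → l < n → i < n → i ≠ l → B l i ω < b (σ l)) ∧
    ∀ l l', p ≤ l → l < n → p ≤ l' → l' < n → σ l ≠ σ l' → γ < B l l' ω}

theorem lemD_isF {B : ℕ → ℕ → X → ℝ} (hB : Pair B) {p : ℕ} {x : ℕ → X → ℝ}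
    (hxm : ∀ l, Measurable (x l))
    (hxr : ∀ n l ω, p ≤ n → l < n → x l (res n ω) = x l ω) (σ : ℕ → Bool) {T : Bool → Set ℝ}
    (hT : ∀ s, MeasurableSet (T s)) (b : Bool → ℝ) (γ : ℝ) {n : ℕ} (hn : p ≤ n) :
    IsF n (lemD_EV B x p σ T b γ n) := by
  refine ⟨measurableSet_setOfPred.2 (Measurable.and ?_ (Measurable.and ?_ ?_)), fun ω => ?_⟩
  · exact Measurable.forall fun l => measurable_const.imp (measurable_const.imp
      (measurableSet_setOfPred.1 (hxm l (hT _))))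
  · exact Measurable.forall fun l => Measurable.forall fun i => measurable_const.imp
      (measurable_const.imp (measurable_const.imp (measurable_const.imp
        (measurableSet_setOfPred.1 (measurableSet_lt (hB.1 l i) measurable_const)))))
  · exact Measurable.forall fun l => Measurable.forall fun i => measurable_const.imp
      (measurable_const.imp (measurable_const.imp (measurable_const.imp (measurable_const.imp
        (measurableSet_setOfPred.1 (measurableSet_lt measurable_const (hB.1 l i)))))))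
  · refine and_congr ?_ (and_congr ?_ ?_)
    · exact forall₃_congr fun l _ h2 => by rw [hxr n l ω hn h2]
    · exact forall₂_congr fun l i => forall₃_congr fun _ h2 h3 => by
        rw [hB.2.2.2.1 n l i ω h2 h3]
    · exact forall₂_congr fun l i => forall₄_congr fun _ h2 _ h3 => by
        rw [hB.2.2.2.1 n l i ω h2 h3]

theorem lemD_step {B : ℕ → ℕ → X → ℝ} (hB : Pair B) {p : ℕ} {x : ℕ → X → ℝ}
    (hxa : ∀ e : Equiv.Perm ℕ, (∀ i < p, e i = i) → ∀ l ω, x l (act e ω) = x (e l) ω)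
    {σ : ℕ → Bool} {T : Bool → Set ℝ} {b : Bool → ℝ} {γ : ℝ} {n l0 : ℕ} (h1 : p ≤ l0)
    (h2 : l0 < n) (h3 : σ l0 = σ n) :
    lemD_EV B x p σ T b γ n ∩ act (Equiv.swap l0 n) ⁻¹' lemD_EV B x p σ T b γ n ∩
      {ω | B l0 n ω < b (σ l0)} ⊆ lemD_EV B x p σ T b γ (n + 1) := by
  rintro ω ⟨⟨⟨a1, a2, a3⟩, c1, c2, c3⟩, d⟩
  have d' : B l0 n ω < b (σ l0) := d
  have he : ∀ i < p, Equiv.swap l0 n i = i := fun i hi =>
    Equiv.swap_apply_of_ne_of_ne (by omega) (by omega)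
  have hfix : ∀ i, i < n → i ≠ l0 → Equiv.swap l0 n i = i := fun i hi hi' =>
    Equiv.swap_apply_of_ne_of_ne hi' (by omega)
  simp only [hxa _ he, hB.2.2.1] at c1 c2 c3
  refine ⟨fun l hl hl' => ?_, fun l i hl hl' hi hil => ?_, fun l l' hl hl1 hl' hl1' hs => ?_⟩
  · rcases (Nat.lt_succ_iff.1 hl').lt_or_eq with hc | rfl
    · exact a1 l hl hc
    · have := c1 l0 h1 h2
      rwa [Equiv.swap_apply_left, h3] at this
  · rcases (Nat.lt_succ_iff.1 hl').lt_or_eq with hc | rfl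
    · rcases (Nat.lt_succ_iff.1 hi).lt_or_eq with hd | rfl
      · exact a2 l i hl hc hd hil
      · by_cases hl0 : l = l0
        · rw [hl0]
          exact d'
        · have := c2 l l0 hl hc h2 (Ne.symm hl0)
          rwa [Equiv.swap_apply_left, hfix l hc hl0] at this
    · by_cases hl0 : i = l0
      · rw [hl0, hB.2.1, ← h3]
        exact d'
      · have := c2 l0 i h1 h2 (by omega) hl0
        rwa [Equiv.swap_apply_left, hfix i (by omega) hl0, h3] at this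
  · rcases (Nat.lt_succ_iff.1 hl1).lt_or_eq with hc | rfl
    · rcases (Nat.lt_succ_iff.1 hl1').lt_or_eq with hd | rfl
      · exact a3 l l' hl hc hl' hd hs
      · have hl0 : l ≠ l0 := fun hh => hs (by rw [hh, h3])
        have := c3 l l0 hl hc h1 h2 (by rwa [h3])
        rwa [Equiv.swap_apply_left, hfix l hc hl0] at this
    · have hl0 : l' ≠ l0 := fun hh => hs (by rw [hh, h3])
      have hn : l' ≠ l := fun hh => hs (by rw [hh])
      have := c3 l0 l' h1 h2 hl' (by omega) (by rwa [h3])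
      rwa [Equiv.swap_apply_left, hfix l' (by omega) hl0] at this

theorem lemD_sum {p : ℕ} {σ : ℕ → Bool} (hσ : ∀ l, σ (l + 1) = !σ l) (f : Bool → ℝ) (m : ℕ) :
    ∑ l ∈ Finset.Ico p (p + 2 * m), f (σ l) = m * (f true + f false) := by
  induction m with
  | zero => simp
  | succ m ih =>
    rw [show p + 2 * (m + 1) = p + 2 * m + 1 + 1 by ring, Finset.sum_Ico_succ_top (by omega),
      Finset.sum_Ico_succ_top (by omega), ih, hσ]
    push_cast
    cases σ (p + 2 * m) <;> simp <;> ring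

theorem lemD_cs {B : ℕ → ℕ → X → ℝ} {p : ℕ} {x : ℕ → X → ℝ} {σ : ℕ → Bool}
    (hσ : ∀ l, σ (l + 1) = !σ l) {x1 x2 b1 b2 γ : ℝ} (hx : x2 < x1) {m : ℕ} {ω : X}
    (hω : ω ∈ lemD_EV B x p σ (fun s => cond s (Set.Ioi x1) (Set.Iio x2))
      (fun s => cond s b1 b2) γ (p + 2 * m))
    (hQ : ∀ (G : Finset ℕ) (η : ℕ → ℝ) (t : ℝ), Disjoint (Finset.range p) G →
      (∀ l, |η l| ≤ 1) → 0 ≤ QF (fun l => x l ω) (fun l l' => B l l' ω) G η t) :
    (m * (x1 - x2)) ^ 2 ≤ 2 * m + m * (m * (b1 + b2 - 2 * γ)) - m * (b1 + b2) := by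
  obtain ⟨a1, a2, a3⟩ := hω
  have h1 := hQ (Finset.Ico p (p + 2 * m)) (fun l => cond (σ l) 1 (-1))
    (-∑ l ∈ Finset.Ico p (p + 2 * m), cond (σ l) 1 (-1) * x l ω)
    (Finset.disjoint_left.2 fun i hi hi' => by
      rw [Finset.mem_range] at hi
      rw [Finset.mem_Ico] at hi'
      omega)
    (fun l => by cases σ l <;> simp)
  have h2 : m * (x1 - x2) ≤ ∑ l ∈ Finset.Ico p (p + 2 * m), cond (σ l) 1 (-1) * x l ω := by
    have e := lemD_sum (p := p) hσ (fun s => cond s x1 (-x2)) m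
    rw [sub_eq_add_neg]
    refine e.symm.le.trans (Finset.sum_le_sum fun l hl => ?_)
    rw [Finset.mem_Ico] at hl
    have := a1 l hl.1 hl.2
    revert this
    cases σ l
    · intro this
      have h3 : x l ω < x2 := this
      show -x2 ≤ -1 * x l ω
      linarith
    · intro this
      have h3 : x1 < x l ω := this
      show x1 ≤ 1 * x l ω
      linarith
  let c : Bool → Bool → ℝ := fun s s' => cond s (cond s' b1 (-γ)) (cond s' (-γ) b2)
  have h3 : ∑ q ∈ (Finset.Ico p (p + 2 * m)).offDiag,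
      cond (σ q.1) 1 (-1) * cond (σ q.2) 1 (-1) * B q.1 q.2 ω ≤
      ∑ q ∈ (Finset.Ico p (p + 2 * m)).offDiag, c (σ q.1) (σ q.2) := by
    refine Finset.sum_le_sum fun q hq => ?_
    rw [Finset.mem_offDiag, Finset.mem_Ico, Finset.mem_Ico] at hq
    have d2 := a2 q.1 q.2 hq.1.1 hq.1.2 hq.2.1.2 hq.2.2.symm
    have d3 := a3 q.1 q.2 hq.1.1 hq.1.2 hq.2.1.1 hq.2.1.2
    revert d2 d3
    cases σ q.1 <;> cases σ q.2 <;> intro d2 d3 <;> simp [c] at d2 d3 ⊢ <;> linarith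
  have h4 : ∑ q ∈ (Finset.Ico p (p + 2 * m)).offDiag, c (σ q.1) (σ q.2) =
      m * (m * (b1 + b2 - 2 * γ)) - m * (b1 + b2) := by
    have e1 := Finset.sum_union (f := fun q : ℕ × ℕ => c (σ q.1) (σ q.2))
      (Finset.disjoint_diag_offDiag (Finset.Ico p (p + 2 * m)))
    rw [Finset.diag_union_offDiag, Finset.sum_diag, Finset.sum_product] at e1
    have e2 := lemD_sum (p := p) hσ (fun s => c s s) m
    have e3 : ∀ s, ∑ l ∈ Finset.Ico p (p + 2 * m), c s (σ l) = m * (c s true + c s false) :=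
      fun s => lemD_sum hσ (c s) m
    have e4 := lemD_sum (p := p) hσ (fun s => m * (c s true + c s false)) m
    simp only [e3] at e1
    rw [e4, e2] at e1
    simp only [c, cond_true, cond_false] at e1
    linarith
  have h5 : 0 ≤ m * (x1 - x2) := mul_nonneg (Nat.cast_nonneg m) (sub_pos.2 hx).le
  have h6 := pow_le_pow_left₀ h5 h2 2
  unfold QF at h1
  rw [Nat.card_Ico, Nat.add_sub_cancel_left] at h1
  push_cast at h1
  nlinarith

theorem lemD_null (h : Str ν) {B : ℕ → ℕ → X → ℝ} (hB : Pair B) {p : ℕ}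
    {x : ℕ → X → ℝ} (hxm : ∀ l, Measurable (x l))
    (hxa : ∀ e : Equiv.Perm ℕ, (∀ i < p, e i = i) → ∀ l ω, x l (act e ω) = x (e l) ω)
    (hxr : ∀ n l ω, p ≤ n → l < n → x l (res n ω) = x l ω)
    (hQ : ∀ᵐ ω ∂ν, ∀ (G : Finset ℕ) (η : ℕ → ℝ) (t : ℝ), Disjoint (Finset.range p) G →
      (∀ l, |η l| ≤ 1) → 0 ≤ QF (fun l => x l ω) (fun l l' => B l l' ω) G η t)
    {σ : ℕ → Bool} (hσ : ∀ l, σ (l + 1) = !σ l) {x1 x2 b1 b2 γ : ℝ} (hx : x2 < x1)
    (hD : b1 + b2 - 2 * γ < (x1 - x2) ^ 2) :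
    ∀ᵐ ω ∂ν, ω ∉ lemD_EV B x p σ (fun s => cond s (Set.Ioi x1) (Set.Iio x2))
      (fun s => cond s b1 b2) γ (p + 2) := by
  have := h.1
  have hT : ∀ s : Bool, MeasurableSet (cond s (Set.Ioi x1) (Set.Iio x2)) := fun s => by
    cases s
    · exact measurableSet_Iio
    · exact measurableSet_Ioi
  rw [← measure_eq_zero_iff_ae_notMem]
  by_contra h0
  have key : ∀ n, p + 2 ≤ n → 0 < ν.real (lemD_EV B x p σ
      (fun s => cond s (Set.Ioi x1) (Set.Iio x2)) (fun s => cond s b1 b2) γ n) := by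
    intro n hn
    induction n, hn using Nat.le_induction with
    | base => exact ENNReal.toReal_pos h0 (measure_ne_top _ _)
    | succ n hn ih =>
      obtain ⟨l0, a1, a2, a3⟩ : ∃ l0, p ≤ l0 ∧ l0 < n ∧ σ l0 = σ n := by
        by_cases hc : σ p = σ n
        · exact ⟨p, le_rfl, by omega, hc⟩
        · refine ⟨p + 1, by omega, by omega, ?_⟩
          rw [hσ]
          revert hc
          cases σ p <;> cases σ n <;> simp
      refine (dup_pos h hB (by omega) a2 (lemD_isF hB hxm hxr σ hT _ γ (by omega)) ih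
        (β := cond (σ l0) b1 b2) fun ω hω l' h1 h2 => hω.2.1 l0 l' a1 a2 h1 h2).trans_le ?_
      exact measureReal_mono (lemD_step hB hxa a1 a2 a3)
  obtain ⟨m, hm⟩ := exists_nat_gt (|2 - (b1 + b2)| / ((x1 - x2) ^ 2 - (b1 + b2 - 2 * γ)))
  have hD' := sub_pos.2 hD
  have hm0 : (0 : ℝ) < m := lt_of_le_of_lt (by positivity) hm
  have hm1 : 1 ≤ m := by exact_mod_cast hm0
  have h1 := key (p + 2 * m) (by omega)
  have h2 : ν (lemD_EV B x p σ (fun s => cond s (Set.Ioi x1) (Set.Iio x2))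
      (fun s => cond s b1 b2) γ (p + 2 * m)) = 0 := by
    rw [measure_eq_zero_iff_ae_notMem]
    refine hQ.mono fun ω hω hc => ?_
    have h3 := lemD_cs hσ hx hc hω
    rw [div_lt_iff₀ hD'] at hm
    have h4 := mul_lt_mul_of_pos_left (lt_of_le_of_lt (le_abs_self _) hm) hm0
    nlinarith
  rw [measureReal_def, h2] at h1
  simp at h1

theorem lemD_rat {a c β β' g : ℝ} (hac : c < a) (h : β + β' - 2 * g < (a - c) ^ 2) :
    ∃ x1 x2 b1 b2 γ : ℚ, (x1 : ℝ) < a ∧ c < x2 ∧ (x2 : ℝ) < x1 ∧ β < b1 ∧ β' < b2 ∧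
      (γ : ℝ) < g ∧ (b1 : ℝ) + b2 - 2 * γ < ((x1 : ℝ) - x2) ^ 2 := by
  have h0 := sub_pos.2 hac
  have hΔ := sub_pos.2 h
  obtain ⟨ε, e0, e1, e2⟩ : ∃ ε : ℝ, 0 < ε ∧ ε ≤ (a - c) / 2 ∧
      ε * (4 * (a - c + 1)) ≤ (a - c) ^ 2 - (β + β' - 2 * g) := by
    refine ⟨min ((a - c) / 2) (((a - c) ^ 2 - (β + β' - 2 * g)) / (4 * (a - c + 1))),
      lt_min (by positivity) (by positivity), min_le_left _ _, ?_⟩
    rw [← le_div_iff₀ (by positivity)]
    exact min_le_right _ _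
  obtain ⟨x1, p1, p2⟩ := exists_rat_btwn (show a - ε < a by linarith)
  obtain ⟨x2, q1, q2⟩ := exists_rat_btwn (show c < c + ε by linarith)
  obtain ⟨b1, r1, r2⟩ := exists_rat_btwn (show β < β + ε by linarith)
  obtain ⟨b2, s1, s2⟩ := exists_rat_btwn (show β' < β' + ε by linarith)
  obtain ⟨γ, t1, t2⟩ := exists_rat_btwn (show g - ε < g by linarith)
  refine ⟨x1, x2, b1, b2, γ, p2, q1, by linarith, r1, s1, t2, ?_⟩
  have h1 : (a - c - 2 * ε) ^ 2 ≤ ((x1 : ℝ) - x2) ^ 2 :=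
    pow_le_pow_left₀ (by linarith) (by linarith) 2
  nlinarith [sq_nonneg ε]

theorem lemD_mem {B : ℕ → ℕ → X → ℝ} (hB : Pair B) {p : ℕ} {x : ℕ → X → ℝ} {σ : ℕ → Bool}
    {T : Bool → Set ℝ} {b : Bool → ℝ} {γ β β' : ℝ} {ω : X} (h1 : x p ω ∈ T (σ p))
    (h2 : x (p + 1) ω ∈ T (σ (p + 1))) (h3 : β < b (σ p)) (h4 : β' < b (σ (p + 1)))
    (h5 : γ < B p (p + 1) ω) (a1 : ∀ i < p, B p i ω ≤ β) (a2 : B p (p + 1) ω ≤ β)
    (a3 : ∀ i < p, B (p + 1) i ω ≤ β') (a4 : B p (p + 1) ω ≤ β') :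
    ω ∈ lemD_EV B x p σ T b γ (p + 2) := by
  refine ⟨fun l hl hl' => ?_, fun l i hl hl' hi hil => ?_, fun l l' hl hl1 hl' hl1' hs => ?_⟩
  · obtain rfl | rfl : l = p ∨ l = p + 1 := by omega
    · exact h1
    · exact h2
  · obtain rfl | rfl : l = p ∨ l = p + 1 := by omega
    · obtain hc | rfl : i < l ∨ i = l + 1 := by omega
      · exact (a1 i hc).trans_lt h3
      · exact a2.trans_lt h3
    · obtain hc | rfl : i < p ∨ i = p := by omega
      · exact (a3 i hc).trans_lt h4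
      · rw [hB.2.1]
        exact a4.trans_lt h4
  · have hn : l ≠ l' := fun hh => hs (by rw [hh])
    obtain ⟨rfl, rfl⟩ | ⟨rfl, rfl⟩ : (l = p ∧ l' = p + 1) ∨ (l = p + 1 ∧ l' = p) := by omega
    · exact h5
    · rw [hB.2.1]
      exact h5

/-- alternating sides -/
def lemD_alt (k l : ℕ) : Bool := decide ((l + k) % 2 = 0)

theorem lemD_alt_succ (k l : ℕ) : lemD_alt k (l + 1) = !lemD_alt k l := by
  unfold lemD_alt
  by_cases hc : (l + k) % 2 = 0
  · have : ¬ (l + 1 + k) % 2 = 0 := by omega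
    simp [hc, this]
  · have : (l + 1 + k) % 2 = 0 := by omega
    simp [hc, this]

theorem lemD (h : Str ν) {B : ℕ → ℕ → X → ℝ} (hB : Pair B) {p : ℕ} (hp : 1 ≤ p)
    {x : ℕ → X → ℝ} (hxm : ∀ l, Measurable (x l))
    (hxa : ∀ e : Equiv.Perm ℕ, (∀ i < p, e i = i) → ∀ l ω, x l (act e ω) = x (e l) ω)
    (hxr : ∀ n l ω, p ≤ n → l < n → x l (res n ω) = x l ω)
    (hQ : ∀ᵐ ω ∂ν, ∀ (G : Finset ℕ) (η : ℕ → ℝ) (t : ℝ), Disjoint (Finset.range p) G →
      (∀ l, |η l| ≤ 1) → 0 ≤ QF (fun l => x l ω) (fun l l' => B l l' ω) G η t) :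
    ∀ᵐ ω ∂ν, ∀ β β' : ℝ, (∀ i < p, B p i ω ≤ β) → B p (p + 1) ω ≤ β →
      (∀ i < p, B (p + 1) i ω ≤ β') → B p (p + 1) ω ≤ β' →
      (x p ω - x (p + 1) ω) ^ 2 ≤ β + β' - 2 * B p (p + 1) ω := by
  have h1 : ∀ᵐ ω ∂ν, ∀ (k : ℕ) (x1 x2 b1 b2 γ : ℚ), (x2 : ℝ) < x1 →
      (b1 : ℝ) + b2 - 2 * γ < ((x1 : ℝ) - x2) ^ 2 →
      ω ∉ lemD_EV B x p (lemD_alt k) (fun s => cond s (Set.Ioi (x1 : ℝ)) (Set.Iio (x2 : ℝ)))
        (fun s => cond s (b1 : ℝ) b2) γ (p + 2) := by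
    refine ae_all_iff.2 fun k => ae_all_iff.2 fun x1 => ae_all_iff.2 fun x2 =>
      ae_all_iff.2 fun b1 => ae_all_iff.2 fun b2 => ae_all_iff.2 fun γ => ?_
    by_cases hc : (x2 : ℝ) < x1 ∧ (b1 : ℝ) + b2 - 2 * γ < ((x1 : ℝ) - x2) ^ 2
    · exact (lemD_null h hB hxm hxa hxr hQ (lemD_alt_succ k) hc.1 hc.2).mono fun ω hω _ _ => hω
    · exact Eventually.of_forall fun ω a b => absurd ⟨a, b⟩ hc
  refine h1.mono fun ω hω β β' a1 a2 a3 a4 => ?_
  by_contra hc
  rw [not_le] at hc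
  rcases lt_trichotomy (x p ω) (x (p + 1) ω) with hx | hx | hx
  · have hc' : β' + β - 2 * B p (p + 1) ω < (x (p + 1) ω - x p ω) ^ 2 := by nlinarith
    obtain ⟨x1, x2, b1, b2, γ, r1, r2, r3, r4, r5, r6, r7⟩ := lemD_rat hx hc'
    have s1 : lemD_alt (p + 1) p = false := by
      unfold lemD_alt
      exact decide_eq_false (by omega)
    have s2 : lemD_alt (p + 1) (p + 1) = true := by rw [lemD_alt_succ, s1]; rfl
    refine hω (p + 1) x1 x2 b1 b2 γ r3 r7 (lemD_mem hB ?_ ?_ ?_ ?_ r6 a1 a2 a3 a4)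
    · rw [s1]; exact r2
    · rw [s2]; exact r1
    · rw [s1]; exact r5
    · rw [s2]; exact r4
  · rw [hx] at hc
    nlinarith
  · obtain ⟨x1, x2, b1, b2, γ, r1, r2, r3, r4, r5, r6, r7⟩ := lemD_rat hx hc
    have s1 : lemD_alt p p = true := by
      unfold lemD_alt
      exact decide_eq_true (by omega)
    have s2 : lemD_alt p (p + 1) = false := by rw [lemD_alt_succ, s1]; rfl
    refine hω p x1 x2 b1 b2 γ r3 r7 (lemD_mem hB ?_ ?_ ?_ ?_ r6 a1 a2 a3 a4)
    · rw [s1]; exact r1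
    · rw [s2]; exact r2
    · rw [s1]; exact r4
    · rw [s2]; exact r5

end Vale.Agent.P168
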