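import Vale.Agent.P168.Mext
import Vale.Agent.P168.Pois

/-! P168 Link: the functional `hier` of the statement and its finite version.
Plan. For a list `Ls` of levels put `lv Ls Y = Ls.foldr (fun p Z => step (m p) p.succ Z) Y`.
By induction on the list: if `Y` is measurable with `c ≤ Y ≤ C`, `0 < c`, the same holds for
`lv Ls Y` (measurability: `StronglyMeasurable.integral_prod_right'` with `measurable_update'`);
monotone and positively homogeneous as in FinT, which gives `hier_lip`.
`hier_comp`: `∫ u : J → I, F (φ ∘ u) = ∑ a, cw μ a * F a` (push `volume` forward with the discrete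
sigma-algebra `⊤` on `A`, `map_pi_map`, `integral_fintype`), induction on the list, and the same for
the outer integral (two nested products). `fin_mem_trials`: `Measure.exists_measurable_map_eq` for
the measure `∑ a, ofReal (μ a) • dirac a` on `A` with `⊤` (A is nonempty since the weights sum to
one; if standard Borel instances are awkward transport along `Fintype.equivFin`), and take
`x' w = x (φ ∘ w)`. `trial_eq_val`: `cavU_eq`, `cavV_eq`, `integral_map`, `integral_prod`. -/

open MeasureTheory ProbabilityTheory Function Filter Topology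
open scoped BigOperators

noncomputable section

namespace Vale.Agent.P168

section Levels

variable {r : ℕ} {J : Type} [Fintype J]

/-- the levels in the list `Ls` have been integrated out -/
def linkLv (m : Fin r → ℝ) (Ls : List (Fin r)) (Y : (Fin (r + 1) → J → unitInterval) → ℝ) :
    (Fin (r + 1) → J → unitInterval) → ℝ :=
  Ls.foldr (fun p Z => step (m p) p.succ Z) Y

/-- measurable with values in `[c, C]` -/
def LinkB (c C : ℝ) (Y : (Fin (r + 1) → J → unitInterval) → ℝ) : Prop :=
  Measurable Y ∧ ∀ w, c ≤ Y w ∧ Y w ≤ C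

theorem link_hier (m : Fin r → ℝ) (Y : (Fin (r + 1) → J → unitInterval) → ℝ) :
    hier m Y = ∫ w, Real.log (linkLv m (List.finRange r) Y w) := rfl

theorem link_integrable {Ω : Type} [MeasurableSpace Ω] {P : Measure Ω} [IsFiniteMeasure P]
    {F : Ω → ℝ} (hF : Measurable F) {a b : ℝ} (h : ∀ u, a ≤ F u ∧ F u ≤ b) : Integrable F P :=
  Integrable.of_bound hF.aestronglyMeasurable (max |a| |b|) (ae_of_all _ fun u =>
    abs_le_max_abs_abs (h u).1 (h u).2)

theorem link_int_bounds {Ω : Type} [MeasurableSpace Ω] {P : Measure Ω} [IsProbabilityMeasure P]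
    {F : Ω → ℝ} (hF : Measurable F) {a b : ℝ} (h : ∀ u, a ≤ F u ∧ F u ≤ b) :
    a ≤ ∫ u, F u ∂P ∧ ∫ u, F u ∂P ≤ b := by
  have h1 := integral_mono (integrable_const a) (link_integrable (P := P) hF h) fun u => (h u).1
  have h2 := integral_mono (link_integrable (P := P) hF h) (integrable_const b) fun u => (h u).2
  simp only [integral_const, probReal_univ, one_smul] at h1 h2
  exact ⟨h1, h2⟩

theorem LinkB.pow {c C m : ℝ} (hc : 0 < c) (hm : 0 < m)
    {Y : (Fin (r + 1) → J → unitInterval) → ℝ} (hY : LinkB c C Y) (p : Fin (r + 1))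
    (w : Fin (r + 1) → J → unitInterval) :
    Measurable (fun u : J → unitInterval => Y (update w p u) ^ m) ∧
      ∀ u : J → unitInterval, c ^ m ≤ Y (update w p u) ^ m ∧ Y (update w p u) ^ m ≤ C ^ m :=
  ⟨(hY.1.comp (measurable_update w)).pow_const m, fun _ =>
    ⟨Real.rpow_le_rpow hc.le (hY.2 _).1 hm.le,
      Real.rpow_le_rpow (hc.le.trans (hY.2 _).1) (hY.2 _).2 hm.le⟩⟩

theorem LinkB.measurable_int {c C : ℝ} (m : ℝ)
    {Y : (Fin (r + 1) → J → unitInterval) → ℝ} (hY : LinkB c C Y) (p : Fin (r + 1)) :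
    Measurable fun w : Fin (r + 1) → J → unitInterval =>
      ∫ u : J → unitInterval, Y (update w p u) ^ m := by
  have h : Measurable fun z : (Fin (r + 1) → J → unitInterval) × (J → unitInterval) =>
      Y (update z.1 p z.2) ^ m := (hY.1.comp measurable_update').pow_const m
  exact (h.stronglyMeasurable.integral_prod_right' (ν := volume)).measurable

theorem LinkB.int_bounds {c C m : ℝ} (hc : 0 < c) (hm : 0 < m)
    {Y : (Fin (r + 1) → J → unitInterval) → ℝ} (hY : LinkB c C Y) (p : Fin (r + 1))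
    (w : Fin (r + 1) → J → unitInterval) :
    c ^ m ≤ ∫ u : J → unitInterval, Y (update w p u) ^ m ∧
      ∫ u : J → unitInterval, Y (update w p u) ^ m ≤ C ^ m :=
  link_int_bounds (hY.pow hc hm p w).1 (hY.pow hc hm p w).2

theorem LinkB.step {c C m : ℝ} (hc : 0 < c) (hm : 0 < m)
    {Y : (Fin (r + 1) → J → unitInterval) → ℝ} (hY : LinkB c C Y) (p : Fin (r + 1)) :
    LinkB c C (step m p Y) := by
  refine ⟨(hY.measurable_int m p).pow_const _, fun w => ?_⟩
  obtain ⟨h1, h2⟩ := hY.int_bounds hc hm p w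
  have hC : 0 ≤ C := hc.le.trans ((hY.2 w).1.trans (hY.2 w).2)
  have h3 : 0 ≤ c ^ m := Real.rpow_nonneg hc.le m
  have h4 := Real.rpow_le_rpow h3 h1 (z := 1 / m) (by positivity)
  have h5 := Real.rpow_le_rpow (h3.trans h1) h2 (z := 1 / m) (by positivity)
  rw [one_div, Real.rpow_rpow_inv hc.le hm.ne', ← one_div] at h4
  rw [one_div, Real.rpow_rpow_inv hC hm.ne', ← one_div] at h5
  exact ⟨h4, h5⟩

theorem LinkB.lv {c C : ℝ} (hc : 0 < c) {m : Fin r → ℝ} (hm : Adm m)
    {Y : (Fin (r + 1) → J → unitInterval) → ℝ} (hY : LinkB c C Y) (Ls : List (Fin r)) :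
    LinkB c C (linkLv m Ls Y) := by
  induction Ls with
  | nil => exact hY
  | cons p Ls ih => exact ih.step hc (hm.2 p).1 p.succ

theorem link_step_le {c C m a : ℝ} (hc : 0 < c) (hm : 0 < m) (ha : 0 < a)
    {Y Y' : (Fin (r + 1) → J → unitInterval) → ℝ} (hY : LinkB c C Y) (hY' : LinkB c C Y')
    (h : ∀ w, Y w ≤ a * Y' w) (p : Fin (r + 1)) (w : Fin (r + 1) → J → unitInterval) :
    step m p Y w ≤ a * step m p Y' w := by
  have h1 : ∫ u : J → unitInterval, Y (update w p u) ^ m ≤
      a ^ m * ∫ u : J → unitInterval, Y' (update w p u) ^ m := by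
    rw [← integral_const_mul]
    refine integral_mono (link_integrable (hY.pow hc hm p w).1 (hY.pow hc hm p w).2)
      ((link_integrable (hY'.pow hc hm p w).1 (hY'.pow hc hm p w).2).const_mul _) fun u => ?_
    change Y _ ^ m ≤ a ^ m * Y' _ ^ m
    rw [← Real.mul_rpow ha.le (hc.le.trans (hY'.2 _).1)]
    exact Real.rpow_le_rpow (hc.le.trans (hY.2 _).1) (h _) hm.le
  have h3 : 0 ≤ c ^ m := Real.rpow_nonneg hc.le m
  have h2 := Real.rpow_le_rpow (h3.trans (hY.int_bounds hc hm p w).1) h1 (z := 1 / m)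
    (by positivity)
  rw [Real.mul_rpow (Real.rpow_nonneg ha.le m) (h3.trans (hY'.int_bounds hc hm p w).1), one_div,
    Real.rpow_rpow_inv ha.le hm.ne', ← one_div] at h2
  exact h2

theorem link_lv_le {c C a : ℝ} (hc : 0 < c) {m : Fin r → ℝ} (hm : Adm m) (ha : 0 < a)
    {Y Y' : (Fin (r + 1) → J → unitInterval) → ℝ} (hY : LinkB c C Y) (hY' : LinkB c C Y')
    (h : ∀ w, Y w ≤ a * Y' w) (Ls : List (Fin r)) :
    ∀ w, linkLv m Ls Y w ≤ a * linkLv m Ls Y' w := by
  induction Ls with
  | nil => exact h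
  | cons p Ls ih =>
    exact link_step_le hc (hm.2 p).1 ha (hY.lv hc hm Ls) (hY'.lv hc hm Ls) ih p.succ

theorem LinkB.log {c C : ℝ} (hc : 0 < c) {Y : (Fin (r + 1) → J → unitInterval) → ℝ}
    (hY : LinkB c C Y) : Integrable fun w => Real.log (Y w) :=
  link_integrable hY.1.log (a := Real.log c) (b := Real.log C) fun w =>
    ⟨Real.log_le_log hc (hY.2 w).1, Real.log_le_log (hc.trans_le (hY.2 w).1) (hY.2 w).2⟩

theorem link_hier_le {m : Fin r → ℝ} (hm : Adm m) {c C : ℝ} (hc : 0 < c)
    {Y Y' : (Fin (r + 1) → J → unitInterval) → ℝ} (hY : LinkB c C Y) (hY' : LinkB c C Y') {δ : ℝ}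
    (h : ∀ w, Real.log (Y w) - Real.log (Y' w) ≤ δ) : hier m Y - hier m Y' ≤ δ := by
  have h1 := link_lv_le hc hm (Real.exp_pos δ) hY hY' (fun w => by
    rw [← Real.exp_log (hc.trans_le (hY.2 w).1), ← Real.exp_log (hc.trans_le (hY'.2 w).1),
      ← Real.exp_add]
    exact Real.exp_le_exp.2 (by linarith [h w])) (List.finRange r)
  have h2 := hY.lv hc hm (List.finRange r)
  have h3 := hY'.lv hc hm (List.finRange r)
  rw [link_hier, link_hier, ← integral_sub (h2.log hc) (h3.log hc)]
  have h4 := integral_mono ((h2.log hc).sub (h3.log hc)) (integrable_const δ) fun w => by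
    have h5 := Real.log_le_log (hc.trans_le (h2.2 w).1) (h1 w)
    rw [Real.log_mul (Real.exp_pos δ).ne' (hc.trans_le (h3.2 w).1).ne', Real.log_exp] at h5
    change Real.log _ - Real.log _ ≤ δ
    linarith
  simp only [integral_const, probReal_univ, one_smul] at h4
  exact h4

theorem link_hier_abs {m : Fin r → ℝ} (hm : Adm m) {a : ℝ}
    {Y : (Fin (r + 1) → J → unitInterval) → ℝ} (hY : LinkB (Real.exp (-a)) (Real.exp a) Y) :
    |hier m Y| ≤ a := by
  have h2 := hY.lv (Real.exp_pos _) hm (List.finRange r)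
  refine abs_le.2 (link_int_bounds h2.1.log fun w => ⟨?_, ?_⟩)
  · rw [Real.le_log_iff_exp_le ((Real.exp_pos _).trans_le (h2.2 w).1)]
    exact (h2.2 w).1
  · rw [Real.log_le_iff_le_exp ((Real.exp_pos _).trans_le (h2.2 w).1)]
    exact (h2.2 w).2

end Levels

theorem hier_lip {r : ℕ} {J : Type} [Fintype J] {m : Fin r → ℝ} (hm : Adm m)
    {Y Y' : (Fin (r + 1) → J → unitInterval) → ℝ} (hY : Measurable Y) (hY' : Measurable Y')
    {c C : ℝ} (hc : 0 < c) (hb : ∀ w, c ≤ Y w ∧ Y w ≤ C) (hb' : ∀ w, c ≤ Y' w ∧ Y' w ≤ C) {δ : ℝ}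
    (h : ∀ w, |Real.log (Y w) - Real.log (Y' w)| ≤ δ) : |hier m Y - hier m Y'| ≤ δ := by
  have h1 := link_hier_le hm hc ⟨hY, hb⟩ ⟨hY', hb'⟩ fun w => (abs_le.1 (h w)).2
  have h2 := link_hier_le hm hc ⟨hY', hb'⟩ ⟨hY, hb⟩ (δ := δ) fun w => by
    linarith [(abs_le.1 (h w)).1]
  exact abs_le.2 ⟨by linarith, h1⟩

theorem link_mext {r : ℕ} {J : Type} [Fintype J] [DecidableEq J]
    {x : (Fin (r + 1) → unitInterval) → ℝ} (hxm : Measurable x) (hx : ∀ w, |x w| ≤ 1)
    (y : (J → Bool) → ℝ) {a : ℝ} (ha : ‖y‖ ≤ a) :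
    LinkB (Real.exp (-a)) (Real.exp a)
      fun w : Fin (r + 1) → J → unitInterval => mext y fun j => x fun p => w p j := by
  refine ⟨(continuous_mext y).measurable.comp (measurable_pi_lambda _ fun j => hxm.comp
    (measurable_pi_lambda _ fun p => (measurable_pi_apply j).comp (measurable_pi_apply p))),
    fun w => ?_⟩
  obtain ⟨h1, h2⟩ := mext_bounds y (x := fun j => x fun p => w p j) fun j => hx _
  exact ⟨(Real.exp_le_exp.2 (by linarith)).trans h1, h2.trans (Real.exp_le_exp.2 ha)⟩

theorem ev_Ehier (K : ℕ) {r : ℕ} {m : Fin r → ℝ} (hm : Adm m)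
    {x : (Fin (r + 1) → unitInterval) → ℝ} (hxm : Measurable x) (hx : ∀ w, |x w| ≤ 1) :
    Ev (Ehier K m x) := by
  intro k
  refine ⟨LipschitzWith.continuous (K := 1) (LipschitzWith.of_dist_le_mul fun y y' => ?_),
    fun y => link_hier_abs hm (link_mext hxm hx y le_rfl)⟩
  have h1 := link_mext hxm hx y (le_max_left ‖y‖ ‖y'‖)
  have h2 := link_mext hxm hx y' (le_max_right ‖y‖ ‖y'‖)
  rw [NNReal.coe_one, one_mul, Real.dist_eq, dist_eq_norm]
  exact hier_lip hm h1.1 h2.1 (Real.exp_pos _) h1.2 h2.2 fun w => log_mext_lip y y' fun j => hx _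

theorem link_fiber {Θ J A : Type} [MeasurableSpace Θ] [Fintype J] (P : Measure Θ)
    [IsProbabilityMeasure P] (φ : Θ → A) (hφ : ∀ a, MeasurableSet (φ ⁻¹' {a})) (a : J → A) :
    MeasurableSet ((fun (u : J → Θ) j => φ (u j)) ⁻¹' {a}) ∧
      (Measure.pi fun _ : J => P).real ((fun (u : J → Θ) j => φ (u j)) ⁻¹' {a}) =
        cw (fun a => P.real (φ ⁻¹' {a})) a := by
  have h : (fun (u : J → Θ) j => φ (u j)) ⁻¹' {a} = Set.univ.pi fun j => φ ⁻¹' {a j} := by
    ext u
    simp [funext_iff]
  rw [h]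
  refine ⟨MeasurableSet.univ_pi fun j => hφ _, ?_⟩
  rw [Measure.real, Measure.pi_pi, ENNReal.toReal_prod]
  rfl

theorem link_int_fin {Θ A : Type} [MeasurableSpace Θ] [Fintype A] (P : Measure Θ)
    [IsProbabilityMeasure P] (φ : Θ → A) (hφ : ∀ a, MeasurableSet (φ ⁻¹' {a})) (F : A → ℝ) :
    ∫ u, F (φ u) ∂P = ∑ a, P.real (φ ⁻¹' {a}) * F a := by
  classical
  have h : ∀ u, F (φ u) = ∑ a, (φ ⁻¹' {a}).indicator (fun _ => F a) u := by
    intro u
    rw [Finset.sum_eq_single (φ u) (fun b _ hb => Set.indicator_of_notMem (fun h => hb h.symm) _)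
      (by simp), Set.indicator_of_mem (by simp)]
  simp only [h]
  rw [integral_finsetSum _ fun a _ => (integrable_const (F a)).indicator (hφ a)]
  exact Finset.sum_congr rfl fun a _ => by rw [integral_indicator_const _ (hφ a), smul_eq_mul]

theorem link_int_pi {Θ J A : Type} [MeasurableSpace Θ] [Fintype J] [DecidableEq J] [Fintype A]
    (P : Measure Θ) [IsProbabilityMeasure P] (φ : Θ → A) (hφ : ∀ a, MeasurableSet (φ ⁻¹' {a}))
    (F : (J → A) → ℝ) :
    ∫ u, F (fun j => φ (u j)) ∂(Measure.pi fun _ : J => P) =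
      ∑ a, cw (fun a => P.real (φ ⁻¹' {a})) a * F a := by
  rw [link_int_fin (Measure.pi fun _ : J => P) (fun (u : J → Θ) j => φ (u j))
    (fun a => (link_fiber P φ hφ a).1) F]
  exact Finset.sum_congr rfl fun a _ => by rw [(link_fiber P φ hφ a).2]

theorem hier_comp {r : ℕ} {J A : Type} [Fintype J] [DecidableEq J] [Fintype A] (m : Fin r → ℝ)
    (φ : unitInterval → A) (hφ : ∀ a, MeasurableSet (φ ⁻¹' {a}))
    (Y : (Fin (r + 1) → J → A) → ℝ) :
    hier m (fun w : Fin (r + 1) → J → unitInterval => Y fun p j => φ (w p j)) =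
      fT (cw fun a => (volume : Measure unitInterval).real (φ ⁻¹' {a})) m Y := by
  have key : ∀ Ls : List (Fin r),
      linkLv m Ls (fun w : Fin (r + 1) → J → unitInterval => Y fun p j => φ (w p j)) =
        fun w => Ls.foldr (fun q Z => fstep (cw fun a =>
          (volume : Measure unitInterval).real (φ ⁻¹' {a})) (m q) q.succ Z) Y
            fun p j => φ (w p j) := by
    intro Ls
    induction Ls with
    | nil => rfl
    | cons q Ls ih =>
      funext w
      change step (m q) q.succ (linkLv m Ls _) w = fstep _ (m q) q.succ _ _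
      rw [ih]
      unfold step fstep
      congr 1
      rw [← link_int_pi volume φ hφ]
      refine integral_congr_ae (ae_of_all _ fun u => ?_)
      have e : (fun p j => φ (update w q.succ u p j)) =
          update (fun p j => φ (w p j)) q.succ fun j => φ (u j) := by
        funext p
        by_cases h : p = q.succ
        · rw [h, update_self, update_self]
        · rw [update_of_ne h, update_of_ne h]
      simp only [e]
  rw [link_hier, key]
  have h := link_int_pi (J := Fin (r + 1)) (Measure.pi fun _ : J => (volume : Measure unitInterval))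
    (fun (u : J → unitInterval) j => φ (u j)) (fun a => (link_fiber volume φ hφ a).1)
    fun v => Real.log (flev (cw fun a => (volume : Measure unitInterval).real (φ ⁻¹' {a})) m Y 0 v)
  simp only [(link_fiber volume φ hφ _).2] at h
  exact h

theorem trial_eq_val {K : ℕ} (hK : 1 ≤ K) (lam : ℝ) {Q : Measure (Par K)} {Ph : Measure ℝ}
    (hM : Model K Q Ph) {r : ℕ} {m : Fin r → ℝ} (hm : Adm m)
    {x : (Fin (r + 1) → unitInterval) → ℝ} (hxm : Measurable x) (hx : ∀ w, |x w| ≤ 1) :
    trial K lam Q Ph m x = val K lam Q Ph (Ehier K m x) := by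
  have hE := ev_Ehier K hm hxm hx
  obtain ⟨C, hC⟩ := mom_kU hK hM
  have h1 := hM.1
  have h2 := hM.2.1
  have h3 : Nonempty (Fin K) := ⟨⟨0, hK⟩⟩
  unfold trial val Gval
  congr 2
  · funext k
    have h4 := integrable_ev hC hE k
    unfold kU at h4 ⊢
    rw [integral_map measurable_yU.aemeasurable (hE k).1.aestronglyMeasurable,
      integral_prod (fun p : ℝ × (Fin k → Par K × Fin K) => Ehier K m x k (yU p.1 p.2))
        ((integrable_map_measure (hE k).1.aestronglyMeasurable
        measurable_yU.aemeasurable).1 h4)]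
    simp only [cavU_eq]
    rfl
  · funext k
    unfold kV
    rw [integral_map measurable_yV.aemeasurable (hE k).1.aestronglyMeasurable]
    simp only [cavV_eq]
    rfl

theorem link_exists {A : Type} [Fintype A] {μ : A → ℝ} (hμ : IsPr μ) :
    ∃ φ : unitInterval → A, (∀ a, MeasurableSet (φ ⁻¹' {a})) ∧
      ∀ a, (volume : Measure unitInterval).real (φ ⁻¹' {a}) = μ a := by
  classical
  obtain ⟨a0, -, -⟩ := Finset.exists_ne_zero_of_sum_ne_zero (hμ.2.trans_ne one_ne_zero)
  have : Nonempty A := ⟨a0⟩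
  let _ : MeasurableSpace A := ⊤
  have : DiscreteMeasurableSpace A := ⟨fun _ => trivial⟩
  let ν : Measure A := ∑ a, ENNReal.ofReal (μ a) • Measure.dirac a
  have hν : ∀ a, ν {a} = ENNReal.ofReal (μ a) := by
    intro a
    simp only [ν, Measure.coe_finsetSum, Finset.sum_apply, Measure.smul_apply, smul_eq_mul]
    rw [Finset.sum_eq_single a (fun b _ hb => by simp [hb]) (by simp)]
    simp
  have : IsProbabilityMeasure ν := ⟨by
    simp only [ν, Measure.coe_finsetSum, Finset.sum_apply, Measure.smul_apply, smul_eq_mul,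
      measure_univ, mul_one]
    rw [← ENNReal.ofReal_sum_of_nonneg fun a _ => hμ.1 a, hμ.2, ENNReal.ofReal_one]⟩
  obtain ⟨φ, hφ, hφν⟩ := ν.exists_measurable_map_eq
  refine ⟨φ, fun a => hφ (measurableSet_singleton a), fun a => ?_⟩
  rw [Measure.real, ← Measure.map_apply hφ (measurableSet_singleton a), hφν, hν,
    ENNReal.toReal_ofReal (hμ.1 a)]

theorem link_measurable {r : ℕ} {A : Type} [Fintype A] (φ : unitInterval → A)
    (hφ : ∀ a, MeasurableSet (φ ⁻¹' {a})) (x : (Fin (r + 1) → A) → ℝ) :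
    Measurable fun w : Fin (r + 1) → unitInterval => x fun p => φ (w p) := by
  let _ : MeasurableSpace A := ⊤
  have : DiscreteMeasurableSpace A := ⟨fun _ => trivial⟩
  have h : Measurable φ := measurable_to_countable' hφ
  exact (measurable_of_finite x).comp (measurable_pi_lambda _ fun p =>
    h.comp (measurable_pi_apply p))

theorem link_Ehier (K : ℕ) {r : ℕ} {A : Type} [Fintype A] (m : Fin r → ℝ) (φ : unitInterval → A)
    (hφ : ∀ a, MeasurableSet (φ ⁻¹' {a})) (x : (Fin (r + 1) → A) → ℝ) :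
    Ehier K m (fun w => x fun p => φ (w p)) =
      Efin K (fun a => (volume : Measure unitInterval).real (φ ⁻¹' {a})) m x := by
  funext k y
  exact hier_comp m φ hφ fun w => mext y fun j => x fun p => w p j

theorem fin_mem_trials {K : ℕ} (hK : 1 ≤ K) (lam : ℝ) {Q : Measure (Par K)} {Ph : Measure ℝ}
    (hM : Model K Q Ph) {r : ℕ} {A : Type} [Fintype A] {μ : A → ℝ} (hμ : IsPr μ) {m : Fin r → ℝ}
    (hm : Adm m) {x : (Fin (r + 1) → A) → ℝ} (hx : ∀ w, |x w| ≤ 1) :
    val K lam Q Ph (Efin K μ m x) ∈ trials K lam Q Ph := by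
  obtain ⟨φ, hφ, hφμ⟩ := link_exists hμ
  have hxm := link_measurable φ hφ x
  refine ⟨r, m, fun w => x fun p => φ (w p), hm.1, hm.2, hxm, fun w => hx _, ?_⟩
  rw [trial_eq_val hK lam hM hm hxm fun w => hx _, link_Ehier K m φ hφ x, funext hφμ]

end Vale.Agent.P168
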