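import Vale.Agent.P168.Expand
import Vale.Agent.P168.Fourier
import Vale.Agent.P168.Mext
import Vale.Agent.P168.Pois

/-! P168 Poly: polynomial approximation of the cavity functional.
Plan. `poly_approx`: put `err n y = (1 - exp (-(2 ‖y‖)))^n * (2 ‖y‖) ≤ 2 ‖y‖`, tending to `0`.
Choose `k0` with tail `∑' k ≥ k0, poi a k * C (1+k) ≤ ε/2` (summability), then `n1` with
`∑ k < k0, poi a k * ∫ err n ∂κ k ≤ ε/2` for `n ≥ n1` (dominated convergence). Integrate the
hypothesis, exchange the finite sums with the integrals (`Psi (zOf y) la` is continuous and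
bounded in `y`). `gibbs_exp`: `∑ s, g s * exp (y ..) = exp ‖y‖ (1 - ∑ s, g s * zOf y ..)`, the
series of `log (1 - u)` for `0 ≤ u ≤ c` (`Real.hasSum_pow_div_log_of_abs_lt_one`) has tail at most
`c^n * -log (1-c)`, `u^(n+1) = ∑ v, cw g v * ∏ l, zOf ..` (`Finset.prod_univ_sum`), and
`𝔼 idx, ∏ l, z (fun j => v l (idx j)) = Psi z (emp v)`. `mp_exp`: `mext_eq_zOf`, `expand` with the
constant `Y = exp ‖y‖` (`tilt_const`, `fT_const`), expand the product over replicas of the sums,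
`wt_slot` with `S = univ`, `F = 1` (or `wt_cw`). -/

open MeasureTheory ProbabilityTheory Function Filter Topology
open scoped BigOperators

noncomputable section

namespace Vale.Agent.P168

variable {K : ℕ}

theorem poly_zle {J : Type} [Fintype J] [DecidableEq J] (y : (J → Bool) → ℝ) (e : J → Bool) :
    |zOf y e| ≤ 1 := by
  have h := zOf_mem y e
  rw [abs_of_nonneg h.1]
  linarith [h.2, Real.exp_pos (-(2 * ‖y‖))]

theorem poly_intg {k n : ℕ} (ν : Measure (Yv K k)) [IsProbabilityMeasure ν]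
    (f : Fin n → Fin k × Fin K → Bool) : Integrable (fun y : Yv K k => ∏ l, zOf y (f l)) ν := by
  refine Integrable.of_bound (Continuous.aestronglyMeasurable ?_) 1
    (Eventually.of_forall fun y => ?_)
  · unfold zOf
    fun_prop
  · rw [Real.norm_eq_abs, Finset.abs_prod]
    exact Finset.prod_le_one (fun _ _ => abs_nonneg _) fun _ _ => poly_zle y _

theorem poly_intPsi {k n : ℕ} (ν : Measure (Yv K k)) [IsProbabilityMeasure ν]
    (la : (Fin n → Bool) → ℝ) : Integrable (fun y : Yv K k => Psi (zOf y) la) ν :=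
  integrable_finsetSum _ fun _ _ => (poly_intg ν _).const_mul _

theorem continuous_polyK (a : ℝ) {κ : ∀ k, Measure (Yv K k)} {C : ℝ} (hκ : Mom κ C) (k0 n : ℕ) :
    Continuous fun la : (Fin n → Bool) → ℝ => polyK a κ k0 la := by
  unfold polyK
  refine continuous_finsetSum _ fun k _ => continuous_const.mul ?_
  have := (hκ k).1
  have : (fun la : (Fin n → Bool) → ℝ => ∫ y, Psi (zOf y) la ∂κ k) =
      fun la => ∑ e : Fin k × Fin K → Fin n → Bool,
        cw la e * ∫ y, ∏ l, zOf y (fun j => e j l) ∂κ k := by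
    funext la
    unfold Psi
    rw [integral_finsetSum _ fun _ _ => (poly_intg (κ k) _).const_mul _]
    simp only [integral_const_mul]
  rw [this]
  unfold cw
  fun_prop

/-- the replica expansion of an evaluator along finite mixtures of column laws -/
def Expa (E : ∀ k, Yv K k → ℝ) (ι : ℕ → Type) [∀ n, Fintype (ι n)] (wI : ∀ n, ι n → ℝ)
    (lI : ∀ n, ι n → (Fin (n + 1) → Bool) → ℝ) : Prop :=
  ∀ k (y : Yv K k) (n0 : ℕ), |E k y - ‖y‖ + ∑ n ∈ Finset.range n0, 1 / ((n : ℝ) + 1) *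
    ∑ i, wI n i * Psi (zOf y) (lI n i)| ≤ (1 - Real.exp (-(2 * ‖y‖))) ^ n0 * (2 * ‖y‖)

theorem poly_err {k : ℕ} (ν : Measure (Yv K k)) (hν : Integrable (fun y => ‖y‖) ν) :
    (∀ n : ℕ, Integrable (fun y : Yv K k => (1 - Real.exp (-(2 * ‖y‖))) ^ n * (2 * ‖y‖)) ν) ∧
    Tendsto (fun n : ℕ => ∫ y, (1 - Real.exp (-(2 * ‖y‖))) ^ n * (2 * ‖y‖) ∂ν) atTop (𝓝 0) := by
  have h0 : ∀ y : Yv K k, 0 ≤ 1 - Real.exp (-(2 * ‖y‖)) := fun y => by
    have : Real.exp (-(2 * ‖y‖)) ≤ 1 := Real.exp_le_one_iff.2 (by linarith [norm_nonneg y])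
    linarith
  have h1 : ∀ y : Yv K k, 1 - Real.exp (-(2 * ‖y‖)) < 1 := fun y => by
    linarith [Real.exp_pos (-(2 * ‖y‖))]
  have hm : ∀ n : ℕ, AEStronglyMeasurable
      (fun y : Yv K k => (1 - Real.exp (-(2 * ‖y‖))) ^ n * (2 * ‖y‖)) ν := fun n =>
    Continuous.aestronglyMeasurable (by fun_prop)
  have hb : ∀ (n : ℕ) (y : Yv K k),
      ‖(1 - Real.exp (-(2 * ‖y‖))) ^ n * (2 * ‖y‖)‖ ≤ 2 * ‖y‖ := fun n y => by
    have h2 : 0 ≤ 2 * ‖y‖ := by positivity
    rw [Real.norm_eq_abs, abs_of_nonneg (mul_nonneg (pow_nonneg (h0 y) n) h2)]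
    exact mul_le_of_le_one_left h2 (pow_le_one₀ (h0 y) (h1 y).le)
  refine ⟨fun n => (hν.const_mul 2).mono' (hm n) (Eventually.of_forall (hb n)), ?_⟩
  have := tendsto_integral_of_dominated_convergence (μ := ν) (f := fun _ => (0 : ℝ))
    (fun y => 2 * ‖y‖) hm (hν.const_mul 2) (fun n => Eventually.of_forall (hb n))
    (Eventually.of_forall fun y => by
      simpa using (tendsto_pow_atTop_nhds_zero_of_lt_one (h0 y) (h1 y)).mul_const (2 * ‖y‖))
  simpa using this

theorem poly_approx {a : ℝ} (ha : 0 ≤ a) {κ : ∀ k, Measure (Yv K k)} {C : ℝ} (hκ : Mom κ C)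
    {ε : ℝ} (hε : 0 < ε) :
    ∃ k0 n1 : ℕ, ∀ n0, n1 ≤ n0 → ∀ (E : ∀ k, Yv K k → ℝ) (ι : ℕ → Type) [∀ n, Fintype (ι n)]
      (wI : ∀ n, ι n → ℝ) (lI : ∀ n, ι n → (Fin (n + 1) → Bool) → ℝ), Ev E → Expa E ι wI lI →
      |Gval a κ E - cstK a κ k0 + ∑ n ∈ Finset.range n0, 1 / ((n : ℝ) + 1) *
        ∑ i, wI n i * polyK a κ k0 (lI n i)| ≤ ε := by
  have hs := (pois_hasSum_lin a C).summable
  have ht := tendsto_sum_nat_add fun k : ℕ => poi a k * (C * (1 + k))
  obtain ⟨k0, hk0⟩ := (ht.eventually (gt_mem_nhds (half_pos hε))).exists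
  have he : Tendsto (fun n : ℕ => ∑ k ∈ Finset.range k0, poi a k *
      ∫ y, (1 - Real.exp (-(2 * ‖y‖))) ^ n * (2 * ‖y‖) ∂κ k) atTop (𝓝 0) := by
    have := tendsto_finsetSum (Finset.range k0) fun k _ =>
      (poly_err (κ k) (hκ k).2.1).2.const_mul (poi a k)
    simpa using this
  obtain ⟨n1, hn1⟩ := eventually_atTop.1 (he.eventually (gt_mem_nhds (half_pos hε)))
  refine ⟨k0, n1, fun n0 hn0 E ι _ wI lI hE hX => ?_⟩
  have hG := summable_poi ha (lin_ev hκ hE)
  have h1 : |∑' k : ℕ, poi a (k + k0) * ∫ y, E (k + k0) y ∂κ (k + k0)| ≤ ε / 2 := by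
    refine le_trans ?_ hk0.le
    rw [← Real.norm_eq_abs]
    refine tsum_of_norm_bounded ((summable_nat_add_iff k0).2 hs).hasSum fun k => ?_
    rw [Real.norm_eq_abs, abs_mul, abs_of_nonneg (poi_nonneg ha _)]
    exact mul_le_mul_of_nonneg_left (abs_integral_ev_le hκ hE _) (poi_nonneg ha _)
  have h2 : ∀ k, |∫ y, E k y ∂κ k - ∫ y, ‖y‖ ∂κ k + ∑ n ∈ Finset.range n0, 1 / ((n : ℝ) + 1) *
      ∑ i, wI n i * ∫ y, Psi (zOf y) (lI n i) ∂κ k| ≤
      ∫ y, (1 - Real.exp (-(2 * ‖y‖))) ^ n0 * (2 * ‖y‖) ∂κ k := by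
    intro k
    have := (hκ k).1
    have i1 : ∀ n, Integrable (fun y : Yv K k => ∑ i, wI n i * Psi (zOf y) (lI n i)) (κ k) :=
      fun n => integrable_finsetSum _ fun _ _ => (poly_intPsi (κ k) _).const_mul _
    have i2 : Integrable (fun y : Yv K k => ∑ n ∈ Finset.range n0, 1 / ((n : ℝ) + 1) *
        ∑ i, wI n i * Psi (zOf y) (lI n i)) (κ k) :=
      integrable_finsetSum _ fun n _ => (i1 n).const_mul _
    have i3 : Integrable (fun y : Yv K k => E k y - ‖y‖) (κ k) :=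
      (integrable_ev hκ hE k).sub (hκ k).2.1
    have e1 : ∫ y, E k y ∂κ k - ∫ y, ‖y‖ ∂κ k + ∑ n ∈ Finset.range n0, 1 / ((n : ℝ) + 1) *
        ∑ i, wI n i * ∫ y, Psi (zOf y) (lI n i) ∂κ k =
        ∫ y, (E k y - ‖y‖ + ∑ n ∈ Finset.range n0, 1 / ((n : ℝ) + 1) *
          ∑ i, wI n i * Psi (zOf y) (lI n i)) ∂κ k := by
      rw [integral_add i3 i2, integral_sub (integrable_ev hκ hE k) (hκ k).2.1,
        integral_finsetSum _ fun n _ => (i1 n).const_mul _]
      congr 1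
      refine Finset.sum_congr rfl fun n _ => ?_
      rw [integral_const_mul, integral_finsetSum _ fun _ _ => (poly_intPsi (κ k) _).const_mul _]
      simp only [integral_const_mul]
    rw [e1, ← Real.norm_eq_abs]
    exact norm_integral_le_of_norm_le ((poly_err (κ k) (hκ k).2.1).1 n0)
      (Eventually.of_forall fun y => hX k y n0)
  have h3 : Gval a κ E - cstK a κ k0 + ∑ n ∈ Finset.range n0, 1 / ((n : ℝ) + 1) *
      ∑ i, wI n i * polyK a κ k0 (lI n i) =
      ∑ k ∈ Finset.range k0, poi a k * (∫ y, E k y ∂κ k - ∫ y, ‖y‖ ∂κ k +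
        ∑ n ∈ Finset.range n0, 1 / ((n : ℝ) + 1) *
          ∑ i, wI n i * ∫ y, Psi (zOf y) (lI n i) ∂κ k) +
      ∑' k : ℕ, poi a (k + k0) * ∫ y, E (k + k0) y ∂κ (k + k0) := by
    have e1 : Gval a κ E = ∑ k ∈ Finset.range k0, poi a k * ∫ y, E k y ∂κ k +
        ∑' k : ℕ, poi a (k + k0) * ∫ y, E (k + k0) y ∂κ (k + k0) := by
      rw [Gval, pois_eq, ← hG.sum_add_tsum_nat_add k0]
    have e2 : ∑ n ∈ Finset.range n0, 1 / ((n : ℝ) + 1) * ∑ i, wI n i * polyK a κ k0 (lI n i) =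
        ∑ k ∈ Finset.range k0, poi a k * ∑ n ∈ Finset.range n0, 1 / ((n : ℝ) + 1) *
          ∑ i, wI n i * ∫ y, Psi (zOf y) (lI n i) ∂κ k := by
      simp only [polyK, Finset.mul_sum]
      rw [Finset.sum_comm (s := Finset.range k0)]
      refine Finset.sum_congr rfl fun n _ => ?_
      rw [Finset.sum_comm]
      refine Finset.sum_congr rfl fun k _ => Finset.sum_congr rfl fun i _ => ?_
      ring
    rw [e1, e2, cstK]
    simp only [mul_add, mul_sub, Finset.sum_add_distrib, Finset.sum_sub_distrib]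
    ring
  rw [h3]
  refine (abs_add_le _ _).trans ?_
  have h4 := (hn1 n0 hn0).le
  have h5 : |∑ k ∈ Finset.range k0, poi a k * (∫ y, E k y ∂κ k - ∫ y, ‖y‖ ∂κ k +
        ∑ n ∈ Finset.range n0, 1 / ((n : ℝ) + 1) *
          ∑ i, wI n i * ∫ y, Psi (zOf y) (lI n i) ∂κ k)| ≤ ε / 2 := by
    refine le_trans ((Finset.abs_sum_le_sum_abs _ _).trans (Finset.sum_le_sum fun k _ => ?_)) h4
    rw [abs_mul, abs_of_nonneg (poi_nonneg ha _)]
    exact mul_le_mul_of_nonneg_left (h2 k) (poi_nonneg ha _)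
  linarith

theorem poly_log {u c : ℝ} (hu : |u| ≤ c) (hc : c < 1) (n0 : ℕ) :
    |Real.log (1 - u) + ∑ n ∈ Finset.range n0, 1 / ((n : ℝ) + 1) * u ^ (n + 1)| ≤
      c ^ n0 * -Real.log (1 - c) := by
  have hc0 : 0 ≤ c := (abs_nonneg u).trans hu
  have h1 := Real.hasSum_pow_div_log_of_abs_lt_one (hu.trans_lt hc)
  have h2 := (Real.hasSum_pow_div_log_of_abs_lt_one
    (x := c) (by rwa [abs_of_nonneg hc0])).mul_left (c ^ n0)
  have h3 := h1.summable.sum_add_tsum_nat_add n0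
  rw [h1.tsum_eq] at h3
  have h4 : Real.log (1 - u) + ∑ n ∈ Finset.range n0, 1 / ((n : ℝ) + 1) * u ^ (n + 1) =
      -∑' n : ℕ, u ^ (n + n0 + 1) / (((n + n0 : ℕ) : ℝ) + 1) := by
    have : ∑ n ∈ Finset.range n0, 1 / ((n : ℝ) + 1) * u ^ (n + 1) =
        ∑ n ∈ Finset.range n0, u ^ (n + 1) / ((n : ℝ) + 1) :=
      Finset.sum_congr rfl fun n _ => by ring
    rw [this]
    linarith
  rw [h4, abs_neg, ← Real.norm_eq_abs]
  refine tsum_of_norm_bounded h2 fun n => ?_
  have h5 : (0 : ℝ) < (n : ℝ) + 1 := by positivity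
  rw [Real.norm_eq_abs, abs_div, abs_pow, ← mul_div_assoc, ← pow_add,
    abs_of_nonneg (by positivity : (0 : ℝ) ≤ ((n + n0 : ℕ) : ℝ) + 1)]
  have h6 : n0 + (n + 1) = n + n0 + 1 := by ring
  rw [h6]
  refine div_le_div₀ (by positivity) (pow_le_pow_left₀ (abs_nonneg _) hu _) h5 ?_
  push_cast
  linarith [(Nat.cast_nonneg n0 : (0 : ℝ) ≤ n0)]

theorem poly_c (t : ℝ) : 1 - Real.exp (-t) < 1 ∧ -Real.log (1 - (1 - Real.exp (-t))) = t := by
  refine ⟨by linarith [Real.exp_pos (-t)], ?_⟩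
  rw [sub_sub_cancel, Real.log_exp, neg_neg]

theorem poly_emp {J : Type} [Fintype J] [DecidableEq J] (z : (J → Bool) → ℝ) {N n : ℕ}
    (v : Fin n → Fin N → Bool) :
    Psi z (emp v) = 𝔼 idx : J → Fin N, ∏ l, z fun j => v l (idx j) := by
  have h1 : ∀ e : J → Fin n → Bool, cw (emp v) e =
      𝔼 idx : J → Fin N, if (fun j l => v l (idx j)) = e then 1 else 0 := by
    intro e
    simp only [cw, emp, Finset.expect_eq_sum_div_card, Finset.prod_div_distrib,
      Finset.prod_univ_sum, Finset.card_univ, Fintype.piFinset_univ, Finset.prod_const,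
      Fintype.card_fun, Nat.cast_pow]
    congr 1
    refine Finset.sum_congr rfl fun idx _ => ?_
    rw [Finset.prod_ite_zero]
    simp only [Finset.mem_univ, forall_const, Finset.prod_const_one, funext_iff]
  simp only [Psi, h1, Finset.expect_mul]
  rw [← Finset.expect_sum_comm]
  refine Finset.expect_congr rfl fun idx _ => ?_
  simp only [ite_mul, one_mul, zero_mul, Finset.sum_ite_eq, Finset.mem_univ, if_true]

theorem gibbs_exp {N : ℕ} (hN : 1 ≤ N) {g : (Fin N → Bool) → ℝ} (hg : IsPr g) :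
    Expa (EG K g) (fun n => Fin (n + 1) → Fin N → Bool) (fun _ v => cw g v) (fun _ v => emp v) := by
  intro k y n0
  have : Nonempty (Fin N) := ⟨⟨0, hN⟩⟩
  have hu : ∀ idx : Fin k × Fin K → Fin N,
      |∑ s, g s * zOf y fun j => s (idx j)| ≤ 1 - Real.exp (-(2 * ‖y‖)) := fun idx =>
    abs_sum_pr_le hg fun s => by
      rw [abs_of_nonneg (zOf_mem y _).1]
      exact (zOf_mem y _).2
  have h1 : ∀ idx : Fin k × Fin K → Fin N,
      Real.log (∑ s, g s * Real.exp (y fun j => s (idx j))) =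
        ‖y‖ + Real.log (1 - ∑ s, g s * zOf y fun j => s (idx j)) := by
    intro idx
    have e1 : ∑ s, g s * Real.exp (y fun j => s (idx j)) =
        Real.exp ‖y‖ * (1 - ∑ s, g s * zOf y fun j => s (idx j)) := by
      conv_rhs => rw [← hg.2, ← Finset.sum_sub_distrib, Finset.mul_sum]
      refine Finset.sum_congr rfl fun s _ => ?_
      rw [zOf, Real.exp_sub]
      field_simp
      ring
    have e2 : 0 < 1 - ∑ s, g s * zOf y fun j => s (idx j) := by
      linarith [(abs_le.1 (hu idx)).2, (poly_c (2 * ‖y‖)).1]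
    rw [e1, Real.log_mul (Real.exp_pos _).ne' e2.ne', Real.log_exp]
  have h2 : ∀ n : ℕ, ∑ v : Fin (n + 1) → Fin N → Bool, cw g v * Psi (zOf y) (emp v) =
      𝔼 idx : Fin k × Fin K → Fin N, (∑ s, g s * zOf y fun j => s (idx j)) ^ (n + 1) := by
    intro n
    simp only [poly_emp, Finset.mul_expect]
    rw [← Finset.expect_sum_comm]
    refine Finset.expect_congr rfl fun idx _ => ?_
    rw [← Fin.prod_const, Finset.prod_univ_sum, Fintype.piFinset_univ]
    refine Finset.sum_congr rfl fun v _ => ?_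
    rw [cw, Finset.prod_mul_distrib]
  have h3 : EG K g k y - ‖y‖ + ∑ n ∈ Finset.range n0, 1 / ((n : ℝ) + 1) *
      ∑ v : Fin (n + 1) → Fin N → Bool, cw g v * Psi (zOf y) (emp v) =
      𝔼 idx : Fin k × Fin K → Fin N, (Real.log (1 - ∑ s, g s * zOf y fun j => s (idx j)) +
        ∑ n ∈ Finset.range n0, 1 / ((n : ℝ) + 1) *
          (∑ s, g s * zOf y fun j => s (idx j)) ^ (n + 1)) := by
    simp only [EG, h1, h2, Finset.expect_add_distrib, Fintype.expect_const,
      Finset.expect_sum_comm, ← Finset.mul_expect]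
    ring
  rw [h3]
  have h4 : 0 ≤ 1 - Real.exp (-(2 * ‖y‖)) := (zOf_mem y fun _ => true).1.trans (zOf_mem y _).2
  refine abs_expect_le _ (by positivity) fun idx _ => ?_
  have := poly_log (hu idx) (poly_c (2 * ‖y‖)).1 n0
  rwa [(poly_c (2 * ‖y‖)).2] at this

theorem mp_exp {r : ℕ} {A : Type} [Fintype A] {μ : A → ℝ} (hμ : IsPr μ) {m : Fin r → ℝ}
    (hm : Adm m) {x : (Fin (r + 1) → A) → ℝ} (hx : ∀ w, |x w| ≤ 1) :
    Expa (Efin K μ m x) (Hist r) (fun _ h => hP m h) (fun _ h => lamH μ x h) := by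
  intro k y n0
  have h4 : 0 ≤ 1 - Real.exp (-(2 * ‖y‖)) := (zOf_mem y fun _ => true).1.trans (zOf_mem y _).2
  have hc : IsPr (cw μ : (Fin k × Fin K → A) → ℝ) := isPr_cw hμ
  have h1 := expand hc hm (Y := fun _ => Real.exp ‖y‖)
    (z := fun w : Fin (r + 1) → Fin k × Fin K → A => ∑ e : Fin k × Fin K → Bool,
      (∏ j, (1 + (x fun p => w p j) * spin (e j)) / 2) * zOf y e)
    (fun _ => Real.exp_pos _) h4 (poly_c (2 * ‖y‖)).1
    (fun w => abs_sum_pr_le (isPr_half_prod fun j => hx _) fun e => by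
      rw [abs_of_nonneg (zOf_mem y _).1]
      exact (zOf_mem y _).2) n0
  rw [(poly_c (2 * ‖y‖)).2, fT_const hc hm (Real.exp_pos _), Real.log_exp,
    tilt_const hc hm (Real.exp_pos _)] at h1
  have h2 : ∀ (n : ℕ) (h : Hist r n), Psi (zOf y) (lamH μ x h) =
      ∑ v : Fin (n + 1) → Fin (r + 1) → Fin k × Fin K → A, wt (cw μ) (fun _ _ => 1) h v *
        ∏ l, ∑ e : Fin k × Fin K → Bool,
          (∏ j, (1 + (x fun p => v l p j) * spin (e j)) / 2) * zOf y e := by
    intro n h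
    simp only [Finset.prod_univ_sum, Fintype.piFinset_univ, Finset.mul_sum]
    rw [Finset.sum_comm, Psi,
      ← (Equiv.piComm fun (_ : Fin (n + 1)) (_ : Fin k × Fin K) => Bool).sum_comp]
    refine Finset.sum_congr rfl fun e _ => ?_
    have h3 := wt_slot hμ (W := fun _ _ => 1) (Finset.univ : Finset (Fin k × Fin K))
      (fun _ _ _ _ => rfl) h (fun _ => 1) (fun _ _ _ => rfl)
      fun j u => ∏ l, (1 + x (u l) * spin (e l j)) / 2
    simp only [mul_one, one_mul, (isPr_wt hc (normW_one hc) h).2] at h3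
    simp only [Finset.prod_mul_distrib, ← mul_assoc]
    rw [← Finset.sum_mul]
    congr 1
    refine Eq.trans ?_ (h3.symm.trans ?_)
    · rfl
    · exact Finset.sum_congr rfl fun v _ => by rw [Finset.prod_comm]
  simp only [h2, Efin, mext_eq_zOf]
  exact h1

end Vale.Agent.P168
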