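import Vale.Agent.P168.Sys
import Vale.Agent.P168.Avg

/-! P168 StageM: the probability measure on `X` of one finite system.
Plan. `sexp_exch`: `act_om`, then both sides reduce to `n` replicas: `sum_cw_comp` with the
injective map `l ↦ ⟨e l, _⟩ : Fin n → Fin nr` on the left and `gsum_res` on the right
(`res_om_congr`). `exists_stage`: the measure is the finite sum over `(P, mc, v)` of
`ofReal (card⁻¹ * card⁻¹ * ∫ H, cw (pgib (exp ∘ H) ..) v ∂μH) • dirac (om ..)`;
`integral_finset_sum_measure`, `integral_smul_measure`, `integral_dirac`; total mass one by the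
formula for `φ = 1`; `good_om`, `isClosed_good` for the a.e. statement. -/

open MeasureTheory ProbabilityTheory Function Filter Topology
open scoped BigOperators

noncomputable section

namespace Vale.Agent.P168

theorem abs_sexp_le (L B : ℕ) (M : ℕ → ℕ) {N : ℕ} (n : ℕ) {b : (Fin N → Bool) → ℝ}
    (hb : ∀ s, 0 < b s) {φ : X → ℝ} {c : ℝ} (hφ : ∀ ω, |φ ω| ≤ c) : |sexp L B M n b φ| ≤ c := by
  have hc : 0 ≤ c := (abs_nonneg _).trans (hφ fun _ => ⟨0, by norm_num⟩)
  exact abs_expect_le _ hc fun P _ => abs_expect_le _ hc fun mc _ =>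
    abs_gsum_le (isPr_pgib hb _ _) fun τ _ => hφ _

theorem stageM_cont {L N : ℕ} (n : ℕ) (P : ℕ → ℕ → ℕ → ℕ) (mc : Fin L → ℕ)
    (v : Fin n → Fin N → Bool) :
    Continuous fun H : En N => cw (pgib (fun s => Real.exp (H s)) P mc) v := by
  unfold cw pgib gib
  refine continuous_finsetProd _ fun l _ => Continuous.div (by fun_prop) (by fun_prop) fun H => ?_
  exact (Finset.sum_pos (fun s _ => mul_pos (Real.exp_pos _) (pertW_pos P mc (abs_exts_le s)).1)
    Finset.univ_nonempty).ne'

theorem continuous_sexp (L B : ℕ) (M : ℕ → ℕ) {N : ℕ} (n : ℕ) (φ : X → ℝ) :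
    Continuous fun H : En N => sexp L B M n (fun s => Real.exp (H s)) φ := by
  unfold sexp gsum
  simp only [Finset.expect_eq_sum_div_card]
  refine (continuous_finsetSum _ fun P _ => Continuous.div_const ?_ _).div_const _
  exact continuous_finsetSum _ fun mc _ => continuous_finsetSum _ fun v _ =>
    (stageM_cont n _ mc v).mul continuous_const

theorem sexp_exch (L B : ℕ) (M : ℕ → ℕ) {N n nr : ℕ} {b : (Fin N → Bool) → ℝ} (hb : ∀ s, 0 < b s)
    (e : Equiv.Perm ℕ) (hn : n ≤ nr) (he : ∀ l < n, e l < nr) (φ : X → ℝ) :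
    sexp L B M nr b (fun ω => φ (res n (act e ω))) = sexp L B M nr b fun ω => φ (res n ω) := by
  unfold sexp
  refine Finset.expect_congr rfl fun P _ => Finset.expect_congr rfl fun mc _ => ?_
  have hg := isPr_pgib hb (extP P) mc
  rw [gsum_res hn hg (F := fun τ => φ (res n (om (extP P) N M τ))) fun τ τ' h => by
    simp only [res_om_congr _ _ _ h]]
  unfold gsum
  rw [← sum_cw_comp hg (fun l : Fin n => (⟨e l, he l l.2⟩ : Fin nr))
    (fun l l' h => Fin.ext (e.injective (congrArg Fin.val h)))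
    fun v => φ (res n (om (extP P) N M (rep v)))]
  refine Finset.sum_congr rfl fun v _ => ?_
  simp only [act_om]
  rw [res_om_congr _ _ _ (τ' := rep fun l : Fin n => v ⟨e l, he l l.2⟩) fun l hl => ?_]
  unfold rep
  rw [dif_pos hl, dif_pos (he l hl)]

theorem sexp_lam (L B : ℕ) (M : ℕ → ℕ) {N n nr : ℕ} {b : (Fin N → Bool) → ℝ} (hb : ∀ s, 0 < b s)
    (hn : n ≤ nr) (Φ : ((Fin n → Bool) → ℝ) → ℝ) :
    sexp L B M nr b (fun ω => Φ (lam n ω)) = 𝔼 P ∈ PS L B N M, 𝔼 mc ∈ CS L M,
      ∑ v : Fin n → Fin N → Bool, cw (pgib b (extP P) mc) v * Φ (emp v) := by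
  unfold sexp
  refine Finset.expect_congr rfl fun P _ => Finset.expect_congr rfl fun mc _ => ?_
  rw [gsum_res hn (isPr_pgib hb (extP P) mc) (F := fun τ => Φ (lam n (om (extP P) N M τ)))
    fun τ τ' h => by
      rw [← lam_res, res_om_congr _ _ _ h, lam_res]]
  unfold gsum
  simp only [lam_om]

theorem stageM_fin {ι : Type} (S : Finset ι) {c : ι → ℝ} (hc : ∀ i, 0 ≤ c i) (a : ι → X)
    (φ : X → ℝ) :
    ∫ ω, φ ω ∂(∑ i ∈ S, ENNReal.ofReal (c i) • Measure.dirac (a i)) = ∑ i ∈ S, c i * φ (a i) := by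
  rw [integral_finsetSum_measure fun i _ =>
    (integrable_dirac (by simp)).smul_measure ENNReal.ofReal_ne_top]
  refine Finset.sum_congr rfl fun i _ => ?_
  rw [integral_smul_measure, integral_dirac, ENNReal.toReal_ofReal (hc i), smul_eq_mul]

theorem exists_stage (L B : ℕ) {M : ℕ → ℕ} (hM : ∀ s, 1 ≤ M s) {N : ℕ} (hN : 1 ≤ N) (nr : ℕ)
    (μH : Measure (En N)) [IsProbabilityMeasure μH] :
    ∃ ν : ProbabilityMeasure X, (∀ᵐ ω ∂(ν : Measure X), Good ω) ∧ ∀ φ : X → ℝ, Continuous φ →
      ∫ ω, φ ω ∂(ν : Measure X) = ∫ H, sexp L B M nr (fun s => Real.exp (H s)) φ ∂μH := by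
  let S := PS L B N M ×ˢ CS L M ×ˢ (Finset.univ : Finset (Fin nr → Fin N → Bool))
  let w : (PI L B → ℕ) × (Fin L → ℕ) × (Fin nr → Fin N → Bool) → En N → ℝ := fun i H =>
    cw (pgib (fun s => Real.exp (H s)) (extP i.1) i.2.1) i.2.2
  let d : ℝ := ((PS L B N M).card : ℝ)⁻¹ * ((CS L M).card : ℝ)⁻¹
  let a : (PI L B → ℕ) × (Fin L → ℕ) × (Fin nr → Fin N → Bool) → X := fun i =>
    om (extP i.1) N M (rep i.2.2)
  have hw : ∀ i H, 0 ≤ w i H ∧ w i H ≤ 1 := fun i H => by
    have h := isPr_cw (ι := Fin nr) (isPr_pgib (fun s => Real.exp_pos (H s)) (extP i.1) i.2.1)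
    exact ⟨h.1 _, (Finset.single_le_sum (fun v _ => h.1 v) (Finset.mem_univ _)).trans_eq h.2⟩
  have hi : ∀ i, Integrable (w i) μH := fun i =>
    Integrable.of_bound (stageM_cont nr _ _ _).aestronglyMeasurable 1
      (Eventually.of_forall fun H => by
        rw [Real.norm_eq_abs, abs_of_nonneg (hw i H).1]
        exact (hw i H).2)
  have hc : ∀ i, 0 ≤ d * ∫ H, w i H ∂μH := fun i =>
    mul_nonneg (by positivity) (integral_nonneg fun H => (hw i H).1)
  let ν : Measure X := ∑ i ∈ S, ENNReal.ofReal (d * ∫ H, w i H ∂μH) • Measure.dirac (a i)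
  have key : ∀ φ : X → ℝ,
      ∫ ω, φ ω ∂ν = ∫ H, sexp L B M nr (fun s => Real.exp (H s)) φ ∂μH := fun φ => by
    have h1 : ∀ H : En N, sexp L B M nr (fun s => Real.exp (H s)) φ =
        ∑ i ∈ S, d * w i H * φ (a i) := fun H => by
      simp only [sexp, gsum, Finset.expect_eq_sum_div_card, S, Finset.sum_product, Finset.sum_div]
      refine Finset.sum_congr rfl fun P _ => Finset.sum_congr rfl fun mc _ =>
        Finset.sum_congr rfl fun v _ => ?_
      simp only [d, w, a]
      ring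
    simp only [h1]
    rw [stageM_fin S hc, integral_finsetSum _ fun i _ => ((hi i).const_mul d).mul_const _]
    refine Finset.sum_congr rfl fun i _ => ?_
    rw [integral_mul_const, integral_const_mul]
  have hp : IsProbabilityMeasure ν := by
    have h1 := key fun _ => 1
    have h2 : ∀ H : En N, sexp L B M nr (fun s => Real.exp (H s)) (fun _ => 1) = 1 := fun H => by
      have h3 : ∀ P mc, gsum nr (pgib (L := L) (fun s => Real.exp (H s)) P mc) (fun _ => 1) = 1 :=
        fun P mc => by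
          simp only [gsum, mul_one]
          exact (isPr_cw (isPr_pgib (fun s => Real.exp_pos (H s)) P mc)).2
      simp only [sexp, h3, Finset.expect_const (CS_nonempty L hM),
        Finset.expect_const (PS_nonempty L B hN hM)]
    simp only [h2, integral_const, probReal_univ, smul_eq_mul, mul_one] at h1
    exact ⟨(ENNReal.toReal_eq_one_iff _).1 h1⟩
  refine ⟨⟨ν, hp⟩, ?_, fun φ _ => key φ⟩
  change ν {ω | Good ω}ᶜ = 0
  simp only [ν, Measure.coe_finsetSum, Finset.sum_apply, Measure.smul_apply, smul_eq_mul]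
  refine Finset.sum_eq_zero fun i _ => mul_eq_zero_of_right _ ?_
  rw [Measure.dirac_apply, Set.indicator_of_notMem]
  exact fun h => h (good_om _ hN hM (abs_rep_le _))

end Vale.Agent.P168
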