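import Vale.Agent.P168.Wt
import Vale.Agent.P168.Fourier

/-! P168 Tree: finite hierarchical de Finetti theorem (finite combinatorics).
Plan. Take `M = M' + 1` large, leaves `Lf = Fin (r+1) → Fin M` enumerated by an equivalence
`en : Lf ≃ Fin (nb + 1)` (`Fintype.equivFinOfCardEq`), and the pattern
`db a a' = ` number of `p < r` such that the two leaves agree in the coordinates `≤ p` (it is `UP`).
Let `Λ = lamOf (mo nb db)`, alphabet `A = (Fin (nb+1) → Bool) × Fin M`, `μ (s, i) = Λ s / M`,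
`leaf γ k = fun q => if q < r then γ (q+1) else k` and
`x w = 𝔼 k, spin ((w 0).1 (en (leaf (fun p => (w p).2) k)))`. Steps: (1) `wt` for a product
alphabet factorises, `wt (μ1 ⊗ μ2) 1 h v = wt μ1 1 h (fst ∘ v) * wt μ2 1 h (snd ∘ v)` (induction);
(2) `∑ v1, wt μ1 1 h v1 * G (fun l => v1 l 0) = ∑ s, μ1 s * G (fun _ => s)` (induction with
`sum_wt_succ`, `sum_ker`; the kernel keeps level 0); (3) call `γ` good if for `l ≠ l'` the paths
agree at the levels `1..pat h l l'` and differ at level `pat h l l' + 1` when this is `≤ r`; the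
`wt`-probability of not good is at most `n (n+1) / (2M) ≤ (n+1)^2 / M` (induction: the fresh
coordinate at level `p + 1` hits one of the `n + 1` old values with probability `≤ (n+1)/M`);
(4) `∏ l ∈ S, x (v l) = 𝔼 k : Fin (n+1) → Fin M, ∏ l ∈ S, spin (s (en (leaf (γ l) (k l))))`, `k` is
injective except with probability `≤ (n+1)^2 / M`; for good `γ` and injective `k`,
`e l = en (leaf (γ l) (k l))` is an embedding with `db (e i) (e j) = pat h i j`, so
`sum_lamOf_mul` and `hcons` give exactly `mo n (pat h) S`; all terms are bounded by one. -/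

open MeasureTheory ProbabilityTheory Function Filter Topology
open scoped BigOperators

noncomputable section

namespace Vale.Agent.P168

section aux

variable {r : ℕ} {A B : Type} [Fintype A] [Fintype B]

theorem tree_coord {ι : Type} [Fintype ι] [DecidableEq ι] {μ : A → ℝ} (hμ : IsPr μ) (i : ι)
    (g : A → ℝ) : ∑ x : ι → A, cw μ x * g (x i) = ∑ a, μ a * g a := by
  have h := sum_cw_indep hμ ({i} : Finset ι) (fun _ => 1) (fun _ _ _ => rfl) fun _ => g
  simp only [Finset.prod_singleton, one_mul, mul_one, (isPr_cw (ι := ι) hμ).2] at h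
  exact h

open Classical in
theorem tree_coll {ι : Type} [Fintype ι] [DecidableEq ι] {μ : A → ℝ} (hμ : IsPr μ) {c : ℝ}
    (hc : ∀ a, μ a = c) {i j : ι} (hij : i ≠ j) :
    ∑ x : ι → A, cw μ x * (if x i = x j then 1 else 0) = c := by
  have h1 : ∀ a : A, ∑ x : ι → A, cw μ x * ((if x j = a then 1 else 0) * if x i = a then 1 else 0)
      = (∑ x : ι → A, cw μ x * if x j = a then 1 else 0) * c := by
    intro a
    have h := sum_cw_indep hμ ({i} : Finset ι) (fun x => if x j = a then (1 : ℝ) else 0)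
      (fun x x' hx => by rw [hx j (by simpa using hij.symm)]) fun _ b => if b = a then 1 else 0
    simp only [Finset.prod_singleton] at h
    rw [h]
    congr 1
    simp [hc]
  have h2 : ∀ x : ι → A, cw μ x * (if x i = x j then (1 : ℝ) else 0)
      = ∑ a, cw μ x * ((if x j = a then 1 else 0) * if x i = a then 1 else 0) := by
    intro x
    rw [← Finset.mul_sum]
    congr 1
    simp [eq_comm (a := x i) (b := x j)]
  rw [Finset.sum_congr rfl fun x _ => h2 x, Finset.sum_comm, Finset.sum_congr rfl fun a _ => h1 a,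
    ← Finset.sum_mul, Finset.sum_comm]
  have h3 : ∀ x : ι → A, ∑ a, cw μ x * (if x j = a then (1 : ℝ) else 0) = cw μ x := by
    intro x
    rw [← Finset.mul_sum]
    simp
  rw [Finset.sum_congr rfl fun x _ => h3 x, (isPr_cw hμ).2, one_mul]

theorem tree_ninj {n : ℕ} {μ : A → ℝ} (hμ : IsPr μ) {c : ℝ} (hc : ∀ a, μ a = c) (hc0 : 0 ≤ c)
    [∀ x : Fin n → A, Decidable (Injective x)] :
    ∑ x : Fin n → A, cw μ x * (if Injective x then 0 else 1) ≤ (n : ℝ) ^ 2 * c := by
  classical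
  calc ∑ x : Fin n → A, cw μ x * (if Injective x then (0 : ℝ) else 1)
      ≤ ∑ x : Fin n → A, ∑ p ∈ (Finset.univ : Finset (Fin n)).offDiag,
          cw μ x * (if x p.1 = x p.2 then 1 else 0) := by
        refine Finset.sum_le_sum fun x _ => ?_
        rw [← Finset.mul_sum]
        refine mul_le_mul_of_nonneg_left ?_ (cw_nonneg hμ x)
        have h0 : ∀ p ∈ (Finset.univ : Finset (Fin n)).offDiag,
            (0 : ℝ) ≤ if x p.1 = x p.2 then 1 else 0 := fun p _ => by split_ifs <;> norm_num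
        split_ifs with h
        · exact Finset.sum_nonneg h0
        · obtain ⟨i, j, h1, h2⟩ := Function.not_injective_iff.1 h
          have h3 := Finset.single_le_sum h0
            (show (i, j) ∈ (Finset.univ : Finset (Fin n)).offDiag by simpa using h2)
          rwa [if_pos h1] at h3
    _ = ∑ _p ∈ (Finset.univ : Finset (Fin n)).offDiag, c := by
        rw [Finset.sum_comm]
        refine Finset.sum_congr rfl fun p hp => ?_
        exact tree_coll hμ hc (Finset.mem_offDiag.1 hp).2.2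
    _ ≤ (n : ℝ) ^ 2 * c := by
        rw [Finset.sum_const, nsmul_eq_mul]
        refine mul_le_mul_of_nonneg_right ?_ hc0
        have : (Finset.univ : Finset (Fin n)).offDiag.card ≤ n ^ 2 := by
          rw [Finset.offDiag_card, Finset.card_univ, Fintype.card_fin, sq]
          exact Nat.sub_le _ _
        exact_mod_cast this

omit [Fintype A] in
theorem tree_ker_ne {μ : A → ℝ} {W : ℕ → (Fin (r + 1) → A) → ℝ} {p : ℕ} {w w' : Fin (r + 1) → A}
    (h : ker μ W p w w' ≠ 0) (q : Fin (r + 1)) (hq : (q : ℕ) ≤ p) : w' q = w q := by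
  unfold ker at h
  by_contra h1
  apply h
  rw [if_neg (fun h2 => h1 (h2 q hq)), zero_mul]

omit [Fintype A] [Fintype B] in
theorem tree_ker_prod (μ₁ : A → ℝ) (μ₂ : B → ℝ) (p : ℕ) (w w' : Fin (r + 1) → A × B) :
    ker (fun a : A × B => μ₁ a.1 * μ₂ a.2) (fun _ _ => 1) p w w' =
      ker μ₁ (fun _ _ => 1) p (fun q => (w q).1) (fun q => (w' q).1) *
        ker μ₂ (fun _ _ => 1) p (fun q => (w q).2) (fun q => (w' q).2) := by
  unfold ker
  simp only [mul_one, Finset.prod_mul_distrib]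
  by_cases h : ∀ q : Fin (r + 1), (q : ℕ) ≤ p → w' q = w q
  · rw [if_pos h, if_pos fun q hq => by rw [h q hq], if_pos fun q hq => by rw [h q hq]]
    ring
  · rw [if_neg h]
    by_cases h1 : ∀ q : Fin (r + 1), (q : ℕ) ≤ p → (w' q).1 = (w q).1
    · rw [if_neg (c := ∀ q : Fin (r + 1), (q : ℕ) ≤ p → (w' q).2 = (w q).2)
        fun h2 => h fun q hq => Prod.ext (h1 q hq) (h2 q hq)]
      ring
    · rw [if_neg h1]
      ring

theorem tree_split (F : (Fin (r + 1) → A × B) → ℝ) :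
    ∑ w, F w = ∑ w₂ : Fin (r + 1) → B, ∑ w₁ : Fin (r + 1) → A, F fun q => (w₁ q, w₂ q) := by
  rw [Finset.sum_comm, ← Fintype.sum_prod_type']
  exact Fintype.sum_equiv (Equiv.arrowProdEquivProdArrow _ _ _) _ _ fun w => rfl

theorem tree_ker_marg {μ₁ : A → ℝ} (h₁ : IsPr μ₁) (μ₂ : B → ℝ) (p : ℕ) (w : Fin (r + 1) → A × B)
    (G : (Fin (r + 1) → B) → ℝ) :
    ∑ w', ker (fun a : A × B => μ₁ a.1 * μ₂ a.2) (fun _ _ => 1) p w w' * G (fun q => (w' q).2) =
      ∑ w₂, ker μ₂ (fun _ _ => 1) p (fun q => (w q).2) w₂ * G w₂ := by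
  rw [tree_split]
  refine Finset.sum_congr rfl fun w₂ _ => ?_
  simp only [tree_ker_prod, mul_assoc]
  rw [← Finset.sum_mul, sum_ker (normW_one h₁), one_mul]

omit [Fintype A] in
theorem tree_wt_ne {μ : A → ℝ} {W : ℕ → (Fin (r + 1) → A) → ℝ} :
    ∀ {n : ℕ} (h : Hist r n) (v : Fin (n + 1) → Fin (r + 1) → A), wt μ W h v ≠ 0 →
      ∀ l, v l 0 = v 0 0
  | 0, _, v, _, l => by rw [Subsingleton.elim (α := Fin 1) l 0]
  | n + 1, h, v, hv, l => by
    have h1 : wt μ W h.1 (Fin.init v) ≠ 0 := left_ne_zero_of_mul hv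
    have h2 : ker μ W h.2.2 (Fin.init v h.2.1) (v (Fin.last (n + 1))) ≠ 0 :=
      right_ne_zero_of_mul hv
    have h3 := tree_wt_ne h.1 (Fin.init v) h1
    refine Fin.lastCases ?_ (fun i => ?_) l
    · rw [tree_ker_ne h2 0 (Nat.zero_le _), h3]
      rfl
    · exact h3 i

omit [Fintype A] in
theorem tree_first (μ : A → ℝ) (w : Fin (r + 1) → A) :
    μ (w 0) * ker μ (fun _ _ => 1) 0 w w = cw μ w := by
  unfold ker cw
  rw [if_pos fun _ _ => rfl, one_mul, ← Finset.mul_prod_erase _ _ (Finset.mem_univ (0 : Fin (r + 1)))]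
  simp only [mul_one]
  congr 1
  refine Finset.prod_congr ?_ fun _ _ => rfl
  ext q
  simp [Nat.pos_iff_ne_zero]

theorem tree_marg {μ₁ : A → ℝ} (h₁ : IsPr μ₁) (μ₂ : B → ℝ) :
    ∀ {n : ℕ} (h : Hist r n) (F : A → (Fin (n + 1) → Fin (r + 1) → B) → ℝ),
      ∑ v, wt (fun a : A × B => μ₁ a.1 * μ₂ a.2) (fun _ _ => 1) h v *
          F (v 0 0).1 (fun l q => (v l q).2) =
        ∑ γ, wt μ₂ (fun _ _ => 1) h γ * ∑ s, μ₁ s * F s γ
  | 0, h, F => by
    rw [sum_wt_zero, sum_wt_zero]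
    simp only [tree_first]
    rw [tree_split]
    refine Finset.sum_congr rfl fun w₂ _ => ?_
    rw [← tree_coord h₁ (0 : Fin (r + 1)) fun s => F s fun _ => w₂, Finset.mul_sum]
    refine Finset.sum_congr rfl fun w₁ _ => ?_
    have h2 := tree_first (fun a : A × B => μ₁ a.1 * μ₂ a.2) fun q => (w₁ q, w₂ q)
    simp only [cw, Finset.prod_mul_distrib] at h2 ⊢
    rw [h2]
    ring
  | n + 1, ⟨h, l, p⟩, F => by
    rw [sum_wt_succ, sum_wt_succ]
    have h2 := tree_marg h₁ μ₂ h fun s γ => ∑ w₂, ker μ₂ (fun _ _ => 1) p (γ l) w₂ *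
      F s (Fin.snoc (α := fun _ => Fin (r + 1) → B) γ w₂)
    have h3 : ∀ γ : Fin (n + 1) → Fin (r + 1) → B,
        ∑ s, μ₁ s * ∑ w₂, ker μ₂ (fun _ _ => 1) p (γ l) w₂ *
          F s (Fin.snoc (α := fun _ => Fin (r + 1) → B) γ w₂) =
        ∑ w₂, ker μ₂ (fun _ _ => 1) p (γ l) w₂ *
          ∑ s, μ₁ s * F s (Fin.snoc (α := fun _ => Fin (r + 1) → B) γ w₂) := by
      intro γ
      simp only [Finset.mul_sum]
      rw [Finset.sum_comm]
      exact Finset.sum_congr rfl fun _ _ => Finset.sum_congr rfl fun _ _ => by ring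
    simp only [h3] at h2
    rw [← h2]
    refine Finset.sum_congr rfl fun v _ => ?_
    congr 1
    rw [← tree_ker_marg h₁ μ₂ p (v l) fun w₂ => F (v 0 0).1
      (Fin.snoc (α := fun _ => Fin (r + 1) → B) (fun l q => (v l q).2) w₂)]
    refine Finset.sum_congr rfl fun w' _ => ?_
    congr 2
    funext i
    refine Fin.lastCases ?_ (fun j => ?_) i
    · simp only [Fin.snoc_last]
    · simp only [Fin.snoc_castSucc]

/-- the paths realise the pattern -/
def TreeGood {n : ℕ} (d : Fin n → Fin n → ℕ) (γ : Fin n → Fin (r + 1) → A) : Prop :=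
  ∀ l l', (∀ q : Fin (r + 1), (q : ℕ) ≤ d l l' → γ l q = γ l' q) ∧
    ∀ q : Fin (r + 1), (q : ℕ) = d l l' + 1 → γ l q ≠ γ l' q

omit [Fintype A] in
theorem tree_good_snoc {n : ℕ} {d : Fin n → Fin n → ℕ}
    {γ : Fin n → Fin (r + 1) → A} (hγ : TreeGood d γ) (l : Fin n) (p : ℕ) (w : Fin (r + 1) → A)
    (h1 : ∀ q : Fin (r + 1), (q : ℕ) ≤ p → w q = γ l q)
    (h2 : ∀ (l' : Fin n) (q : Fin (r + 1)), (q : ℕ) = p + 1 → w q ≠ γ l' q) :
    TreeGood (extPat r d fun l' => min p (d l l'))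
      (Fin.snoc (α := fun _ => Fin (r + 1) → A) γ w) := by
  have k1 : ∀ (j : Fin n) (q : Fin (r + 1)), (q : ℕ) ≤ min p (d l j) → w q = γ j q :=
    fun j q hq => (h1 q (hq.trans (min_le_left _ _))).trans
      ((hγ l j).1 q (hq.trans (min_le_right _ _)))
  have k2 : ∀ (j : Fin n) (q : Fin (r + 1)), (q : ℕ) = min p (d l j) + 1 → w q ≠ γ j q := by
    intro j q hq
    rcases le_or_gt p (d l j) with h | h
    · exact h2 j q (by rw [hq, min_eq_left h])
    · rw [min_eq_right h.le] at hq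
      rw [h1 q (by omega)]
      exact (hγ l j).2 q hq
  intro i j
  unfold extPat
  refine Fin.lastCases ?_ (fun i' => ?_) i <;> refine Fin.lastCases ?_ (fun j' => ?_) j <;>
    simp only [Fin.snoc_last, Fin.snoc_castSucc]
  · exact ⟨fun _ _ => trivial, fun q hq => absurd q.2 (by omega)⟩
  · exact ⟨k1 j', k2 j'⟩
  · exact ⟨fun q hq => (k1 i' q hq).symm, fun q hq => (k2 i' q hq).symm⟩
  · exact hγ i' j'

theorem tree_fresh {μ : A → ℝ} (hμ : IsPr μ) {p : ℕ} (hp : p < r) (w : Fin (r + 1) → A)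
    (G : A → ℝ) :
    ∑ w', ker μ (fun _ _ => 1) p w w' * G (w' (Fin.succ ⟨p, hp⟩)) = ∑ u, μ u * G u := by
  rw [ker_step μ (normW_one hμ).2.1 hp]
  refine Finset.sum_congr rfl fun u _ => ?_
  have h1 : ∀ w', ker μ (fun _ _ => 1) (p + 1) (update w (Fin.succ ⟨p, hp⟩) u) w' *
      G (w' (Fin.succ ⟨p, hp⟩)) =
      ker μ (fun _ _ => 1) (p + 1) (update w (Fin.succ ⟨p, hp⟩) u) w' * G u := by
    intro w'
    by_cases h : ker μ (fun _ _ => 1) (p + 1) (update w (Fin.succ ⟨p, hp⟩) u) w' = 0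
    · rw [h, zero_mul, zero_mul]
    · rw [tree_ker_ne h _ (by simp), update_self]
  rw [Finset.sum_congr rfl fun w' _ => h1 w', ← Finset.sum_mul, sum_ker (normW_one hμ)]
  ring

open Classical in
theorem tree_hit {μ : A → ℝ} (hμ : IsPr μ) {c : ℝ} (hc : ∀ a, μ a = c) (hc0 : 0 ≤ c) {n : ℕ}
    (γ : Fin n → Fin (r + 1) → A) (p : ℕ) (w : Fin (r + 1) → A) :
    ∑ w', ker μ (fun _ _ => 1) p w w' *
      (if ∀ (l' : Fin n) (q : Fin (r + 1)), (q : ℕ) = p + 1 → w' q ≠ γ l' q then 0 else 1)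
      ≤ n * c := by
  rcases lt_or_ge p r with hp | hp
  · calc _ ≤ ∑ w', ker μ (fun _ _ => 1) p w w' *
            ∑ l', (if w' (Fin.succ ⟨p, hp⟩) = γ l' (Fin.succ ⟨p, hp⟩) then (1 : ℝ) else 0) := by
          refine Finset.sum_le_sum fun w' _ => ?_
          refine mul_le_mul_of_nonneg_left ?_ (ker_nonneg hμ (normW_one hμ) _ _ _)
          have h0 : ∀ l' ∈ (Finset.univ : Finset (Fin n)), (0 : ℝ) ≤
              if w' (Fin.succ ⟨p, hp⟩) = γ l' (Fin.succ ⟨p, hp⟩) then 1 else 0 :=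
            fun l' _ => by split_ifs <;> norm_num
          split_ifs with h
          · exact Finset.sum_nonneg h0
          · push Not at h
            obtain ⟨l', q, hq, h1⟩ := h
            have h2 : q = Fin.succ ⟨p, hp⟩ := Fin.ext hq
            have h3 := Finset.single_le_sum h0 (Finset.mem_univ l')
            rwa [← h2, if_pos h1, h2] at h3
      _ = ∑ u, μ u * ∑ l', (if u = γ l' (Fin.succ ⟨p, hp⟩) then (1 : ℝ) else 0) :=
          tree_fresh hμ hp w fun u => ∑ l', if u = γ l' (Fin.succ ⟨p, hp⟩) then (1 : ℝ) else 0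
      _ = n * c := by
          simp only [Finset.mul_sum]
          rw [Finset.sum_comm]
          simp [hc]
  · rw [Finset.sum_eq_zero fun w' _ => by
      rw [if_pos fun l' q hq => absurd q.2 (by omega), mul_zero]]
    positivity

open Classical in
theorem tree_bad {μ : A → ℝ} (hμ : IsPr μ) {c : ℝ} (hc : ∀ a, μ a = c) (hc0 : 0 ≤ c) :
    ∀ {n : ℕ} (h : Hist r n),
      ∑ γ, wt μ (fun _ _ => 1) h γ * (if TreeGood (pat h) γ then 0 else 1) ≤ ((n : ℝ) + 1) ^ 2 * c
  | 0, h => by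
    rw [Finset.sum_eq_zero fun γ _ => ?_]
    · positivity
    · rw [if_pos, mul_zero]
      intro l l'
      rw [Subsingleton.elim (α := Fin 1) l l']
      exact ⟨fun _ _ => rfl, fun q hq => absurd q.2 (by change (q : ℕ) = r + 1 at hq; omega)⟩
  | n + 1, ⟨h, l, p⟩ => by
    rw [sum_wt_succ]
    have ih := tree_bad hμ hc hc0 h
    have h1 : ∀ γ : Fin (n + 1) → Fin (r + 1) → A,
        ∑ w', ker μ (fun _ _ => 1) p (γ l) w' *
          (if TreeGood (pat (n := n + 1) (h, l, p))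
            (Fin.snoc (α := fun _ => Fin (r + 1) → A) γ w') then (0 : ℝ) else 1)
        ≤ (if TreeGood (pat h) γ then 0 else 1) + ((n + 1 : ℕ) : ℝ) * c := by
      intro γ
      have hk := ker_nonneg hμ (normW_one (r := r) hμ) p (γ l)
      by_cases hg : TreeGood (pat h) γ
      · rw [if_pos hg, zero_add]
        refine le_trans (Finset.sum_le_sum fun w' _ => ?_) (tree_hit hμ hc hc0 γ p (γ l))
        by_cases hk0 : ker μ (fun _ _ => 1) p (γ l) w' = 0
        · rw [hk0, zero_mul, zero_mul]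
        · refine mul_le_mul_of_nonneg_left ?_ (hk w')
          by_cases h2 : ∀ (l' : Fin (n + 1)) (q : Fin (r + 1)), (q : ℕ) = p + 1 → w' q ≠ γ l' q
          · rw [if_pos h2, if_pos]
            exact tree_good_snoc hg l p w' (tree_ker_ne hk0) h2
          · rw [if_neg h2]
            split_ifs <;> norm_num
      · rw [if_neg hg]
        refine le_trans (Finset.sum_le_sum fun w' _ =>
          mul_le_mul_of_nonneg_left (show _ ≤ (1 : ℝ) by split_ifs <;> norm_num) (hk w')) ?_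
        rw [← Finset.sum_mul, sum_ker (normW_one hμ), one_mul]
        have : 0 ≤ ((n + 1 : ℕ) : ℝ) * c := by positivity
        linarith
    refine le_trans (Finset.sum_le_sum fun γ _ =>
      mul_le_mul_of_nonneg_left (h1 γ) (wt_nonneg hμ (normW_one hμ) h γ)) ?_
    simp only [mul_add, Finset.sum_add_distrib]
    rw [← Finset.sum_mul, (isPr_wt hμ (normW_one hμ) h).2]
    push_cast
    have : (0 : ℝ) ≤ n * c := by positivity
    nlinarith

open Classical in
/-- number of common levels of two paths -/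
def treeD (γ γ' : Fin (r + 1) → A) : ℕ :=
  Nat.findGreatest (fun m => ∀ q : Fin (r + 1), 0 < (q : ℕ) → (q : ℕ) ≤ m → γ q = γ' q) r

omit [Fintype A] in
theorem treeD_le (γ γ' : Fin (r + 1) → A) : treeD γ γ' ≤ r := by
  classical
  exact Nat.findGreatest_le r

omit [Fintype A] in
theorem tree_le_D {γ γ' : Fin (r + 1) → A} {m : ℕ} (hm : m ≤ r) :
    m ≤ treeD γ γ' ↔ ∀ q : Fin (r + 1), 0 < (q : ℕ) → (q : ℕ) ≤ m → γ q = γ' q := by
  classical
  constructor
  · intro h q h0 hq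
    have h1 := Nat.findGreatest_spec
      (P := fun m => ∀ q : Fin (r + 1), 0 < (q : ℕ) → (q : ℕ) ≤ m → γ q = γ' q) (Nat.zero_le r)
      (fun q h0 hq => absurd h0 (not_lt.2 hq))
    exact h1 q h0 (hq.trans h)
  · exact fun h => Nat.le_findGreatest hm h

omit [Fintype A] in
theorem tree_up {N : ℕ} (f : Fin N → Fin (r + 1) → A) : UP r fun a b => treeD (f a) (f b) := by
  have hs : ∀ γ γ' : Fin (r + 1) → A, treeD γ γ' ≤ treeD γ' γ := fun γ γ' =>
    (tree_le_D (treeD_le _ _)).2 fun q h0 hq =>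
      ((tree_le_D (treeD_le _ _)).1 le_rfl q h0 hq).symm
  refine ⟨fun i => le_antisymm (treeD_le _ _) ((tree_le_D le_rfl).2 fun _ _ _ => rfl),
    fun i j => le_antisymm (hs _ _) (hs _ _), fun i j => treeD_le _ _, fun i j k => ?_⟩
  have hm : min (treeD (f i) (f k)) (treeD (f j) (f k)) ≤ r := (min_le_left _ _).trans (treeD_le _ _)
  exact (tree_le_D hm).2 fun q h0 hq => ((tree_le_D hm).1 (min_le_left _ _) q h0 hq).trans
    ((tree_le_D hm).1 (min_le_right _ _) q h0 hq).symm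

omit [Fintype A] in
theorem tree_D_eq {n : ℕ} {d : Fin n → Fin n → ℕ} (hd : UP r d) {γ : Fin n → Fin (r + 1) → A}
    (hγ : TreeGood d γ) (i j : Fin n) : treeD (γ i) (γ j) = d i j := by
  refine le_antisymm (le_of_not_gt fun h => ?_)
    ((tree_le_D (hd.2.2.1 i j)).2 fun q _ hq => (hγ i j).1 q hq)
  have h1 : d i j + 1 ≤ r := le_trans h (treeD_le _ _)
  exact (hγ i j).2 ⟨d i j + 1, by omega⟩ rfl
    ((tree_le_D h1).1 h ⟨d i j + 1, by omega⟩ (Nat.succ_pos _) le_rfl)

theorem tree_abs_prod {ι : Type} (S : Finset ι) (f : ι → Bool) : |∏ l ∈ S, spin (f l)| ≤ 1 := by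
  rw [Finset.abs_prod, Finset.prod_eq_one fun l _ => abs_spin (f l)]

end aux

theorem tree {r : ℕ}
    (mo : ∀ n : ℕ, (Fin (n + 1) → Fin (n + 1) → ℕ) → Finset (Fin (n + 1)) → ℝ)
    (hcons : ∀ (n0 n : ℕ) (e : Fin (n0 + 1) ↪ Fin (n + 1)) (d : Fin (n + 1) → Fin (n + 1) → ℕ),
      UP r d → ∀ S, mo n d (S.map e) = mo n0 (fun i j => d (e i) (e j)) S)
    (hpr : ∀ n d, UP r d → IsPr (lamOf (mo n d))) (n0 : ℕ) {ε : ℝ} (hε : 0 < ε) :
    ∃ (A : Type) (_ : Fintype A) (μ : A → ℝ) (x : (Fin (r + 1) → A) → ℝ), IsPr μ ∧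
      (∀ w, |x w| ≤ 1) ∧ ∀ n < n0, ∀ (h : Hist r n) (S : Finset (Fin (n + 1))),
        |∑ v, wt μ (fun _ _ => 1) h v * ∏ l ∈ S, x (v l) - mo n (pat h) S| ≤ ε := by
  classical
  obtain ⟨M, hM⟩ := exists_nat_ge (4 * (n0 : ℝ) ^ 2 / ε)
  obtain ⟨nb, hnb⟩ : ∃ nb, Fintype.card ((Fin (r + 1) → Fin (M + 1)) × Fin (M + 1)) = nb + 1 :=
    Nat.exists_eq_succ_of_ne_zero Fintype.card_ne_zero
  obtain ⟨en⟩ : Nonempty ((Fin (r + 1) → Fin (M + 1)) × Fin (M + 1) ≃ Fin (nb + 1)) :=
    ⟨Fintype.equivFinOfCardEq hnb⟩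
  obtain ⟨c, hc⟩ : ∃ c : ℝ, c = 1 / ((M : ℝ) + 1) := ⟨_, rfl⟩
  have hc0 : 0 ≤ c := by rw [hc]; positivity
  have hν : IsPr fun _ : Fin (M + 1) => c := by
    refine ⟨fun _ => hc0, ?_⟩
    rw [Finset.sum_const, Finset.card_univ, Fintype.card_fin, nsmul_eq_mul, hc]
    push_cast
    field_simp
  have hup := tree_up (r := r) fun a : Fin (nb + 1) => (en.symm a).1
  have hΛ := hpr nb _ hup
  obtain ⟨Λ, hΛd⟩ : ∃ Λ, Λ = lamOf (mo nb fun a b => treeD (en.symm a).1 (en.symm b).1) :=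
    ⟨_, rfl⟩
  rw [← hΛd] at hΛ
  refine ⟨(Fin (nb + 1) → Bool) × Fin (M + 1), inferInstance, fun a => Λ a.1 * c,
    fun w => ∑ k, c * spin ((w 0).1 (en (fun q => (w q).2, k))), ⟨fun a => mul_nonneg (hΛ.1 _) hc0, ?_⟩,
    fun w => abs_sum_pr_le hν fun k => (abs_spin _).le, fun n hn h S => ?_⟩
  · rw [Fintype.sum_prod_type]
    simp only [← Finset.mul_sum, hν.2, mul_one, hΛ.2]
  have e1 : ∀ v : Fin (n + 1) → Fin (r + 1) → (Fin (nb + 1) → Bool) × Fin (M + 1),
      wt (fun a => Λ a.1 * c) (fun _ _ => 1) h v *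
        ∏ l ∈ S, ∑ k, c * spin ((v l 0).1 (en (fun q => (v l q).2, k))) =
      wt (fun a => Λ a.1 * c) (fun _ _ => 1) h v *
        ∑ k : Fin (n + 1) → Fin (M + 1), cw (fun _ => c) k *
          ∏ l ∈ S, spin ((v 0 0).1 (en (fun q => (v l q).2, k l))) := by
    intro v
    by_cases hv : wt (fun a : (Fin (nb + 1) → Bool) × Fin (M + 1) => Λ a.1 * c) (fun _ _ => 1) h v = 0
    · rw [hv, zero_mul, zero_mul]
    · have h1 := sum_cw_indep hν S (fun _ => 1) (fun _ _ _ => rfl)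
        fun l k => spin ((v 0 0).1 (en (fun q => (v l q).2, k)))
      simp only [one_mul, mul_one, (isPr_cw (ι := Fin (n + 1)) hν).2] at h1
      rw [h1]
      simp only [tree_wt_ne h v hv]
  have e2 := tree_marg hΛ (fun _ : Fin (M + 1) => c) h fun s γ =>
    ∑ k : Fin (n + 1) → Fin (M + 1), cw (fun _ => c) k * ∏ l ∈ S, spin (s (en (γ l, k l)))
  rw [Finset.sum_congr rfl fun v _ => e1 v, e2]
  have hw := isPr_wt hν (normW_one hν) h
  have hk := isPr_cw (ι := Fin (n + 1)) hν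
  have hmo : |mo n (pat h) S| ≤ 1 := by
    rw [← sum_lamOf_mul (mo n (pat h)) S]
    exact abs_sum_pr_le (hpr n _ (up_pat h)) fun e => tree_abs_prod S e
  have e3 : ∀ (γ : Fin (n + 1) → Fin (r + 1) → Fin (M + 1)) (k : Fin (n + 1) → Fin (M + 1)),
      |∑ s, Λ s * ∏ l ∈ S, spin (s (en (γ l, k l))) - mo n (pat h) S| ≤
        2 * (if TreeGood (pat h) γ then 0 else 1) + 2 * if Injective k then 0 else 1 := by
    intro γ k
    have h1 : |∑ s, Λ s * ∏ l ∈ S, spin (s (en (γ l, k l)))| ≤ 1 :=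
      abs_sum_pr_le hΛ fun s => tree_abs_prod S _
    have h2 := (abs_sub _ _).trans (add_le_add h1 hmo)
    by_cases hg : TreeGood (pat h) γ
    · by_cases hi : Injective k
      · have h3 : Injective fun l => en (γ l, k l) :=
          fun l l' hl => hi (congrArg Prod.snd (en.injective hl))
        have h4 := hcons n nb ⟨_, h3⟩ _ hup S
        have h5 := sum_lamOf_mul (mo nb fun a b => treeD (en.symm a).1 (en.symm b).1)
          (S.map ⟨_, h3⟩)
        simp only [Finset.prod_map, Function.Embedding.coeFn_mk, Equiv.symm_apply_apply,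
          tree_D_eq (up_pat h) hg] at h4 h5
        rw [hΛd, h5, h4, if_pos hg, if_pos hi]
        simp
      · rw [if_pos hg, if_neg hi]
        linarith
    · rw [if_neg hg]
      split_ifs <;> linarith
  have e4 : ∀ γ : Fin (n + 1) → Fin (r + 1) → Fin (M + 1),
      |∑ s, Λ s * ∑ k : Fin (n + 1) → Fin (M + 1), cw (fun _ => c) k *
        ∏ l ∈ S, spin (s (en (γ l, k l))) - mo n (pat h) S| ≤
        2 * (if TreeGood (pat h) γ then 0 else 1) + 2 * (((n + 1 : ℕ) : ℝ) ^ 2 * c) := by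
    intro γ
    have h1 : ∑ s, Λ s * ∑ k : Fin (n + 1) → Fin (M + 1), cw (fun _ => c) k *
        ∏ l ∈ S, spin (s (en (γ l, k l))) - mo n (pat h) S =
        ∑ k : Fin (n + 1) → Fin (M + 1), cw (fun _ => c) k *
          (∑ s, Λ s * ∏ l ∈ S, spin (s (en (γ l, k l))) - mo n (pat h) S) := by
      simp only [mul_sub, Finset.sum_sub_distrib]
      rw [← Finset.sum_mul, hk.2, one_mul]
      congr 1
      simp only [Finset.mul_sum]
      rw [Finset.sum_comm]
      exact Finset.sum_congr rfl fun _ _ => Finset.sum_congr rfl fun _ _ => by ring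
    rw [h1]
    refine (Finset.abs_sum_le_sum_abs _ _).trans ?_
    refine (Finset.sum_le_sum fun k _ => (abs_mul _ _).le.trans (mul_le_mul
      (abs_of_nonneg (hk.1 k)).le (e3 γ k) (abs_nonneg _) (hk.1 k))).trans ?_
    have h2 := tree_ninj (n := n + 1) hν (fun _ => rfl) hc0
    simp only [mul_add, Finset.sum_add_distrib]
    rw [← Finset.sum_mul, hk.2, one_mul]
    have h3 : ∑ k : Fin (n + 1) → Fin (M + 1), cw (fun _ => c) k *
        (2 * if Injective k then (0 : ℝ) else 1) = 2 * ∑ k : Fin (n + 1) → Fin (M + 1),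
          cw (fun _ => c) k * if Injective k then (0 : ℝ) else 1 := by
      rw [Finset.mul_sum]
      exact Finset.sum_congr rfl fun _ _ => by ring
    rw [h3]
    linarith
  have e5 : ∀ G : (Fin (n + 1) → Fin (r + 1) → Fin (M + 1)) → ℝ,
      ∑ γ, wt (fun _ => c) (fun _ _ => 1) h γ * G γ - mo n (pat h) S =
        ∑ γ, wt (fun _ => c) (fun _ _ => 1) h γ * (G γ - mo n (pat h) S) := by
    intro G
    simp only [mul_sub, Finset.sum_sub_distrib]
    rw [← Finset.sum_mul, hw.2, one_mul]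
  rw [e5]
  refine (Finset.abs_sum_le_sum_abs _ _).trans ?_
  refine (Finset.sum_le_sum fun γ _ => (abs_mul _ _).le.trans (mul_le_mul
    (abs_of_nonneg (hw.1 γ)).le (e4 γ) (abs_nonneg _) (hw.1 γ))).trans ?_
  have h2 := tree_bad hν (fun _ => rfl) hc0 h
  simp only [mul_add, Finset.sum_add_distrib]
  rw [← Finset.sum_mul, hw.2, one_mul]
  have h3 : ∑ γ : Fin (n + 1) → Fin (r + 1) → Fin (M + 1), wt (fun _ => c) (fun _ _ => 1) h γ *
      (2 * if TreeGood (pat h) γ then (0 : ℝ) else 1) =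
      2 * ∑ γ : Fin (n + 1) → Fin (r + 1) → Fin (M + 1), wt (fun _ => c) (fun _ _ => 1) h γ *
        if TreeGood (pat h) γ then (0 : ℝ) else 1 := by
    rw [Finset.mul_sum]
    exact Finset.sum_congr rfl fun _ _ => by ring
  rw [h3]
  have h4 : (n : ℝ) + 1 ≤ n0 := by exact_mod_cast hn
  have h5 : ((n : ℝ) + 1) ^ 2 * c ≤ (n0 : ℝ) ^ 2 * c :=
    mul_le_mul_of_nonneg_right (pow_le_pow_left₀ (by positivity) h4 2) hc0
  have h6 : 4 * ((n0 : ℝ) ^ 2 * c) ≤ ε := by
    rw [div_le_iff₀ hε] at hM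
    rw [hc, mul_one_div, ← mul_div_assoc, div_le_iff₀ (by positivity)]
    nlinarith
  push_cast
  linarith

end Vale.Agent.P168
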