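import Vale.Agent.P168.Consist
import Vale.Agent.P168.Tree

/-! P168 Struct: the structure theorem.
Plan. All moment vectors that occur lie in the compact cube `[-2,2]^(Finset (Fin (n+1)))`; the
finitely many continuous functions `Φ n ∘ lamOf` are bounded by `C` and uniformly continuous there:
choose `δ` with oscillation `≤ ε/3`. `disc` with `ε' ` small, Markov inequality over the finitely
many `S`: `∫ |Φ n (lam ω) - Φ n (lamOf (momP (tau ω)))| ≤ ε/3 + 2 C * 2^(n+1) ε'/δ`.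
`tau_law` with `g d = Φ n (lamOf (momP .. d))`, `tree` (with `consist`, `mom_law`) with error
`min δ 1`, `lamH_eq`, `hP_nonneg`, `sum_hP`. Note `|momP| ≤ 1` always. -/

open MeasureTheory ProbabilityTheory Function Filter Topology
open scoped BigOperators

noncomputable section

namespace Vale.Agent.P168

theorem struct_mod {ι : Type} [Fintype ι] {F : (ι → ℝ) → ℝ} (hF : Continuous F) {ε : ℝ}
    (hε : 0 < ε) : ∃ K : ℝ, 0 ≤ K ∧ ∀ a b : ι → ℝ, (∀ i, |a i| ≤ 2) → (∀ i, |b i| ≤ 2) →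
      |F a - F b| ≤ ε + K * ∑ i, |a i - b i| := by
  have hc := isCompact_closedBall (0 : ι → ℝ) 2
  obtain ⟨C, hC⟩ := hc.exists_bound_of_continuousOn hF.continuousOn
  obtain ⟨δ, hδ, hu⟩ := Metric.uniformContinuousOn_iff.1
    (hc.uniformContinuousOn_of_continuous hF.continuousOn) ε hε
  have hm : ∀ a : ι → ℝ, (∀ i, |a i| ≤ 2) → a ∈ Metric.closedBall (0 : ι → ℝ) 2 := fun a ha => by
    rw [mem_closedBall_zero_iff, pi_norm_le_iff_of_nonneg (by norm_num)]
    exact ha
  have hC0 : 0 ≤ C := (norm_nonneg _).trans (hC 0 (hm 0 fun _ => by simp))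
  refine ⟨2 * C / δ, by positivity, fun a b ha hb => ?_⟩
  have hs : 0 ≤ ∑ i, |a i - b i| := Finset.sum_nonneg fun _ _ => abs_nonneg _
  rcases lt_or_ge (∑ i, |a i - b i|) δ with h1 | h1
  · have h2 : dist a b < δ := by
      rw [dist_pi_lt_iff hδ]
      intro i
      rw [Real.dist_eq]
      exact (Finset.single_le_sum (f := fun i => |a i - b i|) (fun _ _ => abs_nonneg _)
        (Finset.mem_univ i)).trans_lt h1
    have h3 := hu a (hm a ha) b (hm b hb) h2
    rw [Real.dist_eq] at h3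
    have : 0 ≤ 2 * C / δ * ∑ i, |a i - b i| := by positivity
    linarith
  · have h2 := hC a (hm a ha)
    have h3 := hC b (hm b hb)
    rw [Real.norm_eq_abs] at h2 h3
    have h4 : 2 * C / δ * δ ≤ 2 * C / δ * ∑ i, |a i - b i| :=
      mul_le_mul_of_nonneg_left h1 (by positivity)
    rw [div_mul_cancel₀ _ hδ.ne'] at h4
    have h5 := abs_sub (F a) (F b)
    linarith

theorem struct_mom {ν : Measure X} [IsProbabilityMeasure ν] {r : ℕ} (t : Fin r → ℝ) (n : ℕ)
    (d : Fin n → Fin n → ℕ) (S : Finset (Fin n)) : |momP ν t n d S| ≤ 1 := by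
  have h1 : ‖∫ ω in {ω | tau t n ω = d}, co 0 (ind S) ω ∂ν‖ ≤ 1 * ν.real {ω | tau t n ω = d} :=
    norm_setIntegral_le_of_norm_le_const (measure_lt_top _ _) fun ω _ => abs_co_le _ _ _
  rw [Real.norm_eq_abs, one_mul] at h1
  unfold momP
  rw [abs_div, abs_of_nonneg (measureReal_nonneg (μ := ν))]
  exact div_le_one_of_le₀ h1 measureReal_nonneg

theorem struct_int {ν : Measure X} [IsProbabilityMeasure ν] {f : X → ℝ} (hf : Continuous f) :
    Integrable f ν :=
  hf.integrable_of_hasCompactSupport (HasCompactSupport.of_compactSpace f)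

theorem struct {ν : Measure X} (h : Str ν) (n0 : ℕ)
    (Φ : ∀ n : ℕ, ((Fin (n + 1) → Bool) → ℝ) → ℝ) (hΦ : ∀ n, Continuous (Φ n)) {ε : ℝ}
    (hε : 0 < ε) :
    ∃ (r : ℕ) (m : Fin r → ℝ) (A : Type) (_ : Fintype A) (μ : A → ℝ)
      (x : (Fin (r + 1) → A) → ℝ), Adm m ∧ IsPr μ ∧ (∀ w, |x w| ≤ 1) ∧ ∀ n < n0,
      |∫ ω, Φ n (lam (n + 1) ω) ∂ν - ∑ hh : Hist r n, hP m hh * Φ n (lamH μ x hh)| ≤ ε := by
  have := h.1
  have hε3 : 0 < ε / 3 := by positivity
  choose K hK0 hK using fun n : ℕ =>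
    struct_mod ((hΦ n).comp (continuous_lamOf (n := n + 1))) hε3
  obtain ⟨M, hM0, hM⟩ : ∃ M : ℝ, 0 < M ∧ ∀ n < n0,
      K n * Fintype.card (Finset (Fin (n + 1))) ≤ M := by
    have h0 : ∀ n ∈ Finset.range n0, 0 ≤ K n * Fintype.card (Finset (Fin (n + 1))) :=
      fun n _ => mul_nonneg (hK0 n) (Nat.cast_nonneg _)
    refine ⟨∑ n ∈ Finset.range n0, K n * Fintype.card (Finset (Fin (n + 1))) + 1,
      add_pos_of_nonneg_of_pos (Finset.sum_nonneg h0) one_pos, fun n hn => ?_⟩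
    have := Finset.single_le_sum h0 (Finset.mem_range.2 hn)
    linarith
  obtain ⟨η, hη0, hη1, hη2⟩ : ∃ η : ℝ, 0 < η ∧ η ≤ 1 ∧ M * η ≤ ε / 6 := by
    refine ⟨min 1 (ε / 6 / M), lt_min one_pos (by positivity), min_le_left _ _, ?_⟩
    rw [mul_comm, ← le_div_iff₀ hM0]
    exact min_le_right _ _
  obtain ⟨r, t, m, ht, hd⟩ := disc h n0 hη0
  obtain ⟨A, hA, μ, x, hμ, hx, htr⟩ := tree (r := r) (fun n d => momP ν t (n + 1) d)
    (fun _ _ e _ hd S => consist h ht e hd S) (fun _ _ hd => mom_law h ht hd) n0 hη0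
  refine ⟨r, m, A, hA, μ, x, ht.2.1, hμ, hx, fun n hn => ?_⟩
  have hKη : K n * (Fintype.card (Finset (Fin (n + 1))) * η) ≤ ε / 6 := by
    rw [← mul_assoc]
    exact (mul_le_mul_of_nonneg_right (hM n hn) hη0.le).trans hη2
  obtain ⟨i1, e1⟩ := tau_law h ht n fun d => Φ n (lamOf (momP ν t (n + 1) d))
  have i0 : Integrable (fun ω => Φ n (lam (n + 1) ω)) ν :=
    struct_int ((hΦ n).comp (continuous_lam _))
  have i2 : ∀ S : Finset (Fin (n + 1)),
      Integrable (fun ω => |co 0 (ind S) ω - momP ν t (n + 1) (tau t (n + 1) ω) S|) ν :=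
    fun S => ((struct_int (continuous_co 0 (ind S))).sub
      (tau_law h ht n fun d => momP ν t (n + 1) d S).1).abs
  have i3 := integrable_finsetSum Finset.univ fun S _ => i2 S
  have b1 : |∫ ω, Φ n (lam (n + 1) ω) ∂ν -
      ∫ ω, Φ n (lamOf (momP ν t (n + 1) (tau t (n + 1) ω))) ∂ν| ≤ ε / 3 + ε / 6 := by
    rw [← integral_sub i0 i1]
    refine abs_integral_le_integral_abs.trans ?_
    refine (integral_mono (i0.sub i1).abs ((integrable_const (ε / 3)).add (i3.const_mul (K n)))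
      fun ω => hK n (fun S => co 0 (ind S) ω) (momP ν t (n + 1) (tau t (n + 1) ω))
        (fun S => (abs_co_le _ _ _).trans one_le_two)
        fun S => (struct_mom _ _ _ _).trans one_le_two).trans ?_
    simp only [Pi.add_apply]
    rw [integral_add (integrable_const _) (i3.const_mul _), integral_const_mul,
      integral_finsetSum _ fun S _ => i2 S]
    have h1 := Finset.sum_le_card_nsmul Finset.univ _ η fun S _ => hd n hn S
    rw [Finset.card_univ, nsmul_eq_mul] at h1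
    have h2 := mul_le_mul_of_nonneg_left h1 (hK0 n)
    simp only [integral_const, probReal_univ, smul_eq_mul, one_mul]
    linarith
  have b2 : ∀ hh : Hist r n,
      |Φ n (lamOf (momP ν t (n + 1) (pat hh))) - Φ n (lamH μ x hh)| ≤ ε / 3 + ε / 6 := by
    intro hh
    rw [lamH_eq, abs_sub_comm]
    refine (hK n (fun S => ∑ v, wt μ (fun _ _ => 1) hh v * ∏ l ∈ S, x (v l))
      (momP ν t (n + 1) (pat hh)) (fun S => ?_)
      fun S => (struct_mom _ _ _ _).trans one_le_two).trans ?_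
    · have h1 := abs_le.1 (htr n hn hh S)
      have h2 := abs_le.1 (struct_mom (ν := ν) t (n + 1) (pat hh) S)
      rw [abs_le]
      constructor <;> linarith [h1.1, h1.2, h2.1, h2.2]
    · have h1 := Finset.sum_le_card_nsmul Finset.univ _ η fun S _ => htr n hn hh S
      rw [Finset.card_univ, nsmul_eq_mul] at h1
      have h2 := mul_le_mul_of_nonneg_left h1 (hK0 n)
      linarith
  have b3 : |∑ hh : Hist r n, hP m hh * Φ n (lamOf (momP ν t (n + 1) (pat hh))) -
      ∑ hh : Hist r n, hP m hh * Φ n (lamH μ x hh)| ≤ ε / 3 + ε / 6 := by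
    rw [← Finset.sum_sub_distrib]
    refine (Finset.abs_sum_le_sum_abs _ _).trans ?_
    calc _ ≤ ∑ hh : Hist r n, hP m hh * (ε / 3 + ε / 6) := Finset.sum_le_sum fun hh _ => by
          rw [← mul_sub, abs_mul, abs_of_nonneg (hP_nonneg ht.2.1 hh)]
          exact mul_le_mul_of_nonneg_left (b2 hh) (hP_nonneg ht.2.1 hh)
      _ = ε / 3 + ε / 6 := by rw [← Finset.sum_mul, sum_hP, one_mul]
  rw [e1] at b1
  have b4 := abs_sub_le (∫ ω, Φ n (lam (n + 1) ω) ∂ν)
    (∑ hh : Hist r n, hP m hh * Φ n (lamOf (momP ν t (n + 1) (pat hh))))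
    (∑ hh : Hist r n, hP m hh * Φ n (lamH μ x hh))
  linarith

end Vale.Agent.P168
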