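import Vale.Agent.P168.Core

/-! P168 Slots: finite product weights.
Plan. `isPr_cw`: `Finset.prod_univ_sum` / `Fintype.piFinset_univ`. `sum_cw_merge`: the map
`(x, x') ↦ (piecewise S x' x, piecewise S x x')` is an involution of the square preserving
`cw μ x * cw μ x'` (split each product over `S` and its complement). `sum_cw_mul`: apply merge to
`F * G`. `sum_cw_indep`: `sum_cw_mul` with `F = ∏ j ∈ S, g j (x j)`, whose mean is computed by
`Finset.prod_univ_sum` (use the factor `if j ∈ S then μ a * g j a else μ a`).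
`sum_cw_comp`: `Equiv.piEquivPiSubtypeProd` for the range of `e` and `Equiv.ofInjective`, or write
`F (x ∘ e) = ∑ x', F x' * ∏ i, if x (e i) = x' i then 1 else 0` and use `sum_cw_indep` on
`univ.image e`. -/

open MeasureTheory ProbabilityTheory Function Filter Topology
open scoped BigOperators

noncomputable section

namespace Vale.Agent.P168

variable {ι ι' α : Type} [Fintype ι] [DecidableEq ι] [Fintype ι'] [DecidableEq ι'] [Fintype α]

theorem abs_spin (b : Bool) : |spin b| = 1 := by
  cases b <;> simp [spin]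

theorem spin_mul_self (b : Bool) : spin b * spin b = 1 := by
  cases b <;> simp [spin]

theorem cw_nonneg {μ : α → ℝ} (hμ : IsPr μ) (x : ι → α) : 0 ≤ cw μ x := by
  exact Finset.prod_nonneg fun i _ => hμ.1 _

theorem isPr_cw {μ : α → ℝ} (hμ : IsPr μ) : IsPr (cw μ : (ι → α) → ℝ) := by
  refine ⟨cw_nonneg hμ, ?_⟩
  have := Finset.prod_univ_sum (fun _ : ι => (Finset.univ : Finset α)) fun _ a => μ a
  rw [Fintype.piFinset_univ] at this
  unfold cw
  rw [← this, hμ.2, Finset.prod_const_one]

theorem isPr_gib {w : α → ℝ} [Nonempty α] (hw : ∀ a, 0 < w a) : IsPr (gib w) := by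
  have h : 0 < ∑ s', w s' := Finset.sum_pos (fun a _ => hw a) Finset.univ_nonempty
  refine ⟨fun a => div_nonneg (hw a).le h.le, ?_⟩
  unfold gib
  rw [← Finset.sum_div, div_self h.ne']

/-- a weighted average lies between the bounds -/
theorem abs_sum_pr_le {μ : α → ℝ} (hμ : IsPr μ) {F : α → ℝ} {c : ℝ} (hF : ∀ a, |F a| ≤ c) :
    |∑ a, μ a * F a| ≤ c := by
  refine (Finset.abs_sum_le_sum_abs _ _).trans ?_
  calc ∑ a, |μ a * F a| ≤ ∑ a, μ a * c := Finset.sum_le_sum fun a _ => by
        rw [abs_mul, abs_of_nonneg (hμ.1 a)]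
        exact mul_le_mul_of_nonneg_left (hF a) (hμ.1 a)
    _ = c := by rw [← Finset.sum_mul, hμ.2, one_mul]

theorem sum_cw_merge {μ : α → ℝ} (hμ : IsPr μ) (S : Finset ι) (F : (ι → α) → ℝ) :
    ∑ x, cw μ x * F x = ∑ x, cw μ x * ∑ x', cw μ x' * F (S.piecewise x' x) := by
  let σ : (ι → α) × (ι → α) → (ι → α) × (ι → α) :=
    fun p => (S.piecewise p.2 p.1, S.piecewise p.1 p.2)
  have hσ : Involutive σ := fun p => by
    refine Prod.ext (funext fun i => ?_) (funext fun i => ?_) <;> by_cases h : i ∈ S <;>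
      simp [σ, Finset.piecewise, h]
  have h1 : ∀ p, cw μ (σ p).1 * cw μ (σ p).2 = cw μ p.1 * cw μ p.2 := fun p => by
    unfold cw
    rw [← Finset.prod_mul_distrib, ← Finset.prod_mul_distrib]
    refine Finset.prod_congr rfl fun i _ => ?_
    by_cases h : i ∈ S
    · simp [σ, Finset.piecewise, h, mul_comm]
    · simp [σ, Finset.piecewise, h]
  have h2 := hσ.bijective.sum_comp fun p => cw μ p.1 * cw μ p.2 * F p.1
  simp only [h1] at h2
  rw [Fintype.sum_prod_type, Fintype.sum_prod_type] at h2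
  calc _ = ∑ x, ∑ x' : ι → α, cw μ x * cw μ x' * F x := Finset.sum_congr rfl fun x _ => by
        rw [← Finset.sum_mul, ← Finset.mul_sum, (isPr_cw hμ).2, mul_one]
    _ = _ := by
        rw [← h2]
        refine Finset.sum_congr rfl fun x _ => ?_
        rw [Finset.mul_sum]
        exact Finset.sum_congr rfl fun x' _ => mul_assoc _ _ _

theorem sum_cw_mul {μ : α → ℝ} (hμ : IsPr μ) (S : Set ι) (F G : (ι → α) → ℝ)
    (hF : ∀ x x', (∀ i ∈ S, x i = x' i) → F x = F x')
    (hG : ∀ x x', (∀ i ∉ S, x i = x' i) → G x = G x') :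
    ∑ x, cw μ x * (F x * G x) = (∑ x, cw μ x * F x) * ∑ x, cw μ x * G x := by
  classical
  rw [sum_cw_merge hμ (Finset.univ.filter (· ∈ S)), mul_comm, Finset.sum_mul]
  refine Finset.sum_congr rfl fun x _ => ?_
  rw [mul_assoc, Finset.mul_sum _ _ (G x)]
  congr 1
  refine Finset.sum_congr rfl fun x' _ => ?_
  rw [hF _ x' fun i hi => by simp [Finset.piecewise, hi],
    hG _ x fun i hi => by simp [Finset.piecewise, hi]]
  ring

theorem sum_cw_indep {μ : α → ℝ} (hμ : IsPr μ) (S : Finset ι) (G : (ι → α) → ℝ)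
    (hG : ∀ x x', (∀ i ∉ S, x i = x' i) → G x = G x') (g : ι → α → ℝ) :
    ∑ x, cw μ x * (G x * ∏ j ∈ S, g j (x j)) =
      (∑ x, cw μ x * G x) * ∏ j ∈ S, ∑ a, μ a * g j a := by
  rw [sum_cw_mul hμ (↑S)ᶜ G _ hG fun x x' h => Finset.prod_congr rfl fun j hj => by
    rw [h j (by simpa using hj)]]
  congr 1
  have := Finset.prod_univ_sum (fun _ : ι => (Finset.univ : Finset α))
    fun j a => μ a * if j ∈ S then g j a else 1
  rw [Fintype.piFinset_univ] at this
  simp only [Finset.prod_mul_distrib, Finset.prod_ite_mem, Finset.univ_inter] at this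
  refine this.symm.trans ?_
  rw [← Finset.univ_inter S, ← Finset.prod_ite_mem, Finset.univ_inter]
  refine Finset.prod_congr rfl fun j _ => ?_
  by_cases h : j ∈ S <;> simp [h, hμ.2]

theorem sum_cw_comp {μ : α → ℝ} (hμ : IsPr μ) (e : ι' → ι) (he : Injective e)
    (F : (ι' → α) → ℝ) :
    ∑ x : ι → α, cw μ x * F (fun i => x (e i)) = ∑ x : ι' → α, cw μ x * F x := by
  classical
  have h1 : ∀ x : ι → α, F (fun i => x (e i)) =
      ∑ x', F x' * ∏ i, if x (e i) = x' i then (1 : ℝ) else 0 := fun x => by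
    rw [Finset.sum_eq_single (fun i => x (e i))]
    · simp
    · intro x' _ h
      obtain ⟨i, hi⟩ := Function.ne_iff.1 h
      rw [Finset.prod_eq_zero (Finset.mem_univ i) (if_neg (Ne.symm hi)), mul_zero]
    · simp
  simp only [h1, Finset.mul_sum]
  rw [Finset.sum_comm]
  refine Finset.sum_congr rfl fun x' _ => ?_
  have h2 := sum_cw_indep hμ (Finset.univ.image e) (fun _ => F x') (fun _ _ _ => rfl)
    fun j a => if a = Function.extend e x' (fun _ => a) j then 1 else 0
  simp only [Finset.prod_image (he.injOn), he.extend_apply] at h2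
  rw [h2, ← Finset.sum_mul, (isPr_cw hμ).2, one_mul, mul_comm]
  simp [cw]

/-- `cw` of `cw` is `cw` with the two indices swapped -/
theorem cw_cw_swap (μ : α → ℝ) (w : ι → ι' → α) :
    cw (cw μ) w = cw (cw μ) (fun j i => w i j) := by
  unfold cw
  exact Finset.prod_comm

end Vale.Agent.P168
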