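import Vale.Agent.P168.CubeB
import Vale.Agent.P168.Slots

/-! P168 Sys: the perturbed finite system.
Plan. Induction on `T` for the `tab` lemmas (`|1 - mu| / (1 - mu) = 1` for the bound).
`tab_change`: induction on `T`; for `T + 1 = s` with `s ≠ t + 1` the entries of `jl T` point to
species `≠ t + 1` (induction hypothesis 1) or to species `t + 1`, where for `T > t` the target has
unchanged parameters (induction hypothesis 2 with `k = k'`) and for `T < t` species `t + 1` is not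
built yet (`tab P T s = 1` for `s > T`, `tab_unbuilt`). `om_val`: `Set.projIcc_of_mem`.
`good_om`: for each site `k` put `z = ∏ l ∈ c.support, site ..`, `v l = site k a (τ l)`; then
`0 ≤ (t z + ∑ η v)^2 ≤ t^2 + 2 t z ∑ η v + card G + ∑ offDiag`; average over `k`; use `omv_eq` on
`insert l c.support` and `{l, l'}`. For `lam ≥ 0` use `lamOf_sum`, `prod_half_eq`.
`gsum_res`: `sum_cw_comp` with `Fin.castLE`. -/

open MeasureTheory ProbabilityTheory Function Filter Topology
open scoped BigOperators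

noncomputable section

namespace Vale.Agent.P168

theorem tab_zero (P : ℕ → ℕ → ℕ → ℕ) (T s k : ℕ) (σ : ℕ → ℝ) : tab P T s k 0 σ = 1 := by
  induction T with
  | zero => simp [tab]
  | succ T ih =>
    simp only [tab, if_true]
    split_ifs
    · rfl
    · exact ih

theorem tab_unbuilt (P : ℕ → ℕ → ℕ → ℕ) {T s : ℕ} (h : T < s) (k a : ℕ) (σ : ℕ → ℝ) :
    tab P T s k a σ = 1 := by
  induction T with
  | zero => simp only [tab]; rw [if_neg (by omega)]
  | succ T ih =>
    simp only [tab]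
    rw [if_neg (by omega)]
    exact ih (by omega)

theorem tab_stable (P : ℕ → ℕ → ℕ → ℕ) {T s : ℕ} (h : s ≤ T) : tab P T s = site P s := by
  induction T, h using Nat.le_induction with
  | base => rfl
  | succ T h ih =>
    rw [← ih]
    funext k a σ
    simp only [tab]
    rw [if_neg (by omega)]

theorem sys_abs_gg {V : ℕ → ℕ → ℕ → (ℕ → ℝ) → ℝ} {σ : ℕ → ℝ} (h : ∀ s k a, |V s k a σ| ≤ 1)
    (Pk : ℕ → ℕ) (J : List Idx) (ρ : ℕ) : |gg V Pk J ρ σ| ≤ 1 := by
  rw [gg, Finset.abs_prod]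
  exact Finset.prod_le_one (fun _ _ => abs_nonneg _) fun j _ => h _ _ _

theorem abs_tab_le (P : ℕ → ℕ → ℕ → ℕ) {σ : ℕ → ℝ} (hσ : ∀ i, |σ i| ≤ 1) (T s k a : ℕ) :
    |tab P T s k a σ| ≤ 1 := by
  induction T generalizing s k a with
  | zero =>
    simp only [tab]
    split_ifs
    · exact hσ k
    · simp
  | succ T ih =>
    simp only [tab]
    split_ifs
    · simp
    · have h1 := sys_abs_gg (V := tab P T) ih (P T k) (jl T) (a - 1)
      have h2 := abs_le.1 (sys_abs_gg (V := tab P T) ih (P T k) (jl T) (pp T))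
      obtain ⟨m0, m1⟩ := mu_mem T
      have h3 : 1 - mu T ≤ 1 + mu T * gg (tab P T) (P T k) (jl T) (pp T) σ := by nlinarith
      have h4 : 0 < 1 - mu T := by linarith
      rw [abs_div, abs_mul, abs_of_pos h4, abs_of_pos (h4.trans_le h3),
        div_le_one (h4.trans_le h3)]
      nlinarith
    · exact ih s k a

theorem abs_gfun_le (P : ℕ → ℕ → ℕ → ℕ) {σ : ℕ → ℝ} (hσ : ∀ i, |σ i| ≤ 1) (t k ρ : ℕ) :
    |gfun P t k ρ σ| ≤ 1 := by
  exact sys_abs_gg (abs_tab_le P hσ t) _ _ _

theorem site_succ (P : ℕ → ℕ → ℕ → ℕ) (t k a : ℕ) (σ : ℕ → ℝ) :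
    site P (t + 1) k (a + 1) σ =
      (1 - mu t) * gfun P t k a σ / (1 + mu t * gfun P t k (pp t) σ) := by
  simp [site, tab, gfun]

theorem sys_gg_change {P P' : ℕ → ℕ → ℕ → ℕ} {t : ℕ} (h1 : ∀ t', t' ≠ t → P' t' = P t')
    (h2 : ∀ t', t < t' → ∀ k (j : Fin (jl t').length), ((jl t').get j).1 = t + 1 →
      P' t (P t' k j) = P t (P t' k j)) (T : ℕ)
    (ih : (∀ s k, s ≠ t + 1 → tab P' T s k = tab P T s k) ∧
      ∀ k k', P' t k = P t k' → tab P' T (t + 1) k = tab P T (t + 1) k') :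
    (∀ k, T ≠ t → gg (tab P' T) (P' T k) (jl T) = gg (tab P T) (P T k) (jl T)) ∧
      ∀ k k', T = t → P' t k = P t k' →
        gg (tab P' T) (P' T k) (jl T) = gg (tab P T) (P T k') (jl T) := by
  refine ⟨fun k hT => ?_, fun k k' hT hk => ?_⟩
  · funext ρ σ
    rw [h1 T hT]
    refine Finset.prod_congr rfl fun j _ => ?_
    by_cases hj : ((jl T).get j).1 = t + 1
    · rcases lt_or_gt_of_ne hT with h | h
      · rw [tab_unbuilt _ (by omega), tab_unbuilt _ (by omega)]
      · rw [hj, ih.2 _ _ (h2 T h k j hj)]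
    · rw [ih.1 _ _ hj]
  · subst hT
    funext ρ σ
    rw [hk]
    refine Finset.prod_congr rfl fun j _ => ?_
    by_cases hj : ((jl T).get j).1 = T + 1
    · rw [tab_unbuilt _ (by omega), tab_unbuilt _ (by omega)]
    · rw [ih.1 _ _ hj]

theorem tab_change {P P' : ℕ → ℕ → ℕ → ℕ} {t : ℕ} (h1 : ∀ t', t' ≠ t → P' t' = P t')
    (h2 : ∀ t', t < t' → ∀ k (j : Fin (jl t').length), ((jl t').get j).1 = t + 1 →
      P' t (P t' k j) = P t (P t' k j)) (T : ℕ) :
    (∀ s k, s ≠ t + 1 → tab P' T s k = tab P T s k) ∧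
      ∀ k k', P' t k = P t k' → tab P' T (t + 1) k = tab P T (t + 1) k' := by
  induction T with
  | zero =>
    refine ⟨fun s k _ => rfl, fun k k' _ => ?_⟩
    funext a σ
    rw [tab_unbuilt _ (by omega), tab_unbuilt _ (by omega)]
  | succ T ih =>
    refine ⟨fun s k hs => ?_, fun k k' hk => ?_⟩
    · funext a σ
      simp only [tab]
      by_cases hT : s = T + 1
      · rw [if_pos hT, if_pos hT, (sys_gg_change h1 h2 T ih).1 k (by omega)]
      · rw [if_neg hT, if_neg hT, ih.1 s k hs]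
    · funext a σ
      simp only [tab]
      by_cases hT : t + 1 = T + 1
      · obtain rfl : t = T := by omega
        rw [if_pos rfl, if_pos rfl, (sys_gg_change h1 h2 t ih).2 k k' rfl hk]
      · rw [if_neg hT, if_neg hT, ih.2 k k' hk]

theorem gfun_change {P P' : ℕ → ℕ → ℕ → ℕ} {t : ℕ} (h1 : ∀ t', t' ≠ t → P' t' = P t')
    (h2 : ∀ t', t < t' → ∀ k (j : Fin (jl t').length), ((jl t').get j).1 = t + 1 →
      P' t (P t' k j) = P t (P t' k j)) :
    (∀ t' k, t' ≠ t → gfun P' t' k = gfun P t' k) ∧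
      ∀ k k', P' t k = P t k' → gfun P' t k = gfun P t k' := by
  exact ⟨fun t' k h => (sys_gg_change h1 h2 t' (tab_change h1 h2 t')).1 k h,
    fun k k' h => (sys_gg_change h1 h2 t (tab_change h1 h2 t)).2 k k' rfl h⟩

theorem gfun_congr_spin {P : ℕ → ℕ → ℕ → ℕ} {N : ℕ}
    (hP : ∀ t k (j : Fin (jl t).length), ((jl t).get j).1 = 0 → P t k j < N) {σ σ' : ℕ → ℝ}
    (h : ∀ i < N, σ i = σ' i) (t k ρ : ℕ) : gfun P t k ρ σ = gfun P t k ρ σ' := by
  have key : ∀ T s k a, (s = 0 → k < N) → tab P T s k a σ = tab P T s k a σ' := by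
    intro T
    induction T with
    | zero =>
      intro s k a hs
      simp only [tab]
      split_ifs with h0
      · exact h k (hs h0.1)
      · rfl
    | succ T ih =>
      intro s k a hs
      have hg : ∀ ρ, gg (tab P T) (P T k) (jl T) ρ σ = gg (tab P T) (P T k) (jl T) ρ σ' :=
        fun ρ => Finset.prod_congr rfl fun j _ => ih _ _ _ (hP T k j)
      simp only [tab, hg, ih s k a hs]
  unfold gfun gg
  exact Finset.prod_congr rfl fun j _ => key t _ _ _ (hP t k j)

theorem pertW_pos {L : ℕ} (P : ℕ → ℕ → ℕ → ℕ) (mc : Fin L → ℕ) {σ : ℕ → ℝ}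
    (hσ : ∀ i, |σ i| ≤ 1) :
    0 < pertW P mc σ ∧ |Real.log (pertW P mc σ)| ≤ (∑ t, (mc t : ℝ)) * Real.log 2 := by
  have h1 : ∀ (t : ℕ) k, 1 / 2 ≤ 1 + mu t * gfun P t k (pp t) σ ∧
      1 + mu t * gfun P t k (pp t) σ ≤ 2 := fun t k => by
    have h2 := abs_le.1 (abs_gfun_le P hσ t k (pp t))
    obtain ⟨m0, m1⟩ := mu_mem t
    constructor <;> nlinarith
  have h2 : ∀ (t : ℕ) k, 0 < 1 + mu t * gfun P t k (pp t) σ := fun t k =>
    lt_of_lt_of_le (by norm_num) (h1 t k).1
  refine ⟨Finset.prod_pos fun t _ => Finset.prod_pos fun k _ => h2 t k, ?_⟩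
  rw [pertW, Real.log_prod fun (t : Fin L) _ => (Finset.prod_pos fun k _ => h2 t k).ne',
    Finset.sum_mul]
  refine (Finset.abs_sum_le_sum_abs _ _).trans (Finset.sum_le_sum fun t _ => ?_)
  rw [Real.log_prod fun k _ => (h2 t k).ne']
  refine (Finset.abs_sum_le_sum_abs _ _).trans
    ((Finset.sum_le_card_nsmul _ _ (Real.log 2) fun k _ => ?_).trans (by simp))
  rw [abs_le]
  refine ⟨?_, Real.log_le_log (h2 t k) (h1 t k).2⟩
  have := Real.log_le_log (by norm_num) (h1 t k).1
  rwa [one_div, Real.log_inv] at this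

theorem abs_exts_le {N : ℕ} (s : Fin N → Bool) (i : ℕ) : |exts s i| ≤ 1 := by
  unfold exts
  split_ifs
  · exact (abs_spin _).le
  · simp

theorem abs_rep_le {N n : ℕ} (v : Fin n → Fin N → Bool) (l i : ℕ) : |rep v l i| ≤ 1 := by
  unfold rep
  split_ifs
  · exact abs_exts_le _ _
  · simp

theorem isPr_pgib {L N : ℕ} {b : (Fin N → Bool) → ℝ} (hb : ∀ s, 0 < b s) (P : ℕ → ℕ → ℕ → ℕ)
    (mc : Fin L → ℕ) : IsPr (pgib b P mc) := by
  exact isPr_gib fun s => mul_pos (hb s) (pertW_pos P mc (abs_exts_le s)).1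

theorem omv_eq (P : ℕ → ℕ → ℕ → ℕ) (N : ℕ) (M : ℕ → ℕ) (τ : ℕ → ℕ → ℝ) (i : Idx)
    {T : Finset ℕ} (hT : i.2.support ⊆ T) :
    omv P N M τ i = 𝔼 k ∈ Finset.range (pool N M i.1), ∏ l ∈ T, site P i.1 k (i.2 l) (τ l) := by
  rw [Finset.expect_eq_sum_div_card, Finset.card_range, omv]
  congr 1
  refine Finset.sum_congr rfl fun k _ => Finset.prod_subset hT fun l _ hl => ?_
  rw [Finsupp.notMem_support_iff.1 hl]
  exact tab_zero _ _ _ _ _

theorem om_val (P : ℕ → ℕ → ℕ → ℕ) (N : ℕ) (M : ℕ → ℕ) {τ : ℕ → ℕ → ℝ}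
    (hτ : ∀ l i, |τ l i| ≤ 1) (s : ℕ) (c : ℕ →₀ ℕ) :
    co s c (om P N M τ) = omv P N M τ (s, c) := by
  have h : |omv P N M τ (s, c)| ≤ 1 := by
    rw [omv_eq P N M τ (s, c) subset_rfl]
    refine (Finset.abs_expect_le _ _).trans ?_
    rcases (Finset.range (pool N M s)).eq_empty_or_nonempty with h | h
    · simp [h]
    · refine Finset.expect_le h fun k _ => ?_
      rw [Finset.abs_prod]
      exact Finset.prod_le_one (fun _ _ => abs_nonneg _) fun l _ => abs_tab_le P (hτ l) _ _ _ _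
  unfold co om
  rw [Set.projIcc_of_mem _ (abs_le.1 h)]

theorem act_om (P : ℕ → ℕ → ℕ → ℕ) (N : ℕ) (M : ℕ → ℕ) (τ : ℕ → ℕ → ℝ) (e : Equiv.Perm ℕ) :
    act e (om P N M τ) = om P N M fun l => τ (e l) := by
  funext i
  unfold act om omv
  congr 3
  funext k
  rw [Finsupp.mapDomain_support_of_injective e.injective, Finset.prod_image e.injective.injOn]
  exact Finset.prod_congr rfl fun l _ => by rw [Finsupp.mapDomain_apply e.injective]

theorem res_om_congr (P : ℕ → ℕ → ℕ → ℕ) (N : ℕ) (M : ℕ → ℕ) {τ τ' : ℕ → ℕ → ℝ} {n : ℕ}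
    (h : ∀ l < n, τ l = τ' l) : res n (om P N M τ) = res n (om P N M τ') := by
  funext i
  unfold res
  split_ifs with hi
  · unfold om omv
    congr 3
    funext k
    exact Finset.prod_congr rfl fun l hl => by rw [h l (hi l hl)]
  · rfl

theorem sys_co_ind (P : ℕ → ℕ → ℕ → ℕ) (N : ℕ) (M : ℕ → ℕ) {τ : ℕ → ℕ → ℝ}
    (hτ : ∀ l i, |τ l i| ≤ 1) {n : ℕ} (S : Finset (Fin n)) :
    co 0 (ind S) (om P N M τ) = ∑ k ∈ Finset.range N, (N : ℝ)⁻¹ * ∏ l ∈ S, τ l k := by
  rw [om_val _ _ _ hτ, omv_eq P N M τ (0, ind S) (T := S.map Fin.valEmbedding) fun l hl => by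
    obtain ⟨h, hl⟩ := (mem_support_ind S l).1 hl
    exact Finset.mem_map.2 ⟨_, hl, rfl⟩]
  rw [Finset.expect_eq_sum_div_card, Finset.card_range, div_eq_inv_mul, Finset.mul_sum]
  refine Finset.sum_congr rfl fun k _ => ?_
  rw [Finset.prod_map]
  congr 1
  refine Finset.prod_congr rfl fun l hl => ?_
  simp only [Fin.valEmbedding_apply, ind_apply_of_mem S hl, site, tab, and_self, if_true]

theorem good_om (P : ℕ → ℕ → ℕ → ℕ) {N : ℕ} (hN : 1 ≤ N) {M : ℕ → ℕ} (hM : ∀ s, 1 ≤ M s)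
    {τ : ℕ → ℕ → ℝ} (hτ : ∀ l i, |τ l i| ≤ 1) : Good (om P N M τ) := by
  have hp : ∀ s, (Finset.range (pool N M s)).Nonempty := fun s => by
    rw [Finset.nonempty_range_iff]
    unfold pool
    have := hM s
    split_ifs <;> omega
  refine ⟨fun s => ?_, fun n e => ?_, fun s a c G η t hd hη => ?_⟩
  · rw [om_val _ _ _ hτ, omv_eq P N M τ (s, 0) subset_rfl]
    simp [Finset.expect_const (hp s)]
  · unfold lam
    simp only [sys_co_ind P N M hτ]
    rw [lamOf_sum]
    refine Finset.sum_nonneg fun k _ => mul_nonneg (by positivity) ?_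
    rw [← prod_half_eq fun l : Fin n => τ l k]
    refine Finset.prod_nonneg fun l _ => ?_
    have h1 : |τ l k * spin (e l)| ≤ 1 := by rw [abs_mul, abs_spin, mul_one]; exact hτ l k
    have := (abs_le.1 h1).1
    linarith
  · set z : ℕ → ℝ := fun k => ∏ l ∈ c.support, site P s k (c l) (τ l) with hz
    set v : ℕ → ℕ → ℝ := fun k l => site P s k a (τ l) with hv
    have hzb : ∀ k, |z k| ≤ 1 := fun k => by
      rw [hz, Finset.abs_prod]
      exact Finset.prod_le_one (fun _ _ => abs_nonneg _) fun l _ => abs_tab_le P (hτ l) _ _ _ _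
    have hvb : ∀ k l, |v k l| ≤ 1 := fun k l => abs_tab_le P (hτ l) _ _ _ _
    have e1 : ∀ l ∈ G, co s (c + Finsupp.single l a) (om P N M τ) =
        𝔼 k ∈ Finset.range (pool N M s), z k * v k l := fun l hl => by
      have hlc : l ∉ c.support := fun h => Finset.disjoint_left.1 hd h hl
      rw [om_val _ _ _ hτ, omv_eq P N M τ (s, c + Finsupp.single l a) (T := insert l c.support)
        (Finsupp.support_add.trans (Finset.union_subset (Finset.subset_insert _ _)
          (Finsupp.support_single_subset.trans (by simp))))]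
      refine Finset.expect_congr rfl fun k _ => ?_
      rw [Finset.prod_insert hlc, mul_comm]
      simp only [Finsupp.add_apply, Finsupp.notMem_support_iff.1 hlc, Finsupp.single_eq_same,
        zero_add, hz, hv]
      congr 1
      refine Finset.prod_congr rfl fun l' hl' => ?_
      have hne : l' ≠ l := fun h => hlc (h ▸ hl')
      rw [Finsupp.single_eq_of_ne hne, add_zero]
    have e2 : ∀ p ∈ G.offDiag, co s (Finsupp.single p.1 a + Finsupp.single p.2 a) (om P N M τ) =
        𝔼 k ∈ Finset.range (pool N M s), v k p.1 * v k p.2 := fun p hp => by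
      have hne := (Finset.mem_offDiag.1 hp).2.2
      rw [om_val _ _ _ hτ, omv_eq P N M τ (s, Finsupp.single p.1 a + Finsupp.single p.2 a)
        (T := {p.1, p.2})
        (Finsupp.support_add.trans (Finset.union_subset
          (Finsupp.support_single_subset.trans (by simp))
          (Finsupp.support_single_subset.trans (by simp))))]
      refine Finset.expect_congr rfl fun k _ => ?_
      rw [Finset.prod_pair hne]
      simp only [Finsupp.add_apply, Finsupp.single_eq_same, Finsupp.single_eq_of_ne hne,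
        Finsupp.single_eq_of_ne hne.symm, zero_add, add_zero, hv]
    have e3 : QF (fun l => co s (c + Finsupp.single l a) (om P N M τ))
        (fun l l' => co s (Finsupp.single l a + Finsupp.single l' a) (om P N M τ)) G η t =
        𝔼 k ∈ Finset.range (pool N M s),
          QF (fun l => z k * v k l) (fun l l' => v k l * v k l') G η t := by
      unfold QF
      beta_reduce
      rw [Finset.expect_add_distrib, Finset.expect_add_distrib, Finset.expect_add_distrib,
        Finset.expect_const (hp s), Finset.expect_const (hp s), ← Finset.mul_expect,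
        Finset.expect_sum_comm, Finset.expect_sum_comm]
      congr 1
      · congr 3
        exact Finset.sum_congr rfl fun l hl => by rw [e1 l hl, Finset.mul_expect]
      · exact Finset.sum_congr rfl fun p hp => by rw [e2 p hp, Finset.mul_expect]
    rw [e3]
    refine Finset.expect_nonneg fun k _ => ?_
    unfold QF
    beta_reduce
    have f1 : (∑ l ∈ G, η l * v k l) ^ 2 = ∑ l ∈ G, (η l * v k l) ^ 2 +
        ∑ p ∈ G.offDiag, η p.1 * η p.2 * (v k p.1 * v k p.2) := by
      rw [sq, Finset.sum_mul_sum, ← Finset.sum_product', ← Finset.diag_union_offDiag,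
        Finset.sum_union (Finset.disjoint_diag_offDiag G), Finset.sum_diag]
      congr 1
      · exact Finset.sum_congr rfl fun l _ => by ring
      · exact Finset.sum_congr rfl fun l _ => by ring
    have f2 : ∑ l ∈ G, (η l * v k l) ^ 2 ≤ G.card := by
      refine (Finset.sum_le_card_nsmul _ _ 1 fun l _ => ?_).trans (by simp)
      rw [sq_le_one_iff_abs_le_one, abs_mul]
      exact mul_le_one₀ (hη l) (abs_nonneg _) (hvb k l)
    have f3 : ∑ l ∈ G, η l * (z k * v k l) = z k * ∑ l ∈ G, η l * v k l := by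
      rw [Finset.mul_sum]
      exact Finset.sum_congr rfl fun l _ => by ring
    have f4 : z k ^ 2 ≤ 1 := (sq_le_one_iff_abs_le_one _).2 (hzb k)
    rw [f3]
    nlinarith [sq_nonneg (t * z k + ∑ l ∈ G, η l * v k l), sq_nonneg t]

theorem lam_om (P : ℕ → ℕ → ℕ → ℕ) {N n : ℕ} (M : ℕ → ℕ) (v : Fin n → Fin N → Bool) :
    lam n (om P N M (rep v)) = emp v := by
  rw [emp_eq]
  unfold lam
  congr 1
  funext S
  rw [sys_co_ind P N M (abs_rep_le v), Finset.expect_eq_sum_div_card, Finset.card_univ,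
    Fintype.card_fin, div_eq_inv_mul, Finset.mul_sum, Finset.sum_range]
  refine Finset.sum_congr rfl fun k _ => ?_
  congr 1
  refine Finset.prod_congr rfl fun l _ => ?_
  simp [rep, exts]

theorem lam_res (n : ℕ) (ω : X) : lam n (res n ω) = lam n ω := by
  unfold lam
  congr 1
  funext S
  exact co_res (fun l hl => ((mem_support_ind S l).1 hl).1) ω

theorem gsum_res {N n n' : ℕ} (h : n' ≤ n) {g : (Fin N → Bool) → ℝ} (hg : IsPr g)
    {F : (ℕ → ℕ → ℝ) → ℝ} (hF : ∀ τ τ', (∀ l < n', τ l = τ' l) → F τ = F τ') :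
    gsum n g F = gsum n' g F := by
  unfold gsum
  rw [← sum_cw_comp hg (Fin.castLE h) (Fin.castLE_injective h) fun v => F (rep v)]
  refine Finset.sum_congr rfl fun v _ => ?_
  rw [hF (rep v) (rep fun i => v (Fin.castLE h i)) fun l hl => ?_]
  unfold rep
  rw [dif_pos hl, dif_pos (hl.trans_le h)]
  rfl

theorem abs_gsum_le {N n : ℕ} {g : (Fin N → Bool) → ℝ} (hg : IsPr g) {F : (ℕ → ℕ → ℝ) → ℝ} {c : ℝ}
    (hF : ∀ τ, (∀ l i, |τ l i| ≤ 1) → |F τ| ≤ c) : |gsum n g F| ≤ c := by
  exact abs_sum_pr_le (isPr_cw hg) fun v => hF _ (abs_rep_le v)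

theorem sys_pool_pos {N : ℕ} (hN : 1 ≤ N) {M : ℕ → ℕ} (hM : ∀ s, 1 ≤ M s) (s : ℕ) :
    0 < pool N M s := by
  unfold pool
  have := hM s
  split_ifs <;> omega

theorem tgt_pos {L B N : ℕ} (hN : 1 ≤ N) {M : ℕ → ℕ} (hM : ∀ s, 1 ≤ M s) (i : PI L B) :
    0 < tgt N M i := by
  unfold tgt
  split_ifs
  · exact sys_pool_pos hN hM _
  · exact one_pos
  · exact one_pos

theorem PS_nonempty (L B : ℕ) {N : ℕ} (hN : 1 ≤ N) {M : ℕ → ℕ} (hM : ∀ s, 1 ≤ M s) :
    (PS L B N M).Nonempty := by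
  exact Fintype.piFinset_nonempty.2 fun i => Finset.nonempty_range_iff.2 (tgt_pos hN hM i).ne'

theorem CS_nonempty (L : ℕ) {M : ℕ → ℕ} (hM : ∀ s, 1 ≤ M s) : (CS L M).Nonempty := by
  refine Fintype.piFinset_nonempty.2 fun t => Finset.nonempty_Ioc.2 ?_
  have := hM (t + 1)
  omega

theorem extP_lt {L B N : ℕ} (hN : 1 ≤ N) {M : ℕ → ℕ} (hM : ∀ s, 1 ≤ M s) {P : PI L B → ℕ}
    (hP : P ∈ PS L B N M) (t k : ℕ) (j : Fin (jl t).length) :
    extP P t k j < pool N M ((jl t).get j).1 := by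
  unfold extP
  split_ifs with h
  · have h1 := Finset.mem_range.1 (Fintype.mem_piFinset.1 hP (⟨t, h.1⟩, ⟨k, h.2.1⟩, ⟨j, h.2.2⟩))
    unfold tgt at h1
    have := sys_pool_pos hN hM ((jl t).get j).1
    split_ifs at h1 with h2 h3
    · exact h1
    · omega
    · omega
  · exact sys_pool_pos hN hM _

end Vale.Agent.P168
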