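import Vale.Agent.P168.AssU
import Vale.Agent.P168.Sys
import Vale.Agent.P168.Avg

/-! P168 Tele: the Aizenman-Sims-Starr step for the perturbed system.
Plan. `a N = 𝔼 P ∈ PS N, 𝔼 mc, ∫ logZ (pertW (extP P) mc ∘ exts) ∂hamLaw N (lam N)`.
With `D = (∑ t, 2 M (t+1)) log 2`: each term is within `D` of `N * pressure N` (`pertW_pos`,
`abs_logZ_sub_le`, `pressure_eq`). `a (N+1)` is within `2 D L B B / (N+1)` of the same average over
`PS N` (`expect_subset`, `card_PS_ratio`), and for `P ∈ PS N`,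
`pertW .. (exts s) = pertW .. (exts (Fin.init s))` (`gfun_congr_spin`, `extP_lt`). So by `ass`,
`V N ≤ a (N+1) - a N + δ' N`, `δ' → 0`, where `V N` is the left side below. If `V N > c + ε` for
all `N ≥ 1`, then `a (N+1) - a N ≥ c + ε/2` eventually, so `a N ≥ (c + ε/2) N - const` and
`pressure N ≥ c` eventually, a contradiction. -/

open MeasureTheory ProbabilityTheory Function Filter Topology
open scoped BigOperators

noncomputable section

namespace Vale.Agent.P168

theorem tele_real {a pr : ℕ → ℝ} {c ε D : ℝ} (hε : 0 < ε)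
    (h1 : ∀ᶠ N in atTop, c + ε ≤ a (N + 1) - a N) (h2 : ∀ N, 1 ≤ N → |a N - N * pr N| ≤ D) :
    ∀ᶠ N in atTop, c ≤ pr N := by
  obtain ⟨N0, h0⟩ := eventually_atTop.1 h1
  have h3 : ∀ n : ℕ, a N0 + n * (c + ε) ≤ a (N0 + n) := by
    intro n
    induction n with
    | zero => simp
    | succ n ih =>
      have := h0 (N0 + n) (by omega)
      rw [← add_assoc]
      push_cast
      linarith
  obtain ⟨N1, h4⟩ := exists_nat_ge ((D + N0 * (c + ε) - a N0) / ε)
  rw [div_le_iff₀ hε] at h4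
  filter_upwards [eventually_ge_atTop N0, eventually_ge_atTop N1, eventually_ge_atTop 1]
    with N hN0 hN1 hN
  obtain ⟨n, rfl⟩ := Nat.exists_eq_add_of_le hN0
  have h5 := h3 n
  have h6 := (abs_le.1 (h2 _ hN)).2
  have h7 : (N1 : ℝ) ≤ ((N0 + n : ℕ) : ℝ) := by exact_mod_cast hN1
  have h8 : (0 : ℝ) < ((N0 + n : ℕ) : ℝ) := by exact_mod_cast hN
  have h9 : (N1 : ℝ) * ε ≤ ((N0 + n : ℕ) : ℝ) * ε := by gcongr
  refine le_of_mul_le_mul_left ?_ h8
  push_cast at *
  nlinarith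

theorem tele_init {L B N : ℕ} (hN : 1 ≤ N) {M : ℕ → ℕ} (hM : ∀ s, 1 ≤ M s) {P : PI L B → ℕ}
    (hP : P ∈ PS L B N M) (mc : Fin L → ℕ) (s : Fin (N + 1) → Bool) :
    pertW (extP P) mc (exts (Fin.init s)) = pertW (extP P) mc (exts s) := by
  unfold pertW
  refine Finset.prod_congr rfl fun t _ => Finset.prod_congr rfl fun k _ => ?_
  rw [gfun_congr_spin (N := N) (σ' := exts s)]
  · intro t k j hj
    have := extP_lt hN hM hP t k j
    rwa [hj, pool, if_pos rfl] at this
  · intro i hi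
    unfold exts
    rw [dif_pos hi, dif_pos (by omega)]
    rfl

theorem tele_close {K : ℕ} {Q : Measure (Par K)} {Ph : Measure ℝ} (hM : Model K Q Ph)
    {lam : ℝ} (hlam : 0 ≤ lam) {L N : ℕ} (hN : 1 ≤ N) {M : ℕ → ℕ} (hM1 : ∀ s, 1 ≤ M s)
    (P : ℕ → ℕ → ℕ → ℕ) :
    |(𝔼 mc ∈ CS L M, ∫ H, logZ (fun s => pertW P mc (exts s)) H ∂hamLaw K Q Ph N (lam * N)) -
      N * pressure K lam Q Ph N| ≤ (∑ t : Fin L, (2 * M (t + 1) : ℝ)) * Real.log 2 := by
  have hl : 0 ≤ Real.log 2 := Real.log_nonneg one_le_two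
  rw [← Finset.expect_const (CS_nonempty L hM1) (N * pressure K lam Q Ph N)]
  refine abs_expect_sub_le _ (by positivity) fun mc hmc => ?_
  obtain ⟨i1, i2⟩ := hamLaw_spec hM hN (lam * N)
  have hw : ∀ s : Fin N → Bool, 0 < pertW P mc (exts s) := fun s =>
    (pertW_pos P mc (abs_exts_le s)).1
  have hw' : ∀ _s : Fin N → Bool, (0 : ℝ) < 1 := fun _ => one_pos
  rw [pressure_eq hM hlam hN, ← integral_sub (integrable_lip i2 (logZ_lip hw))
    (integrable_lip i2 (logZ_lip hw')), ← Real.norm_eq_abs]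
  refine (norm_integral_le_of_norm_le_const (ae_of_all _ fun H => ?_)).trans
    (le_of_eq (by rw [probReal_univ, mul_one]))
  rw [Real.norm_eq_abs]
  refine abs_logZ_sub_le hw hw' (fun s => ?_) H
  rw [Real.log_one, sub_zero]
  refine (pertW_pos P mc (abs_exts_le s)).2.trans ?_
  gcongr with t
  have := (Finset.mem_Ioc.1 (Fintype.mem_piFinset.1 hmc t)).2
  exact_mod_cast this

theorem tele {K : ℕ} (hK : 1 ≤ K) {Q : Measure (Par K)} {Ph : Measure ℝ} (hM : Model K Q Ph)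
    {lam : ℝ} (hlam : 0 ≤ lam) {c : ℝ} (hc : ∃ᶠ N in atTop, pressure K lam Q Ph N < c) {ε : ℝ}
    (hε : 0 < ε) (L B : ℕ) {M : ℕ → ℕ} (hM1 : ∀ s, 1 ≤ M s) :
    ∃ N, 1 ≤ N ∧ (𝔼 P ∈ PS L B N M, 𝔼 mc ∈ CS L M,
      ∫ H, val K lam Q Ph (EG K (pgib (fun s => Real.exp (H s)) (extP P) mc))
        ∂hamLaw K Q Ph N (alphaN K lam N)) ≤ c + ε := by
  by_contra hcon
  push Not at hcon
  obtain ⟨δ, hδ, hass⟩ := ass hK hM hlam
  set D : ℝ := (∑ t : Fin L, (2 * M (t + 1) : ℝ)) * Real.log 2 with hD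
  have hl : 0 ≤ Real.log 2 := Real.log_nonneg one_le_two
  have hD0 : 0 ≤ D := by positivity
  let b : ℕ → (PI L B → ℕ) → ℝ := fun N P => 𝔼 mc ∈ CS L M,
    ∫ H, logZ (fun s => pertW (extP P) mc (exts s)) H ∂hamLaw K Q Ph N (lam * N)
  have hb : ∀ N, 1 ≤ N → ∀ P, |b N P - N * pressure K lam Q Ph N| ≤ D := fun N hN P =>
    tele_close hM hlam hN hM1 (extP P)
  let a : ℕ → ℝ := fun N => 𝔼 P ∈ PS L B N M, b N P
  have ha : ∀ N, 1 ≤ N → |a N - N * pressure K lam Q Ph N| ≤ D := fun N hN => by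
    rw [← Finset.expect_const (PS_nonempty L B hN hM1) (N * pressure K lam Q Ph N)]
    exact abs_expect_sub_le _ hD0 fun P _ => hb N hN P
  have hstep : ∀ N, 1 ≤ N → c + ε ≤ a (N + 1) - a N + (δ N + 2 * D * ((L * B * B : ℝ) / (N + 1))) := by
    intro N hN
    obtain ⟨s1, s2⟩ := card_PS_ratio L B M hM1 hN
    have e1 := expect_subset s1 (PS_nonempty L B hN hM1) (F := b (N + 1))
      fun P _ => hb (N + 1) (by omega) P
    have e2 : 2 * D * (1 - ((PS L B N M).card : ℝ) / (PS L B (N + 1) M).card) ≤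
        2 * D * ((L * B * B : ℝ) / (N + 1)) := by gcongr
    have e3 : (𝔼 P ∈ PS L B N M, 𝔼 mc ∈ CS L M,
        ∫ H, val K lam Q Ph (EG K (pgib (fun s => Real.exp (H s)) (extP P) mc))
          ∂hamLaw K Q Ph N (alphaN K lam N)) ≤
        (𝔼 P ∈ PS L B N M, b (N + 1) P) - a N + δ N := by
      rw [← Finset.expect_const (PS_nonempty L B hN hM1) (δ N), ← Finset.expect_sub_distrib,
        ← Finset.expect_add_distrib]
      refine Finset.expect_le_expect fun P hP => ?_
      rw [← Finset.expect_const (CS_nonempty L hM1) (δ N), ← Finset.expect_sub_distrib,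
        ← Finset.expect_add_distrib]
      refine Finset.expect_le_expect fun mc _ => ?_
      have := hass N hN (fun s => pertW (extP P) mc (exts s))
        fun s => (pertW_pos _ mc (abs_exts_le s)).1
      simp only [tele_init hN hM1 hP] at this
      exact this
    have e4 := hcon N hN
    have e5 := (abs_le.1 e1).1
    change _ ≤ a (N + 1) - _ at e5
    linarith
  have hlim : Tendsto (fun N : ℕ => δ N + 2 * D * ((L * B * B : ℝ) / (N + 1))) atTop (𝓝 0) := by
    have h1 : Tendsto (fun N : ℕ => (L * B * B : ℝ) / (N + 1)) atTop (𝓝 0) :=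
      tendsto_const_nhds.div_atTop (tendsto_atTop_add_const_right _ _ tendsto_natCast_atTop_atTop)
    simpa using hδ.add (h1.const_mul (2 * D))
  have hev : ∀ᶠ N in atTop, c + ε / 2 ≤ a (N + 1) - a N := by
    filter_upwards [hlim.eventually (gt_mem_nhds (half_pos hε)), eventually_ge_atTop 1] with N h1 h2
    have := hstep N h2
    linarith
  obtain ⟨N, h1, h2⟩ := (hc.and_eventually (tele_real (half_pos hε) hev ha)).exists
  linarith

end Vale.Agent.P168
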