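import Vale.Agent.P168.Mecke
import Vale.Agent.P168.StageM
import Vale.Agent.P168.Tele
import Vale.Agent.P168.AProp
import Vale.Agent.P168.Struct
import Vale.Agent.P168.Poly
import Vale.Agent.P168.Link

/-! P168 Lower: the matching lower bound. -/

open MeasureTheory ProbabilityTheory Function Filter Topology
open scoped BigOperators

noncomputable section

namespace Vale.Agent.P168

theorem str_of_inM {C : ℕ → ℝ} (ν : ProbabilityMeasure X) (h : InM C ν) (ht : Triv ν) :
    Str (ν : Measure X) :=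
  ⟨inferInstance, exch_map h, h.2.1, ht, aprop h⟩

/-- the polynomial approximation of `val` -/
def PhiN (K : ℕ) (lam : ℝ) (Q : Measure (Par K)) (Ph : Measure ℝ) (kU0 kV0 : ℕ) (n : ℕ)
    (la : (Fin (n + 1) → Bool) → ℝ) : ℝ :=
  1 / ((n : ℝ) + 1) *
    (polyK (K * lam) (kU K Q Ph) kU0 la - polyK ((K - 1) * lam) (kV K Q) kV0 la)

theorem val_approx {K : ℕ} (hK : 1 ≤ K) {Q : Measure (Par K)} {Ph : Measure ℝ}
    (hM : Model K Q Ph) {lam : ℝ} (hlam : 0 ≤ lam) {ε : ℝ} (hε : 0 < ε) :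
    ∃ (kU0 kV0 n0 : ℕ) (c : ℝ), ∀ (E : ∀ k, Yv K k → ℝ) (ι : ℕ → Type) [∀ n, Fintype (ι n)]
      (wI : ∀ n, ι n → ℝ) (lI : ∀ n, ι n → (Fin (n + 1) → Bool) → ℝ), Ev E → Expa E ι wI lI →
      |val K lam Q Ph E - (c - ∑ n ∈ Finset.range n0,
        ∑ i, wI n i * PhiN K lam Q Ph kU0 kV0 n (lI n i))| ≤ ε := by
  have hK1 : (1 : ℝ) ≤ K := by exact_mod_cast hK
  obtain ⟨CU, hU⟩ := mom_kU hK hM
  obtain ⟨CV, hV⟩ := mom_kV hM
  have haU : (0 : ℝ) ≤ K * lam := by positivity
  have haV : (0 : ℝ) ≤ (K - 1) * lam := mul_nonneg (by linarith) hlam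
  obtain ⟨kU0, nU, hpU⟩ := poly_approx haU hU (half_pos hε)
  obtain ⟨kV0, nV, hpV⟩ := poly_approx haV hV (half_pos hε)
  refine ⟨kU0, kV0, max nU nV, cstK (K * lam) (kU K Q Ph) kU0 - cstK ((K - 1) * lam) (kV K Q) kV0,
    fun E ι _ wI lI hE hX => ?_⟩
  have h1 := abs_le.1 (hpU _ (le_max_left nU nV) E ι wI lI hE hX)
  have h2 := abs_le.1 (hpV _ (le_max_right nU nV) E ι wI lI hE hX)
  have h3 : ∑ n ∈ Finset.range (max nU nV), ∑ i, wI n i * PhiN K lam Q Ph kU0 kV0 n (lI n i) =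
      ∑ n ∈ Finset.range (max nU nV), 1 / ((n : ℝ) + 1) *
          ∑ i, wI n i * polyK (K * lam) (kU K Q Ph) kU0 (lI n i) -
        ∑ n ∈ Finset.range (max nU nV), 1 / ((n : ℝ) + 1) *
          ∑ i, wI n i * polyK ((K - 1) * lam) (kV K Q) kV0 (lI n i) := by
    rw [← Finset.sum_sub_distrib]
    refine Finset.sum_congr rfl fun n _ => ?_
    rw [← mul_sub, ← Finset.sum_sub_distrib, Finset.mul_sum]
    refine Finset.sum_congr rfl fun i _ => ?_
    unfold PhiN
    ring
  rw [h3]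
  unfold val
  rw [abs_le]
  constructor <;> linarith [h1.1, h1.2, h2.1, h2.2]

theorem continuous_PhiN {K : ℕ} (hK : 1 ≤ K) {Q : Measure (Par K)} {Ph : Measure ℝ}
    (hM : Model K Q Ph) (lam : ℝ) (kU0 kV0 n : ℕ) : Continuous (PhiN K lam Q Ph kU0 kV0 n) := by
  obtain ⟨CU, hU⟩ := mom_kU hK hM
  obtain ⟨CV, hV⟩ := mom_kV hM
  exact continuous_const.mul ((continuous_polyK _ hU _ _).sub (continuous_polyK _ hV _ _))

theorem sexp_lin (L B : ℕ) (M : ℕ → ℕ) {N : ℕ} (hN : 1 ≤ N) (hM1 : ∀ s, 1 ≤ M s) (nr : ℕ)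
    {b : (Fin N → Bool) → ℝ} (hb : ∀ s, 0 < b s) (c : ℝ) (n0 : ℕ) (φ : ℕ → X → ℝ) :
    sexp L B M nr b (fun ω => c - ∑ n ∈ Finset.range n0, φ n ω) =
      c - ∑ n ∈ Finset.range n0, sexp L B M nr b (φ n) := by
  unfold sexp
  have h1 : ∀ (P : PI L B → ℕ) (mc : Fin L → ℕ),
      gsum nr (pgib b (extP P) mc) (fun τ => c - ∑ n ∈ Finset.range n0, φ n (om (extP P) N M τ)) =
      c - ∑ n ∈ Finset.range n0,
        gsum nr (pgib b (extP P) mc) fun τ => φ n (om (extP P) N M τ) := by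
    intro P mc
    unfold gsum
    have hs : ∑ v : Fin nr → Fin N → Bool, cw (pgib b (extP P) mc) v = 1 :=
      (isPr_cw (isPr_pgib hb (extP P) mc)).2
    simp only [mul_sub, Finset.sum_sub_distrib, Finset.mul_sum]
    rw [← Finset.sum_mul, hs, one_mul, Finset.sum_comm]
  simp only [h1, Finset.expect_sub_distrib, Finset.expect_sum_comm]
  rw [Finset.expect_const (CS_nonempty L hM1), Finset.expect_const (PS_nonempty L B hN hM1)]

theorem integral_expect_fin {α Ω : Type} [MeasurableSpace Ω] (μ : Measure Ω) (A : Finset α)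
    {F : α → Ω → ℝ} (hF : ∀ a ∈ A, Integrable (F a) μ) :
    Integrable (fun ω => 𝔼 a ∈ A, F a ω) μ ∧ ∫ ω, (𝔼 a ∈ A, F a ω) ∂μ = 𝔼 a ∈ A, ∫ ω, F a ω ∂μ := by
  simp only [Finset.expect_eq_sum_div_card]
  refine ⟨(integrable_finsetSum A hF).div_const _, ?_⟩
  rw [integral_div, integral_finsetSum A hF]

theorem stage {K : ℕ} (hK : 1 ≤ K) {Q : Measure (Par K)} {Ph : Measure ℝ} (hM : Model K Q Ph)
    {lam : ℝ} (hlam : 0 ≤ lam) {c : ℝ} (hc : ∃ᶠ N in atTop, pressure K lam Q Ph N < c) {ε : ℝ}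
    (hε : 0 < ε) {kU0 kV0 n0 : ℕ} {c0 : ℝ}
    (hA : ∀ (E : ∀ k, Yv K k → ℝ) (ι : ℕ → Type) [∀ n, Fintype (ι n)]
      (wI : ∀ n, ι n → ℝ) (lI : ∀ n, ι n → (Fin (n + 1) → Bool) → ℝ), Ev E → Expa E ι wI lI →
      |val K lam Q Ph E - (c0 - ∑ n ∈ Finset.range n0,
        ∑ i, wI n i * PhiN K lam Q Ph kU0 kV0 n (lI n i))| ≤ ε) (j : ℕ) :
    ∃ (B : ℕ) (M : ℕ → ℕ) (N : ℕ) (μH : Measure (En N)) (ν : ProbabilityMeasure X),
      Scal j B M j ∧ 1 ≤ N ∧ IsProbabilityMeasure μH ∧ (∀ᵐ ω ∂(ν : Measure X), Good ω) ∧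
      (∀ φ : X → ℝ, Continuous φ →
        ∫ ω, φ ω ∂(ν : Measure X) = ∫ H, sexp j B M j (fun s => Real.exp (H s)) φ ∂μH) ∧
      (n0 ≤ j → ∫ ω, (c0 - ∑ n ∈ Finset.range n0,
        PhiN K lam Q Ph kU0 kV0 n (Vale.Agent.P168.lam (n + 1) ω)) ∂(ν : Measure X) ≤
          c + 2 * ε) := by
  obtain ⟨B, M, hS⟩ := exists_scal j j
  obtain ⟨N, hN, hT⟩ := tele hK hM hlam hc hε j B hS.1
  have hpr := (hamLaw_spec hM hN (alphaN K lam N)).1
  obtain ⟨ν, hG, hν⟩ := exists_stage j B hS.1 hN j (hamLaw K Q Ph N (alphaN K lam N))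
  refine ⟨B, M, N, _, ν, hS, hN, hpr, hG, hν, fun hj => ?_⟩
  have hcont : Continuous fun ω : X => c0 - ∑ n ∈ Finset.range n0,
      PhiN K lam Q Ph kU0 kV0 n (Vale.Agent.P168.lam (n + 1) ω) :=
    continuous_const.sub (continuous_finsetSum _ fun n _ =>
      (continuous_PhiN hK hM lam kU0 kV0 n).comp (continuous_lam (n + 1)))
  rw [hν _ hcont]
  have hint : ∀ P : PI j B → ℕ, ∀ mc : Fin j → ℕ, Integrable (fun H : En N =>
      val K lam Q Ph (EG K (pgib (fun s => Real.exp (H s)) (extP P) mc)))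
      (hamLaw K Q Ph N (alphaN K lam N)) := fun P mc =>
    integrable_val hK hM hlam hN (w := fun s => pertW (extP P) mc (exts s))
      (fun s => (pertW_pos _ _ (abs_exts_le s)).1) _
  have hi1 := fun P : PI j B → ℕ => integral_expect_fin (hamLaw K Q Ph N (alphaN K lam N))
    (CS j M) (fun mc _ => hint P mc)
  have hi2 := integral_expect_fin (hamLaw K Q Ph N (alphaN K lam N))
    (PS j B N M) (fun P _ => (hi1 P).1)
  have hpt : ∀ H : En N, sexp j B M j (fun s => Real.exp (H s)) (fun ω => c0 -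
      ∑ n ∈ Finset.range n0, PhiN K lam Q Ph kU0 kV0 n (Vale.Agent.P168.lam (n + 1) ω)) ≤
      (𝔼 P ∈ PS j B N M, 𝔼 mc ∈ CS j M,
        val K lam Q Ph (EG K (pgib (fun s => Real.exp (H s)) (extP P) mc))) + ε := by
    intro H
    have hb : ∀ s : Fin N → Bool, 0 < Real.exp (H s) := fun s => Real.exp_pos _
    rw [sexp_lin j B M hN hS.1 j hb]
    have h1 : ∀ n ∈ Finset.range n0, sexp j B M j (fun s => Real.exp (H s))
        (fun ω => PhiN K lam Q Ph kU0 kV0 n (Vale.Agent.P168.lam (n + 1) ω)) =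
        𝔼 P ∈ PS j B N M, 𝔼 mc ∈ CS j M, ∑ v : Fin (n + 1) → Fin N → Bool,
          cw (pgib (fun s => Real.exp (H s)) (extP P) mc) v *
            PhiN K lam Q Ph kU0 kV0 n (emp v) := fun n hn =>
      sexp_lam j B M hb (by have := Finset.mem_range.1 hn; omega) _
    rw [Finset.sum_congr rfl h1]
    have h2 : c0 - ∑ n ∈ Finset.range n0, (𝔼 P ∈ PS j B N M, 𝔼 mc ∈ CS j M,
        ∑ v : Fin (n + 1) → Fin N → Bool, cw (pgib (fun s => Real.exp (H s)) (extP P) mc) v *
            PhiN K lam Q Ph kU0 kV0 n (emp v)) =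
        𝔼 P ∈ PS j B N M, 𝔼 mc ∈ CS j M, (c0 - ∑ n ∈ Finset.range n0,
          ∑ v : Fin (n + 1) → Fin N → Bool, cw (pgib (fun s => Real.exp (H s)) (extP P) mc) v *
            PhiN K lam Q Ph kU0 kV0 n (emp v)) := by
      simp only [Finset.expect_sub_distrib, Finset.expect_sum_comm]
      rw [Finset.expect_const (CS_nonempty j hS.1), Finset.expect_const (PS_nonempty j B hN hS.1)]
    rw [h2]
    have h3 := abs_expect_sub_le (PS j B N M) hε.le (fun P _ =>
      abs_expect_sub_le (CS j M) hε.le fun mc _ =>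
        hA (EG K (pgib (fun s => Real.exp (H s)) (extP P) mc))
          (fun n => Fin (n + 1) → Fin N → Bool)
          (fun _ v => cw (pgib (fun s => Real.exp (H s)) (extP P) mc) v) (fun _ v => emp v)
          (ev_EG K (isPr_pgib hb _ _)) (gibbs_exp hN (isPr_pgib hb _ _)))
    linarith [(abs_le.1 h3).1]
  obtain ⟨Cb, hCb⟩ : ∃ Cb, ∀ ω : X, |c0 - ∑ n ∈ Finset.range n0,
      PhiN K lam Q Ph kU0 kV0 n (Vale.Agent.P168.lam (n + 1) ω)| ≤ Cb := by
    obtain ⟨Cb, hCb⟩ := isCompact_univ.exists_bound_of_continuousOn hcont.continuousOn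
    exact ⟨Cb, fun ω => hCb ω (Set.mem_univ ω)⟩
  have hint0 : Integrable (fun H : En N => sexp j B M j (fun s => Real.exp (H s)) (fun ω => c0 -
      ∑ n ∈ Finset.range n0, PhiN K lam Q Ph kU0 kV0 n (Vale.Agent.P168.lam (n + 1) ω)))
      (hamLaw K Q Ph N (alphaN K lam N)) :=
    Integrable.of_bound (continuous_sexp j B M j _).aestronglyMeasurable Cb
      (Eventually.of_forall fun H => abs_sexp_le j B M j (fun s => Real.exp_pos _) hCb)
  have hmono := integral_mono hint0 (hi2.1.add (integrable_const ε)) hpt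
  simp only [Pi.add_apply] at hmono
  rw [integral_add hi2.1 (integrable_const ε), hi2.2] at hmono
  simp only [fun P => (hi1 P).2, integral_const, probReal_univ, smul_eq_mul, one_mul] at hmono
  linarith

theorem lower {K : ℕ} (hK : 1 ≤ K) {Q : Measure (Par K)} {Ph : Measure ℝ} (hM : Model K Q Ph)
    {lam : ℝ} (hlam : 0 ≤ lam) {g : ℝ} (hg : g ∈ lowerBounds (trials K lam Q Ph)) {ε : ℝ}
    (hε : 0 < ε) : ∀ᶠ N in atTop, g - ε ≤ pressure K lam Q Ph N := by
  by_contra hcon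
  have hc : ∃ᶠ N in atTop, pressure K lam Q Ph N < g - ε := by
    rw [not_eventually] at hcon
    exact hcon.mono fun N hN => not_le.1 hN
  have hε8 : 0 < ε / 8 := by positivity
  obtain ⟨kU0, kV0, n0, c0, hA⟩ := val_approx hK hM hlam hε8
  choose B M N μH ν hS hN hpr hG hν hb using stage hK hM hlam hc hε8 hA
  have hcont : Continuous fun ω : X => c0 - ∑ n ∈ Finset.range n0,
      PhiN K lam Q Ph kU0 kV0 n (Vale.Agent.P168.lam (n + 1) ω) :=
    continuous_const.sub (continuous_finsetSum _ fun n _ =>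
      (continuous_PhiN hK hM lam kU0 kV0 n).comp (continuous_lam (n + 1)))
  have hsi : ∀ j, ∀ φ : X → ℝ, Continuous φ → Integrable (fun H : En (N j) =>
      sexp j (B j) (M j) j (fun s => Real.exp (H s)) φ) (μH j) := by
    intro j φ hφ
    have := hpr j
    obtain ⟨Cb, hCb⟩ := isCompact_univ.exists_bound_of_continuousOn hφ.continuousOn
    exact Integrable.of_bound (continuous_sexp _ _ _ _ _).aestronglyMeasurable Cb
      (Eventually.of_forall fun H => abs_sexp_le _ _ _ _ (fun s => Real.exp_pos _)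
        fun ω => hCb ω (Set.mem_univ ω))
  obtain ⟨ν1, hν1, hb1⟩ := exists_limit Cn ν hG (by
      intro e n φ
      obtain ⟨T, hT⟩ : ∃ T, ∀ l < n, e l < T :=
        ⟨(Finset.range n).sup e + 1, fun l hl =>
          Nat.lt_succ_of_le (Finset.le_sup (f := e) (Finset.mem_range.2 hl))⟩
      filter_upwards [eventually_ge_atTop (max n T)] with j hj
      have c1 : Continuous fun ω => φ (res n (act e ω)) :=
        φ.continuous.comp ((continuous_res n).comp (continuous_act e))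
      have c2 : Continuous fun ω => φ (res n ω) := φ.continuous.comp (continuous_res n)
      rw [hν j _ c1, hν j _ c2]
      refine integral_congr_ae (Eventually.of_forall fun H => ?_)
      exact sexp_exch j (B j) (M j) (fun s => Real.exp_pos _) e (le_of_max_le_left hj)
        (fun l hl => lt_of_lt_of_le (hT l hl) (le_of_max_le_right hj)) φ)
    (by
      intro t ht n _ hp φ η hη
      obtain ⟨j0, hj0⟩ := mecke ht hp φ hη
      filter_upwards [eventually_ge_atTop (max j0 (max (t + 1) (n + 1)))] with j hj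
      have := hpr j
      have c1 : Continuous fun ω => φ (res n ω) * (mekQ t ω - mekD (pp t) (jl t) n ω) :=
        (φ.continuous.comp (continuous_res n)).mul
          ((continuous_mekQ t).sub (continuous_mekD _ _ _))
      have c2 : Continuous fun ω => |φ (res n ω)| := (φ.continuous.comp (continuous_res n)).abs
      rw [hν j _ c1, hν j _ c2]
      have hj1 : j0 ≤ j := le_of_max_le_left hj
      have hj2 : t + 1 ≤ j := le_of_max_le_left (le_of_max_le_right hj)
      have hj3 : n + 1 ≤ j := le_of_max_le_right (le_of_max_le_right hj)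
      refine (abs_integral_le_integral_abs).trans ?_
      have hm := integral_mono (hsi j _ c1).abs
        (((hsi j _ c2).const_mul (Cn n * mu t)).add (integrable_const η))
        (fun H => hj0 j (B j) j (M j) (hS j) hj1 hj2 (N j) j (hN j) hj3 _ fun s => Real.exp_pos _)
      simp only [Pi.add_apply] at hm
      rw [integral_add ((hsi j _ c2).const_mul _) (integrable_const η), integral_const_mul] at hm
      simpa using hm)
    hcont (c := g - ε + 2 * (ε / 8))
    (by filter_upwards [eventually_ge_atTop n0] with j hj using hb j hj)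
  obtain ⟨ν2, hν2, ht2, hb2⟩ := exists_triv ν1 hν1 hcont
  have hstr := str_of_inM ν2 hν2 ht2
  have hε' : 0 < ε / 8 / (n0 + 1) := by positivity
  obtain ⟨r, m, A, _, μ, x, hm, hμ, hx, hst⟩ :=
    struct hstr n0 (PhiN K lam Q Ph kU0 kV0) (continuous_PhiN hK hM lam kU0 kV0) hε'
  have hmem := hg (fin_mem_trials hK lam hM hμ hm hx)
  have h1 := abs_le.1 (hA (Efin K μ m x) (Hist r) (fun _ h => hP m h) (fun _ h => lamH μ x h)
    (ev_Efin K hμ hm hx) (mp_exp hμ hm hx))
  have hi : ∀ n ∈ Finset.range n0, Integrable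
      (fun ω => PhiN K lam Q Ph kU0 kV0 n (Vale.Agent.P168.lam (n + 1) ω)) (ν2 : Measure X) :=
    fun n _ => ((continuous_PhiN hK hM lam kU0 kV0 n).comp
      (continuous_lam (n + 1))).integrable_of_hasCompactSupport (HasCompactSupport.of_compactSpace _)
  rw [integral_sub (integrable_const _) (integrable_finsetSum _ hi),
    integral_finsetSum _ hi] at hb2
  simp only [integral_const, probReal_univ, smul_eq_mul, one_mul] at hb2
  have h2 : ∑ n ∈ Finset.range n0,
      ∫ ω, PhiN K lam Q Ph kU0 kV0 n (Vale.Agent.P168.lam (n + 1) ω) ∂(ν2 : Measure X) ≤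
      ∑ n ∈ Finset.range n0, (∑ hh : Hist r n, hP m hh * PhiN K lam Q Ph kU0 kV0 n (lamH μ x hh) +
        ε / 8 / (n0 + 1)) :=
    Finset.sum_le_sum fun n hn => by
      linarith [(abs_le.1 (hst n (Finset.mem_range.1 hn))).2]
  rw [Finset.sum_add_distrib, Finset.sum_const, Finset.card_range, nsmul_eq_mul] at h2
  have h3 : (n0 : ℝ) * (ε / 8 / (n0 + 1)) ≤ ε / 8 := by
    rw [← mul_div_assoc, div_le_iff₀ (by positivity)]
    nlinarith
  linarith [h1.2]

end Vale.Agent.P168
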