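import Vale.Agent.P168.CubeB

/-! P168 MBasic: first consequences of `InM`.
Plan. `exch_map`: `ext_of_forall_integral_eq_of_IsFiniteMeasure`, dominated convergence with
`tendsto_res`. `mek_meas`: approximate `f` in `L^1 (ν.map (res n))` by bounded continuous functions
(`Integrable.exists_boundedContinuous_integral_sub_le`); `f ∘ res n = f`; `mekQ - mekD` is bounded.
`mekD_cond`: for each `q` pick `t` with `sp t = (q, p, J)` and `t ≥` all species in `J` (`sp_spec`),
so `Valid t`, `mu t = 1/(q+2)`; `∫ f * mekQ t = ∫ f' * mekQ t` follows from the hypothesis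
(`isFf_mekQ`); both differences are `O(mu t)`; let `q → ∞`. `mekD_zero`: for `p = 0`,
`mekQ t = 0` on `Good` (`diag 0 = 0`, the filters vanish). `single_eq`: `mekD_zero` with
`J = [(s, single 0 a)]`, `n = 1`, `f = co s (single 0 a)` gives `∫ γ0 γ1 = ∫ γ0^2 = ∫ γ1^2`, so
`∫ (γ0 - γ1)^2 = 0`; general `l` by `exch_map` with `swap 1 l`. -/

open MeasureTheory ProbabilityTheory Function Filter Topology
open scoped BigOperators

noncomputable section

namespace Vale.Agent.P168

theorem mbasic_int (α : Measure X) [IsFiniteMeasure α] {F : X → ℝ} (hF : Measurable F)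
    {c : ℝ} (hc : ∀ ω, |F ω| ≤ c) : Integrable F α :=
  Integrable.of_bound hF.aestronglyMeasurable c (Eventually.of_forall hc)

theorem mbasic_zero {x K : ℝ} (h : ∀ q : ℕ, |x| ≤ K * (1 / ((q : ℝ) + 2))) : x = 0 := by
  have h1 : Tendsto (fun q : ℕ => K * (1 / ((q : ℝ) + 2))) atTop (𝓝 (K * 0)) :=
    tendsto_const_nhds.mul (tendsto_const_nhds.div_atTop
      (tendsto_atTop_add_const_right _ _ tendsto_natCast_atTop_atTop))
  rw [mul_zero] at h1
  exact abs_nonpos_iff.1 (ge_of_tendsto' h1 h)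

theorem mbasic_sp (q p : ℕ) (J : List Idx) (hJ : ∀ i ∈ J, ∀ l ∈ i.2.support, l ≤ p) :
    ∃ t, Valid t ∧ pp t = p ∧ jl t = J ∧ mu t = 1 / ((q : ℝ) + 2) := by
  obtain ⟨t, ht, hs⟩ := sp_spec (q, p, J) (J.map Prod.fst).sum
  have h1 : pp t = p := by simp [pp, hs]
  have h2 : jl t = J := by simp [jl, hs]
  refine ⟨t, fun i hi => ?_, h1, h2, by simp [mu, hs]⟩
  rw [h2] at hi
  rw [h1]
  exact ⟨(List.le_sum_of_mem (List.mem_map_of_mem hi)).trans ht, hJ i hi⟩

theorem mbasic_split {ν : Measure X} [IsFiniteMeasure ν] {n : ℕ} {f g g' : X → ℝ} (hf : IsFf n f)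
    (hg : Continuous g) (hg' : Continuous g') :
    ∫ ω, f ω * (g ω - g' ω) ∂ν = ∫ ω, f ω * g ω ∂ν - ∫ ω, f ω * g' ω ∂ν := by
  obtain ⟨c, hc⟩ := hf.2.1
  have hi : ∀ u : X → ℝ, Continuous u → Integrable (fun ω => f ω * u ω) ν := fun u hu =>
    (hu.integrable_of_hasCompactSupport (HasCompactSupport.of_compactSpace u)).bdd_mul
      hf.1.aestronglyMeasurable (Eventually.of_forall hc)
  rw [← integral_sub (hi g hg) (hi g' hg')]
  simp only [mul_sub]

variable {C : ℕ → ℝ} {ν : Measure X} [IsProbabilityMeasure ν]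

theorem exch_map (h : InM C ν) (e : Equiv.Perm ℕ) : ν.map (act e) = ν := by
  refine ext_of_forall_integral_eq_of_IsFiniteMeasure fun f => ?_
  rw [integral_map (measurable_act e).aemeasurable f.continuous.aestronglyMeasurable]
  have h1 : ∀ g : X → X, Measurable g → Tendsto (fun n => ∫ ω, f (res n (g ω)) ∂ν) atTop
      (𝓝 (∫ ω, f (g ω) ∂ν)) := by
    intro g hg
    refine tendsto_integral_of_dominated_convergence (fun _ => ‖f‖)
      (fun n => (f.continuous.measurable.comp ((measurable_res n).comp hg)).aestronglyMeasurable)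
      (integrable_const _) (fun n => Eventually.of_forall fun ω => f.norm_coe_le_norm _)
      (Eventually.of_forall fun ω => (f.continuous.tendsto _).comp (tendsto_res _))
  refine tendsto_nhds_unique (h1 _ (measurable_act e)) ?_
  exact (h1 id measurable_id).congr fun n => (h.1 e n f.toContinuousMap).symm

theorem mek_meas (h : InM C ν) {t : ℕ} (hv : Valid t) {n : ℕ} (hn : 1 ≤ n) (hp : pp t ≤ n)
    {f : X → ℝ} (hf : IsFf n f) :
    |∫ ω, f ω * (mekQ t ω - mekD (pp t) (jl t) n ω) ∂ν| ≤ C n * mu t * ∫ ω, |f ω| ∂ν := by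
  have hD : Continuous fun ω => mekQ t ω - mekD (pp t) (jl t) n ω :=
    (continuous_mekQ t).sub (continuous_mekD _ _ _)
  obtain ⟨M, hM⟩ := isCompact_univ.exists_bound_of_continuousOn hD.continuousOn
  have hM' : ∀ ω, |mekQ t ω - mekD (pp t) (jl t) n ω| ≤ M := fun ω => hM ω trivial
  have hM0 : 0 ≤ M := (abs_nonneg _).trans (hM' fun _ => ⟨0, by norm_num⟩)
  obtain ⟨c, hc⟩ := hf.2.1
  have hfi : Integrable f (ν.map (res n)) := mbasic_int _ hf.1 hc
  have key : ∀ ε : ℝ, 0 < ε → |∫ ω, f ω * (mekQ t ω - mekD (pp t) (jl t) n ω) ∂ν| ≤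
      C n * mu t * ∫ ω, |f ω| ∂ν + (|C n * mu t| + M) * ε := by
    intro ε hε
    obtain ⟨g, hg, -⟩ := hfi.exists_boundedContinuous_integral_sub_le hε
    have hgm : Measurable fun ω => g (res n ω) := g.continuous.measurable.comp (measurable_res n)
    have hfg : Measurable fun x => ‖f x - g x‖ := (hf.1.sub g.continuous.measurable).norm
    rw [integral_map (measurable_res n).aemeasurable hfg.aestronglyMeasurable] at hg
    simp only [hf.2.2, Real.norm_eq_abs] at hg
    have i1 : Integrable f ν := mbasic_int _ hf.1 hc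
    have i2 : Integrable (fun ω => g (res n ω)) ν := mbasic_int _ hgm fun ω => g.norm_coe_le_norm _
    have i3 : Integrable (fun ω => |f ω - g (res n ω)|) ν := (i1.sub i2).abs
    have hb : ∀ᵐ ω ∂ν, ‖mekQ t ω - mekD (pp t) (jl t) n ω‖ ≤ M := Eventually.of_forall hM'
    have i4 := i1.mul_bdd hD.aestronglyMeasurable hb
    have i5 := i2.mul_bdd hD.aestronglyMeasurable hb
    have h1 : |∫ ω, g (res n ω) * (mekQ t ω - mekD (pp t) (jl t) n ω) ∂ν| ≤
        C n * mu t * ∫ ω, |g (res n ω)| ∂ν := h.2.2 t hv n hn hp g.toContinuousMap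
    have h2 : |∫ ω, f ω * (mekQ t ω - mekD (pp t) (jl t) n ω) ∂ν -
        ∫ ω, g (res n ω) * (mekQ t ω - mekD (pp t) (jl t) n ω) ∂ν| ≤ M * ε := by
      rw [← integral_sub i4 i5]
      calc _ ≤ ∫ ω, M * |f ω - g (res n ω)| ∂ν := by
            rw [← Real.norm_eq_abs]
            refine norm_integral_le_of_norm_le (i3.const_mul M) (Eventually.of_forall fun ω => ?_)
            rw [← sub_mul, Real.norm_eq_abs, abs_mul, mul_comm]
            exact mul_le_mul_of_nonneg_right (hM' ω) (abs_nonneg _)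
        _ ≤ M * ε := by
            rw [integral_const_mul]
            exact mul_le_mul_of_nonneg_left hg hM0
    have h3 : |∫ ω, |g (res n ω)| ∂ν - ∫ ω, |f ω| ∂ν| ≤ ε := by
      rw [← integral_sub i2.abs i1.abs, ← Real.norm_eq_abs]
      refine le_trans (norm_integral_le_of_norm_le i3 (Eventually.of_forall fun ω => ?_)) hg
      rw [Real.norm_eq_abs, abs_sub_comm (f ω)]
      exact abs_abs_sub_abs_le_abs_sub _ _
    have h4 : C n * mu t * (∫ ω, |g (res n ω)| ∂ν - ∫ ω, |f ω| ∂ν) ≤ |C n * mu t| * ε := by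
      refine (le_abs_self _).trans ?_
      rw [abs_mul (C n * mu t)]
      exact mul_le_mul_of_nonneg_left h3 (abs_nonneg _)
    have h5 := abs_sub_abs_le_abs_sub (∫ ω, f ω * (mekQ t ω - mekD (pp t) (jl t) n ω) ∂ν)
      (∫ ω, g (res n ω) * (mekQ t ω - mekD (pp t) (jl t) n ω) ∂ν)
    linarith
  refine le_of_forall_pos_le_add fun η hη => ?_
  have hK : 0 < |C n * mu t| + M + 1 := by positivity
  refine (key (η / (|C n * mu t| + M + 1)) (div_pos hη hK)).trans (add_le_add le_rfl ?_)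
  rw [← mul_div_assoc, div_le_iff₀ hK]
  nlinarith

theorem mekD_cond (h : InM C ν) {p n : ℕ} (hp : 1 ≤ p) (hpn : p ≤ n) {J : List Idx}
    (hJ : ∀ i ∈ J, ∀ l ∈ i.2.support, l ≤ p) {f f' : X → ℝ} (hf : IsFf n f) (hf' : IsFf p f')
    (hff' : ∀ g, IsFf p g → ∫ ω, f ω * g ω ∂ν = ∫ ω, f' ω * g ω ∂ν) :
    ∫ ω, f ω * mekD p J n ω ∂ν = ∫ ω, f' ω * mekD p J p ω ∂ν := by
  refine sub_eq_zero.1 (mbasic_zero
    (K := |C n| * ∫ ω, |f ω| ∂ν + |C p| * ∫ ω, |f' ω| ∂ν) fun q => ?_)
  obtain ⟨t, hv, h1, h2, h3⟩ := mbasic_sp q p J hJ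
  have k1 := mek_meas h hv (hp.trans hpn) (h1.le.trans hpn) hf
  have k2 := mek_meas h hv hp h1.le hf'
  have k3 := hff' _ (h1 ▸ isFf_mekQ t)
  rw [mbasic_split hf (continuous_mekQ t) (continuous_mekD _ _ _), h1, h2, h3] at k1
  rw [mbasic_split hf' (continuous_mekQ t) (continuous_mekD _ _ _), h1, h2, h3] at k2
  have hq : (0 : ℝ) ≤ 1 / ((q : ℝ) + 2) := by positivity
  have a1 : 0 ≤ ∫ ω, |f ω| ∂ν := integral_nonneg fun _ => abs_nonneg _
  have a2 : 0 ≤ ∫ ω, |f' ω| ∂ν := integral_nonneg fun _ => abs_nonneg _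
  have b1 := mul_le_mul_of_nonneg_right (mul_le_mul_of_nonneg_right (le_abs_self (C n)) hq) a1
  have b2 := mul_le_mul_of_nonneg_right (mul_le_mul_of_nonneg_right (le_abs_self (C p)) hq) a2
  rw [abs_le] at k1 k2 ⊢
  constructor <;> linarith

theorem mekD_zero (h : InM C ν) {n : ℕ} (hn : 1 ≤ n) {J : List Idx}
    (hJ : ∀ i ∈ J, ∀ l ∈ i.2.support, l ≤ 0) {f : X → ℝ} (hf : IsFf n f) :
    ∫ ω, f ω * mekD 0 J n ω ∂ν = 0 := by
  refine mbasic_zero (K := C n * ∫ ω, |f ω| ∂ν) fun q => ?_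
  obtain ⟨t, hv, h1, h2, h3⟩ := mbasic_sp q 0 J hJ
  have k1 := mek_meas h hv hn (h1.le.trans (Nat.zero_le n)) hf
  have k2 : ∫ ω, f ω * (mekQ t ω - mekD (pp t) (jl t) n ω) ∂ν = -∫ ω, f ω * mekD 0 J n ω ∂ν := by
    rw [← integral_neg]
    refine integral_congr_ae ?_
    filter_upwards [h.2.1] with ω hω
    have e1 : diag 0 = 0 := by simp [diag]
    have e2 : ∀ c : ℕ →₀ ℕ, c.filter (· < 0) = 0 := fun c => by
      ext l
      simp
    have e3 : mekQ t ω = 0 := by
      simp only [mekQ, mono0, h1, e1, e2, hω.1]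
      simp
    rw [e3, h1, h2]
    ring
  rw [k2, abs_neg, h3] at k1
  linarith

theorem single_eq (h : InM C ν) (s a l : ℕ) :
    ∀ᵐ ω ∂ν, co s (Finsupp.single l a) ω = co s (Finsupp.single 0 a) ω := by
  have hc : ∀ l ∈ (Finsupp.single 0 a : ℕ →₀ ℕ).support, l = 0 := fun l hl =>
    Finset.mem_singleton.1 (Finsupp.support_single_subset hl)
  have c0 := continuous_co s (Finsupp.single 0 a)
  have c1 := continuous_co s (Finsupp.single 1 a)
  have k1 := mekD_zero h le_rfl (J := [(s, Finsupp.single 0 a)])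
    (fun i hi l hl => by
      rw [List.mem_singleton] at hi
      subst hi
      exact (hc l hl).le)
    (isFf_co (s := s) (n := 1) (c := Finsupp.single 0 a) fun l hl => by rw [hc l hl]; exact one_pos)
  have e1 : ∀ ω, mekD 0 [(s, Finsupp.single 0 a)] 1 ω =
      co s (Finsupp.single 0 a) ω - co s (Finsupp.single 1 a) ω := fun ω => by
    simp [mekD, mono, co_act]
  simp only [e1] at k1
  have k2 : ∫ ω, co s (Finsupp.single 1 a) ω * (co s (Finsupp.single 1 a) ω -
      co s (Finsupp.single 0 a) ω) ∂ν = 0 := by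
    have c2 : Continuous fun ω => co s (Finsupp.single 0 a) ω *
      (co s (Finsupp.single 0 a) ω - co s (Finsupp.single 1 a) ω) := c0.mul (c0.sub c1)
    rw [← exch_map h (Equiv.swap 0 1), integral_map (measurable_act _).aemeasurable
      c2.aestronglyMeasurable] at k1
    simpa [co_act] using k1
  have hi : ∀ g : X → ℝ, Continuous g → Integrable g ν := fun g hg =>
    hg.integrable_of_hasCompactSupport (HasCompactSupport.of_compactSpace g)
  have k3 : ∫ ω, (co s (Finsupp.single 1 a) ω - co s (Finsupp.single 0 a) ω) ^ 2 ∂ν = 0 := by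
    have := integral_add (hi _ (c0.mul (c0.sub c1))) (hi _ (c1.mul (c1.sub c0)))
    simp only [Pi.mul_apply, Pi.sub_apply] at this
    rw [k1, k2, add_zero] at this
    rw [← this]
    refine integral_congr_ae (Eventually.of_forall fun ω => ?_)
    simp only
    ring
  have k4 : ∀ᵐ ω ∂ν, co s (Finsupp.single 1 a) ω = co s (Finsupp.single 0 a) ω := by
    have := (integral_eq_zero_iff_of_nonneg (fun ω => sq_nonneg _)
      (hi (fun ω => (co s (Finsupp.single 1 a) ω - co s (Finsupp.single 0 a) ω) ^ 2)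
        ((c1.sub c0).pow 2))).1 k3
    filter_upwards [this] with ω hω
    exact sub_eq_zero.1 (pow_eq_zero_iff two_ne_zero |>.1 hω)
  rcases Nat.eq_zero_or_pos l with rfl | hl
  · exact Eventually.of_forall fun _ => rfl
  rw [← exch_map h (Equiv.swap 1 l)] at k4
  filter_upwards [ae_of_ae_map (measurable_act _).aemeasurable k4] with ω hω
  rw [co_act, co_act, Finsupp.mapDomain_single, Finsupp.mapDomain_single, Equiv.swap_apply_left,
    Equiv.swap_apply_of_ne_of_ne zero_ne_one hl.ne] at hω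
  exact hω

end Vale.Agent.P168
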