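import Vale.Agent.P168.MeckeA
import Vale.Agent.P168.Avg

/-! P168 MeckeC: averaging over the parameters of an inactive site.
Plan. Let `S` be the block of indices `(t, k1, j)`. By `expect_merge`, resample the block. For
`P, P'` in `PS`, `Pn = extP (S.piecewise P' P)` satisfies the hypotheses of `tab_change` and
`gfun_change` (a target of species `t + 1` is `< M (t+1) ≤ k1` by `extP_lt`), so
`pgib b Pn mc = pgib b (extP P) mc` (only `k < mc t ≤ k1` are active) and
`om Pn = om (extP P)` (pool sites are `< M (t+1)`). Expand `firstG` into terms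
`∏ l ∈ T, gfun Pn t k1 (ρ l) (τ l)`; `gfun Pn t k1 ρ σ = ∏ j, site (extP P) s_j (P' (t,k1,j)) (c_j ρ) σ`
(`tab_stable`, `Valid`), `Finset.prod_comm`, `expect_prod_pi` with `e j = (t, k1, j)`, `omv_eq`,
`om_val`. The three terms give `mono0` (`T = range p`, `c_j.filter (· < p)`) and
`mono (act (swap p l))` (`T = insert l (range p)`, `mapDomain (swap p l) c_j`); convert `List.prod`
to a product over `Fin length` with `List.prod_ofFn`/`Fin.prod_univ_fun_getElem`. -/

open MeasureTheory ProbabilityTheory Function Filter Topology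
open scoped BigOperators

noncomputable section

namespace Vale.Agent.P168

theorem meckeC_map_prod (J : List Idx) (F : Idx → ℝ) :
    (J.map F).prod = ∏ j : Fin J.length, F (J.get j) :=
  (Fin.prod_univ_fun_getElem J F).symm

theorem meckeC_key {L B j N : ℕ} {M : ℕ → ℕ} (hS : Scal L B M j) (hN : 1 ≤ N) (t : Fin L)
    {k1 : ℕ} (hk' : k1 < 2 * M (t + 1)) (Po : ℕ → ℕ → ℕ → ℕ) {τ : ℕ → ℕ → ℝ}
    (hτ : ∀ l i, |τ l i| ≤ 1) (e : Fin (jl t).length → PI L B) (he : Injective e)
    (he1 : ∀ i, (e i).1 = t) (he2 : ∀ i, ((e i).2.1 : ℕ) = k1) (he3 : ∀ i, ((e i).2.2 : ℕ) = i)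
    (T : Finset ℕ) (ρ : ℕ → ℕ) (c' : Fin (jl t).length → ℕ →₀ ℕ)
    (hc1 : ∀ i, (c' i).support ⊆ T) (hc2 : ∀ i, ∀ l ∈ T, c' i l = ((jl t).get i).2 (ρ l)) :
    𝔼 P' ∈ PS L B N M, ∏ l ∈ T, ∏ i : Fin (jl t).length,
        site Po ((jl t).get i).1 (P' (e i)) (((jl t).get i).2 (ρ l)) (τ l) =
      ∏ i : Fin (jl t).length, co ((jl t).get i).1 (c' i) (om Po N M τ) := by
  have h1 : ∀ P' : PI L B → ℕ, ∏ l ∈ T, ∏ i : Fin (jl t).length,
      site Po ((jl t).get i).1 (P' (e i)) (((jl t).get i).2 (ρ l)) (τ l) =
      ∏ i : Fin (jl t).length, (fun (i : Fin (jl t).length) (a : ℕ) =>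
        ∏ l ∈ T, site Po ((jl t).get i).1 a (((jl t).get i).2 (ρ l)) (τ l)) i (P' (e i)) :=
    fun P' => Finset.prod_comm
  simp only [h1]
  unfold PS
  refine (expect_prod_pi (fun i => Finset.range (tgt N M i))
    (fun i => Finset.nonempty_range_iff.2 (tgt_pos hN hS.1 i).ne') e he
    (fun (i : Fin (jl t).length) (a : ℕ) =>
        ∏ l ∈ T, site Po ((jl t).get i).1 a (((jl t).get i).2 (ρ l)) (τ l))).trans ?_
  refine Finset.prod_congr rfl fun i _ => ?_
  rw [om_val Po N M hτ, omv_eq Po N M τ (((jl t).get i).1, c' i) (hc1 i)]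
  have ht : tgt N M (e i) = pool N M ((jl t).get i).1 := by
    unfold tgt
    have a1 := he1 i
    have a2 := he2 i
    have a3 := he3 i
    generalize e i = u at a1 a2 a3
    obtain ⟨u1, u2, u3⟩ := u
    simp only at a1 a2 a3
    subst a1
    simp only
    rw [if_pos (by rw [a2]; exact hk'), dif_pos (by rw [a3]; exact i.2)]
    congr 3
    exact Fin.ext a3
  rw [ht]
  refine Finset.expect_congr rfl fun a _ => Finset.prod_congr rfl fun l hl => ?_
  rw [hc2 i l hl]

theorem meckeC_swap_apply {p l l' : ℕ} (_hl : p ≤ l) (c : ℕ →₀ ℕ)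
    (hl' : l' ∈ insert l (Finset.range p)) :
    c.mapDomain (Equiv.swap p l) l' = c (if l' = l then p else l') := by
  have h1 : l' = Equiv.swap p l (if l' = l then p else l') := by
    split_ifs with h
    · rw [h, Equiv.swap_apply_left]
    · rcases Finset.mem_insert.1 hl' with h' | h'
      · exact absurd h' h
      · have := Finset.mem_range.1 h'
        rw [Equiv.swap_apply_of_ne_of_ne (by omega) h]
  conv_lhs => rw [h1]
  rw [Finsupp.mapDomain_apply (Equiv.swap p l).injective]

theorem meckeC_swap_support {p l : ℕ} (hl : p ≤ l) {c : ℕ →₀ ℕ} (hc : ∀ i ∈ c.support, i ≤ p) :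
    (c.mapDomain (Equiv.swap p l)).support ⊆ insert l (Finset.range p) := by
  refine Finsupp.mapDomain_support.trans fun a ha => ?_
  obtain ⟨i, hi, rfl⟩ := Finset.mem_image.1 ha
  have := hc i hi
  by_cases h : i = p
  · rw [h, Equiv.swap_apply_left]; exact Finset.mem_insert_self _ _
  · rw [Equiv.swap_apply_of_ne_of_ne h (by omega)]
    exact Finset.mem_insert_of_mem (Finset.mem_range.2 (by omega))

theorem mecke_block {L B j N n nr : ℕ} {M : ℕ → ℕ} (hS : Scal L B M j) (hN : 1 ≤ N)
    (b : (Fin N → Bool) → ℝ) (mc : Fin L → ℕ) (t : Fin L) (hv : Valid t) (hp : pp t ≤ n)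
    {k1 : ℕ} (hk : M (t + 1) ≤ k1) (hk' : k1 < 2 * M (t + 1)) (hmc : mc t ≤ k1) (f : X → ℝ) :
    𝔼 P ∈ PS L B N M, gsum nr (pgib b (extP P) mc)
        (fun τ => f (om (extP P) N M τ) * firstG (extP P) t k1 n τ) =
      𝔼 P ∈ PS L B N M, gsum nr (pgib b (extP P) mc) fun τ => f (om (extP P) N M τ) *
        (mono0 (pp t) (jl t) (om (extP P) N M τ) +
          mu t * mekD (pp t) (jl t) n (om (extP P) N M τ)) := by
  classical
  obtain ⟨hB1, hB2, -⟩ := hS.2 t t.2
  have hk1B : k1 < B := lt_of_lt_of_le hk' hB1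
  set S : Finset (PI L B) := Finset.univ.filter fun i => i.1 = t ∧ (i.2.1 : ℕ) = k1 with hSdef
  set e : Fin (jl t).length → PI L B :=
    fun i => (t, ⟨k1, hk1B⟩, ⟨i, lt_of_lt_of_le i.2 hB2⟩) with hedef
  have he : Injective e := fun i i' h => by
    have := congrArg (fun u : PI L B => (u.2.2 : ℕ)) h
    exact Fin.ext this
  have hT : ∀ i : PI L B, (Finset.range (tgt N M i)).Nonempty :=
    fun i => Finset.nonempty_range_iff.2 (tgt_pos hN hS.1 i).ne'
  have hmerge := expect_merge (fun i : PI L B => Finset.range (tgt N M i)) hT S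
    (fun P => gsum nr (pgib b (extP P) mc)
        (fun τ => f (om (extP P) N M τ) * firstG (extP P) t k1 n τ))
  refine Eq.trans hmerge (Finset.expect_congr rfl fun P hP => ?_)
  have hP' : P ∈ PS L B N M := hP
  have key : ∀ P' : PI L B → ℕ,
      pgib b (extP (S.piecewise P' P)) mc = pgib b (extP P) mc ∧
      (∀ τ, om (extP (S.piecewise P' P)) N M τ = om (extP P) N M τ) ∧
      ∀ ρ σ, gfun (extP (S.piecewise P' P)) t k1 ρ σ = ∏ i : Fin (jl t).length,
        site (extP P) ((jl t).get i).1 (P' (e i)) (((jl t).get i).2 ρ) σ := by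
    intro P'
    have h1 : ∀ t', t' ≠ (t : ℕ) → extP (S.piecewise P' P) t' = extP P t' := by
      intro t' ht'
      funext k i
      unfold extP
      split_ifs with h
      · rw [Finset.piecewise_eq_of_notMem]
        simp only [hSdef, Finset.mem_filter, Finset.mem_univ, true_and, not_and]
        intro h'
        exact absurd (congrArg Fin.val h') ht'
      · rfl
    have hkk : ∀ k, k ≠ k1 → extP (S.piecewise P' P) t k = extP P t k := by
      intro k hkk
      funext i
      unfold extP
      split_ifs with h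
      · rw [Finset.piecewise_eq_of_notMem]
        simp only [hSdef, Finset.mem_filter, Finset.mem_univ, true_and]
        exact hkk
      · rfl
    have h2 : ∀ t', (t : ℕ) < t' → ∀ k (i : Fin (jl t').length), ((jl t').get i).1 = t + 1 →
        extP (S.piecewise P' P) t (extP P t' k i) = extP P t (extP P t' k i) := by
      intro t' _ k i hi
      have := extP_lt hN hS.1 hP' t' k i
      rw [hi] at this
      simp only [pool, Nat.add_eq_zero_iff, one_ne_zero, and_false, if_false] at this
      exact hkk _ (by omega)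
    have hg := gfun_change h1 h2
    refine ⟨?_, ?_, ?_⟩
    · unfold pgib
      congr 1
      funext s
      congr 1
      unfold pertW
      refine Finset.prod_congr rfl fun t' _ => Finset.prod_congr rfl fun k hkm => ?_
      by_cases htt : t' = t
      · subst htt
        have := Finset.mem_range.1 hkm
        rw [hg.2 k k (hkk k (by omega))]
      · rw [hg.1 t' k fun h => htt (Fin.ext h)]
    · intro τ
      funext i
      unfold om omv
      congr 2
      refine Finset.sum_congr rfl fun k hkm => Finset.prod_congr rfl fun l _ => ?_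
      unfold site
      by_cases hs : i.1 = t + 1
      · have := Finset.mem_range.1 hkm
        rw [hs] at this ⊢
        simp only [pool, Nat.add_eq_zero_iff, one_ne_zero, and_false, if_false] at this
        rw [(tab_change h1 h2 _).2 k k (hkk k (by omega))]
      · rw [(tab_change h1 h2 _).1 i.1 k hs]
    · intro ρ σ
      unfold gfun gg
      refine Finset.prod_congr rfl fun i _ => ?_
      have hi := (hv _ (List.get_mem (jl t) i)).1
      rw [(tab_change h1 h2 _).1 _ _ (by omega), tab_stable _ hi]
      have : extP (S.piecewise P' P) t k1 i = P' (e i) := by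
        unfold extP
        rw [dif_pos ⟨t.2, hk1B, lt_of_lt_of_le i.2 hB2⟩, Finset.piecewise_eq_of_mem]
        simp [hSdef]
      rw [this]
  have hstep : ∀ P' : PI L B → ℕ, gsum nr (pgib b (extP (S.piecewise P' P)) mc)
      (fun τ => f (om (extP (S.piecewise P' P)) N M τ) *
        firstG (extP (S.piecewise P' P)) t k1 n τ) =
      ∑ v : Fin nr → Fin N → Bool, cw (pgib b (extP P) mc) v * (f (om (extP P) N M (rep v)) *
        firstG (extP (S.piecewise P' P)) t k1 n (rep v)) := by
    intro P'
    unfold gsum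
    rw [(key P').1]
    simp only [(key P').2.1]
  simp only [hstep]
  rw [Finset.expect_sum_comm]
  unfold gsum
  refine Finset.sum_congr rfl fun v _ => ?_
  rw [← Finset.mul_expect, ← Finset.mul_expect]
  congr 2
  have hτ : ∀ l i, |rep v l i| ≤ 1 := abs_rep_le v
  have kk := fun T ρ c' hc1 hc2 => meckeC_key hS hN t hk' (extP P) hτ e he (fun _ => rfl)
    (fun _ => rfl) (fun _ => rfl) T ρ c' hc1 hc2
  have k0 : 𝔼 P' ∈ PS L B N M, ∏ l ∈ Finset.range (pp t),
      gfun (extP (S.piecewise P' P)) t k1 l (rep v l) =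
      mono0 (pp t) (jl t) (om (extP P) N M (rep v)) := by
    simp only [(key _).2.2]
    unfold mono0
    rw [meckeC_map_prod]
    refine kk (Finset.range (pp t)) id (fun i => ((jl t).get i).2.filter (· < pp t)) ?_ ?_
    · intro i l hl
      rw [Finsupp.support_filter] at hl
      exact Finset.mem_range.2 (Finset.mem_filter.1 hl).2
    · intro i l hl
      exact Finsupp.filter_apply_pos (fun x => x < pp t) _ (Finset.mem_range.1 hl)
  have kl : ∀ l, pp t ≤ l → 𝔼 P' ∈ PS L B N M, (∏ l' ∈ Finset.range (pp t),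
      gfun (extP (S.piecewise P' P)) t k1 l' (rep v l')) *
        gfun (extP (S.piecewise P' P)) t k1 (pp t) (rep v l) =
      mono (jl t) (act (Equiv.swap (pp t) l) (om (extP P) N M (rep v))) := by
    intro l hl
    have hnm : l ∉ Finset.range (pp t) := fun h => by
      have := Finset.mem_range.1 h
      omega
    have h1 : ∀ P' : PI L B → ℕ, (∏ l' ∈ Finset.range (pp t),
        gfun (extP (S.piecewise P' P)) t k1 l' (rep v l')) *
        gfun (extP (S.piecewise P' P)) t k1 (pp t) (rep v l) =
        ∏ l' ∈ insert l (Finset.range (pp t)),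
          gfun (extP (S.piecewise P' P)) t k1 (if l' = l then pp t else l') (rep v l') := by
      intro P'
      rw [Finset.prod_insert hnm, if_pos rfl, mul_comm]
      congr 1
      refine Finset.prod_congr rfl fun l' hl' => ?_
      rw [if_neg fun h : l' = l => hnm (h ▸ hl')]
    simp only [h1]
    simp only [(key _).2.2]
    unfold mono
    rw [meckeC_map_prod]
    simp only [co_act]
    exact kk (insert l (Finset.range (pp t))) (fun l' => if l' = l then pp t else l')
      (fun i => ((jl t).get i).2.mapDomain (Equiv.swap (pp t) l))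
      (fun i => meckeC_swap_support hl (hv _ (List.get_mem (jl t) i)).2)
      (fun i l' hl' => meckeC_swap_apply hl _ hl')
  have hexp : ∀ P' : PI L B → ℕ, firstG (extP (S.piecewise P' P)) t k1 n (rep v) =
      (∏ l ∈ Finset.range (pp t), gfun (extP (S.piecewise P' P)) t k1 l (rep v l)) +
        mu t * (∑ l ∈ Finset.Ico (pp t) n, (∏ l' ∈ Finset.range (pp t),
          gfun (extP (S.piecewise P' P)) t k1 l' (rep v l')) *
            gfun (extP (S.piecewise P' P)) t k1 (pp t) (rep v l) -
          n * ((∏ l' ∈ Finset.range (pp t),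
          gfun (extP (S.piecewise P' P)) t k1 l' (rep v l')) *
            gfun (extP (S.piecewise P' P)) t k1 (pp t) (rep v n))) := by
    intro P'
    unfold firstG
    rw [← Finset.mul_sum]
    ring
  simp only [hexp]
  change (𝔼 P' ∈ PS L B N M, _) = _
  rw [Finset.expect_add_distrib, ← Finset.mul_expect, Finset.expect_sub_distrib,
    Finset.expect_sum_comm, ← Finset.mul_expect, k0, kl n hp]
  unfold mekD
  congr 3
  exact Finset.sum_congr rfl fun l hl => kl l (Finset.mem_Ico.1 hl).1

end Vale.Agent.P168
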