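import Vale.Agent.P168.MeckeB
import Vale.Agent.P168.MeckeC

/-! P168 Mecke: the approximate stability inequality for the finite system.
Plan. Exchange the two averages (`Finset.expect_comm`). For `mc ∈ CS`, with `mc' = update mc t
(mc t - 1)`: `mecke_swap`, `mecke_fixed` (averaged over `P`; `F τ = φ (res n (om ..))`,
`res_om_congr`), `mecke_block` (with `k1 = mc t - 1`) give
`|A mc / (1-μ)^p - D mc'| ≤ Cn μ^2 * E mc' + η'/(1-μ)^p`, where `A, D, E` are the `P`-averages of
`gsum` of `φ co`, `φ (mono0 + μ mekD)`, `|φ|`. `expect_shift` replaces `mc'` by `mc` at the cost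
`O(1/M (t+1)) = O(1/(j+1))` (`abs_gsum_le`, `abs_mono0_le`, `abs_mekD_le`). Divide by `μ`
(linearity of `gsum` and of the averages). -/

open MeasureTheory ProbabilityTheory Function Filter Topology
open scoped BigOperators

noncomputable section

namespace Vale.Agent.P168

theorem mecke {t : ℕ} (hv : Valid t) {n : ℕ} (hp : pp t ≤ n) (φ : C(X, ℝ)) {η : ℝ} (hη : 0 < η) :
    ∃ j0 : ℕ, ∀ (L B j : ℕ) (M : ℕ → ℕ), Scal L B M j → j0 ≤ j → t < L → ∀ (N nr : ℕ), 1 ≤ N →
      n < nr → ∀ b : (Fin N → Bool) → ℝ, (∀ s, 0 < b s) →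
      |sexp L B M nr b fun ω => φ (res n ω) * (mekQ t ω - mekD (pp t) (jl t) n ω)| ≤
        Cn n * mu t * sexp L B M nr b (fun ω => |φ (res n ω)|) + η := by
  obtain ⟨m0, m1⟩ := mu_mem t
  have hq : (0 : ℝ) < (1 - mu t) ^ pp t := pow_pos (by linarith) _
  have hC : ∀ ω, |φ ω| ≤ ‖φ‖ := fun ω => φ.norm_coe_le_norm ω
  have hC0 := norm_nonneg φ
  have hCn := Cn_nonneg n
  obtain ⟨j1, hj1⟩ := mecke_swap φ n (η := η / 2 * mu t * (1 - mu t) ^ pp t) (by positivity)
  set R : ℝ := Cn n * mu t ^ 2 * (2 * ‖φ‖) + 2 * (‖φ‖ * (1 + 2 * n)) with hR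
  have hR0 : 0 ≤ R := by positivity
  obtain ⟨j2, hj2⟩ := exists_nat_ge (R / (η / 2 * mu t))
  refine ⟨max j1 j2, fun L B j M hS hj ht N nr hN hn b hb => ?_⟩
  set T : Fin L := ⟨t, ht⟩ with hT
  have hMj : (j : ℝ) + 1 ≤ M (t + 1) := by
    have := (hS.2 t ht).2.2
    have h2 : j + 1 ≤ M (t + 1) := le_trans (Nat.le_mul_of_pos_right _ (by omega)) this
    exact_mod_cast h2
  have hM0 : (0 : ℝ) < M (t + 1) := lt_of_lt_of_le (by positivity) hMj
  have hRM : R / M (t + 1) ≤ η / 2 * mu t := by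
    have h1 : (j2 : ℝ) ≤ j := by exact_mod_cast le_of_max_le_right hj
    rw [div_le_iff₀ (by positivity)] at hj2
    rw [div_le_iff₀ hM0]
    nlinarith [mul_le_mul_of_nonneg_right (h1.trans (by linarith : (j : ℝ) ≤ M (t + 1)))
      (by positivity : 0 ≤ η / 2 * mu t)]
  set A : (Fin L → ℕ) → ℝ := fun mc => 𝔼 P ∈ PS L B N M, gsum nr (pgib b (extP P) mc) fun τ =>
    φ (res n (om (extP P) N M τ)) * co (t + 1) (diag (pp t)) (om (extP P) N M τ) with hA
  set D : (Fin L → ℕ) → ℝ := fun mc => 𝔼 P ∈ PS L B N M, gsum nr (pgib b (extP P) mc) fun τ =>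
    φ (res n (om (extP P) N M τ)) * (mono0 (pp t) (jl t) (om (extP P) N M τ) +
      mu t * mekD (pp t) (jl t) n (om (extP P) N M τ)) with hD
  set E : (Fin L → ℕ) → ℝ := fun mc => 𝔼 P ∈ PS L B N M, gsum nr (pgib b (extP P) mc) fun τ =>
    |φ (res n (om (extP P) N M τ))| with hE
  have e1 : (sexp L B M nr b fun ω => φ (res n ω) * (mekQ t ω - mekD (pp t) (jl t) n ω)) =
      (𝔼 mc ∈ CS L M, (A mc / (1 - mu t) ^ pp t - D mc)) / mu t := by
    unfold sexp
    rw [Finset.expect_comm, Finset.expect_div]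
    refine Finset.expect_congr rfl fun mc _ => ?_
    simp only [hA, hD]
    rw [Finset.expect_div, ← Finset.expect_sub_distrib, Finset.expect_div]
    refine Finset.expect_congr rfl fun P _ => ?_
    unfold gsum
    rw [Finset.sum_div, ← Finset.sum_sub_distrib, Finset.sum_div]
    refine Finset.sum_congr rfl fun v _ => ?_
    unfold mekQ
    field_simp
    ring
  have e2 : (sexp L B M nr b fun ω => |φ (res n ω)|) = 𝔼 mc ∈ CS L M, E mc := by
    unfold sexp
    rw [Finset.expect_comm]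
  have hDb : ∀ mc, |D mc| ≤ ‖φ‖ * (1 + 2 * n) := fun mc =>
    abs_expect_le _ (by positivity) fun P _ => abs_gsum_le (isPr_pgib hb _ _) fun τ _ => by
      rw [abs_mul]
      refine mul_le_mul (hC _) ((abs_add_le _ _).trans (add_le_add (abs_mono0_le _ _ _) ?_))
        (abs_nonneg _) hC0
      rw [abs_mul, abs_of_pos m0]
      exact (mul_le_of_le_one_left (abs_nonneg _) (by linarith)).trans (abs_mekD_le _ _ _ _)
  have hEb : ∀ mc, |E mc| ≤ ‖φ‖ := fun mc =>
    abs_expect_le _ hC0 fun P _ => abs_gsum_le (isPr_pgib hb _ _) fun τ _ => by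
      rw [abs_abs]
      exact hC _
  have key : ∀ mc ∈ CS L M, |A mc / (1 - mu t) ^ pp t - D (update mc T (mc T - 1))| ≤
      Cn n * mu t ^ 2 * E (update mc T (mc T - 1)) + η / 2 * mu t := fun mc hmc => by
    have hr := Finset.mem_Ioc.1 (Fintype.mem_piFinset.1 hmc T)
    have h1 := hj1 L B j M hS (le_of_max_le_left hj) T N nr hN b hb mc hmc
    have h2 := mecke_block (n := n) (nr := nr) hS hN b (update mc T (mc T - 1)) T hv hp
      (k1 := mc T - 1) (by omega) (by omega) (by rw [update_self]) fun ω => φ (res n ω)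
    have h3 : ∀ P : PI L B → ℕ, _ := fun P => mecke_fixed hb (extP P) mc T (by omega) hp hn
      (F := fun τ => φ (res n (om (extP P) N M τ))) fun τ τ' h => by
        rw [res_om_congr _ _ _ h]
    change |A mc - _| ≤ _ at h1
    change _ = D (update mc T (mc T - 1)) at h2
    rw [← h2]
    set S : ℝ := 𝔼 P ∈ PS L B N M, gsum nr (pgib b (extP P) mc) fun τ =>
      φ (res n (om (extP P) N M τ)) *
        ∏ l ∈ Finset.range (pp T), site (extP P) (T + 1) (mc T - 1) (l + 1) (τ l) with hSd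
    have h4 : |A mc / (1 - mu t) ^ pp t - S / (1 - mu t) ^ pp t| ≤ η / 2 * mu t := by
      rw [← sub_div, abs_div, abs_of_pos hq, div_le_iff₀ hq]
      exact h1
    refine (abs_sub_le _ (S / (1 - mu t) ^ pp t) _).trans ?_
    rw [add_comm]
    refine add_le_add ?_ h4
    rw [hSd, Finset.expect_div, ← Finset.expect_sub_distrib]
    simp only [hE]
    rw [Finset.mul_expect]
    exact (Finset.abs_expect_le _ _).trans (Finset.expect_le_expect fun P _ => h3 P)
  have s1 := expect_shift hS.1 T hDb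
  have s2 := expect_shift hS.1 T hEb
  have hne := CS_nonempty L hS.1
  have s3 : |𝔼 mc ∈ CS L M, (A mc / (1 - mu t) ^ pp t - D (update mc T (mc T - 1)))| ≤
      Cn n * mu t ^ 2 * (𝔼 mc ∈ CS L M, E (update mc T (mc T - 1))) + η / 2 * mu t := by
    refine (Finset.abs_expect_le _ _).trans ((Finset.expect_le_expect key).trans_eq ?_)
    rw [Finset.expect_add_distrib, Finset.expect_const hne, Finset.mul_expect]
  rw [e1, e2, abs_div, abs_of_pos m0, div_le_iff₀ m0]
  rw [Finset.expect_sub_distrib] at s3 ⊢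
  have s4 := mul_le_mul_of_nonneg_left (abs_le.1 s2).2 (by positivity : 0 ≤ Cn n * mu t ^ 2)
  have s5 : R / M (t + 1) = Cn n * mu t ^ 2 * (2 * ‖φ‖ / M (T + 1)) +
      2 * (‖φ‖ * (1 + 2 * n)) / M (T + 1) := by
    rw [hR]
    simp only [hT]
    ring
  have s6 := abs_le.1 s1
  have s7 := abs_le.1 s3
  rw [abs_le]
  constructor <;> nlinarith

end Vale.Agent.P168
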