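import Vale.Agent.P168.Sys

/-! P168 MeckeA: removing one perturbation factor, first order expansion.
Plan. `exists_Cn`: for each `n`; e.g. induction on `S` for `|∏ (1 + μ γ) - 1 - μ ∑ γ| ≤ C μ^2`,
the same for `(1 + u)^n`, and multiply out the denominator (`(1+u)^n ≥ 2^(-n)`).
`mecke_fixed`: let `k1 = mc t - 1`, `g' = pgib b P mc'`, `a s = 1 + mu * gfun P t k1 p (exts s)`,
`u = mu * ∑ s, g' s * gfun P t k1 p (exts s)`. Then `pertW P mc = pertW P mc' * a`
(`Finset.prod_range_succ`, `Finset.prod_update_of_mem` or `mul_prod_erase`), so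
`pgib b P mc s = g' s * a s / (1 + u)`. Reduce the first and last `gsum` to `n` replicas and the
middle one to `n + 1` replicas with `gsum_res`; `site_succ` cancels `a` for the replicas `l < p`;
the term with replica `n` factorises (`Fin.snocEquiv`, or `sum_cw_mul`) and gives `n * u`.
Then apply `Cn_spec` with `S = Ico p n` inside the sum. -/

open MeasureTheory ProbabilityTheory Function Filter Topology
open scoped BigOperators

noncomputable section

namespace Vale.Agent.P168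

theorem meckeA_prod (x : ℕ → ℝ) {μ : ℝ} (h0 : 0 ≤ μ) (h1 : μ ≤ 1) (hx : ∀ l, |x l| ≤ μ)
    (S : Finset ℕ) : |∏ l ∈ S, (1 + x l) - 1 - ∑ l ∈ S, x l| ≤ 3 ^ S.card * μ ^ 2 ∧
      |∑ l ∈ S, x l| ≤ S.card * μ := by
  refine ⟨?_, (Finset.abs_sum_le_sum_abs _ _).trans
    ((Finset.sum_le_card_nsmul _ _ μ fun l _ => hx l).trans (by simp))⟩
  induction S using Finset.induction_on with
  | empty => simp only [Finset.prod_empty, Finset.sum_empty]; norm_num; positivity
  | insert a S ha ih =>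
    have hs : |∑ l ∈ S, x l| ≤ S.card * μ := (Finset.abs_sum_le_sum_abs _ _).trans
      ((Finset.sum_le_card_nsmul _ _ μ fun l _ => hx l).trans (by simp))
    have hc : (S.card : ℝ) ≤ 3 ^ S.card := by
      exact_mod_cast (Nat.lt_pow_self (by norm_num : 1 < 3)).le
    rw [Finset.prod_insert ha, Finset.sum_insert ha, Finset.card_insert_of_notMem ha]
    have e : (1 + x a) * ∏ l ∈ S, (1 + x l) - 1 - (x a + ∑ l ∈ S, x l) =
        (1 + x a) * (∏ l ∈ S, (1 + x l) - 1 - ∑ l ∈ S, x l) + x a * ∑ l ∈ S, x l := by ring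
    have h2 : |1 + x a| ≤ 2 := (abs_add_le _ _).trans (by rw [abs_one]; linarith [hx a])
    rw [e]
    refine (abs_add_le _ _).trans ?_
    rw [abs_mul, abs_mul, pow_succ (3 : ℝ)]
    have h3 := mul_le_mul h2 ih (abs_nonneg _) (by norm_num)
    have h4 := mul_le_mul (hx a) hs (abs_nonneg _) h0
    nlinarith [mul_le_mul_of_nonneg_right hc (sq_nonneg μ)]

theorem exists_Cn : ∃ C : ℕ → ℝ, (∀ n, 0 ≤ C n) ∧ ∀ (n : ℕ) (S : Finset ℕ) (γ : ℕ → ℝ) (μ u : ℝ),
    S.card ≤ n → (∀ l, |γ l| ≤ 1) → 0 ≤ μ → μ ≤ 1 / 2 → |u| ≤ μ →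
    |(∏ l ∈ S, (1 + μ * γ l)) / (1 + u) ^ n - (1 + μ * ∑ l ∈ S, γ l - n * u)| ≤ C n * μ ^ 2 := by
  refine ⟨fun n => 2 ^ n * (2 * 3 ^ n + 2 * n * (n + 3 ^ n)), fun n => by positivity,
    fun n S γ μ u hS hγ h0 h1 hu => ?_⟩
  have hx : ∀ l, |μ * γ l| ≤ μ := fun l => by
    rw [abs_mul, abs_of_nonneg h0]
    exact mul_le_of_le_one_right h0 (hγ l)
  have e1 := (meckeA_prod (fun l => μ * γ l) h0 (by linarith) hx S).1
  have s1 := (meckeA_prod (fun l => μ * γ l) h0 (by linarith) hx S).2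
  have e2 := (meckeA_prod (fun _ => u) h0 (by linarith) (fun _ => hu) (Finset.range n)).1
  have s2 := (meckeA_prod (fun _ => u) h0 (by linarith) (fun _ => hu) (Finset.range n)).2
  simp only [Finset.prod_const, Finset.sum_const, Finset.card_range, nsmul_eq_mul] at e2 s2
  rw [← Finset.mul_sum] at e1 s1
  have hS' : (S.card : ℝ) ≤ n := by exact_mod_cast hS
  have e1' := e1.trans (mul_le_mul_of_nonneg_right
    (pow_le_pow_right₀ (by norm_num : (1 : ℝ) ≤ 3) hS) (sq_nonneg μ))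
  have s1' := s1.trans (mul_le_mul_of_nonneg_right hS' h0)
  have hD : (1 / 2 : ℝ) ^ n ≤ (1 + u) ^ n :=
    pow_le_pow_left₀ (by norm_num) (by linarith [(abs_le.1 hu).1]) n
  have hD0 : (0 : ℝ) < (1 + u) ^ n := lt_of_lt_of_le (by positivity) hD
  set A := ∏ l ∈ S, (1 + μ * γ l)
  set D := (1 + u) ^ n
  set s := μ * ∑ l ∈ S, γ l
  have key : A / D - (1 + s - n * u) =
      ((A - 1 - s) - (D - 1 - n * u) - (s - n * u) * (n * u + (D - 1 - n * u))) / D := by
    field_simp
    ring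
  have b1 : |s - n * u| ≤ 2 * n * μ := (abs_sub _ _).trans (by linarith)
  have b2 : |n * u + (D - 1 - n * u)| ≤ (n + 3 ^ n) * μ := by
    refine (abs_add_le _ _).trans ?_
    have : (3 : ℝ) ^ n * μ ^ 2 ≤ 3 ^ n * μ :=
      mul_le_mul_of_nonneg_left (by nlinarith) (by positivity)
    linarith
  have b3 : |(A - 1 - s) - (D - 1 - n * u) - (s - n * u) * (n * u + (D - 1 - n * u))| ≤
      (2 * 3 ^ n + 2 * n * (n + 3 ^ n)) * μ ^ 2 := by
    refine (abs_sub _ _).trans ?_
    have b4 := abs_sub (A - 1 - s) (D - 1 - n * u)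
    have b5 := mul_le_mul b1 b2 (abs_nonneg _) (by positivity)
    rw [abs_mul]
    nlinarith
  rw [key, abs_div, abs_of_pos hD0, div_le_iff₀ hD0]
  refine b3.trans ?_
  have h2 : (1 : ℝ) ≤ 2 ^ n * D := by
    have := mul_le_mul_of_nonneg_left hD (by positivity : (0 : ℝ) ≤ 2 ^ n)
    rwa [← mul_pow, show (2 : ℝ) * (1 / 2) = 1 by norm_num, one_pow] at this
  have h3 : (0 : ℝ) ≤ (2 * 3 ^ n + 2 * n * (n + 3 ^ n)) * μ ^ 2 := by positivity
  nlinarith [mul_le_mul_of_nonneg_left h2 h3]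

def Cn : ℕ → ℝ := exists_Cn.choose

theorem Cn_nonneg (n : ℕ) : 0 ≤ Cn n := exists_Cn.choose_spec.1 n

theorem Cn_spec (n : ℕ) (S : Finset ℕ) (γ : ℕ → ℝ) (μ u : ℝ) (hS : S.card ≤ n)
    (hγ : ∀ l, |γ l| ≤ 1) (h0 : 0 ≤ μ) (h1 : μ ≤ 1 / 2) (hu : |u| ≤ μ) :
    |(∏ l ∈ S, (1 + μ * γ l)) / (1 + u) ^ n - (1 + μ * ∑ l ∈ S, γ l - n * u)| ≤ Cn n * μ ^ 2 :=
  exists_Cn.choose_spec.2 n S γ μ u hS hγ h0 h1 hu

/-- the first order term in terms of the site `k` of species `t + 1` -/
def firstG (P : ℕ → ℕ → ℕ → ℕ) (t k n : ℕ) (τ : ℕ → ℕ → ℝ) : ℝ :=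
  (∏ l ∈ Finset.range (pp t), gfun P t k l (τ l)) *
    (1 + mu t * (∑ l ∈ Finset.Ico (pp t) n, gfun P t k (pp t) (τ l) -
      n * gfun P t k (pp t) (τ n)))

theorem mecke_fixed {L N n nr : ℕ} {b : (Fin N → Bool) → ℝ} (hb : ∀ s, 0 < b s)
    (P : ℕ → ℕ → ℕ → ℕ) (mc : Fin L → ℕ) (t : Fin L) (hmc : 1 ≤ mc t) (hp : pp t ≤ n)
    (hn : n < nr) {F : (ℕ → ℕ → ℝ) → ℝ} (hF : ∀ τ τ', (∀ l < n, τ l = τ' l) → F τ = F τ') :
    |gsum nr (pgib b P mc) (fun τ => F τ *
          ∏ l ∈ Finset.range (pp t), site P (t + 1) (mc t - 1) (l + 1) (τ l)) / (1 - mu t) ^ pp t -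
        gsum nr (pgib b P (update mc t (mc t - 1))) fun τ => F τ * firstG P t (mc t - 1) n τ| ≤
      Cn n * mu t ^ 2 * gsum nr (pgib b P (update mc t (mc t - 1))) fun τ => |F τ| := by
  classical
  obtain ⟨m0, m1⟩ := mu_mem t
  set k1 := mc t - 1 with hk1
  set g' := pgib b P (update mc t k1) with hg'
  have hg'p : IsPr g' := isPr_pgib hb _ _
  set a : (ℕ → ℝ) → ℝ := fun σ => 1 + mu t * gfun P t k1 (pp t) σ with ha
  set γ : ℝ := ∑ s, g' s * gfun P t k1 (pp t) (exts s) with hγ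
  have hγb : |γ| ≤ 1 := abs_sum_pr_le hg'p fun s => abs_gfun_le P (abs_exts_le s) _ _ _
  have hub : |mu t * γ| ≤ mu t := by
    rw [abs_mul, abs_of_pos m0]
    exact mul_le_of_le_one_right m0.le hγb
  have hu0 : 0 < 1 + mu t * γ := by linarith [(abs_le.1 hub).1]
  have hap : ∀ σ : ℕ → ℝ, (∀ i, |σ i| ≤ 1) → 0 < a σ := fun σ hσ => by
    have := (abs_le.1 (abs_gfun_le P hσ t k1 (pp t))).1
    simp only [ha]
    nlinarith
  have hW : ∀ σ, pertW P mc σ = pertW P (update mc t k1) σ * a σ := fun σ => by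
    unfold pertW
    rw [← Finset.mul_prod_erase _ _ (Finset.mem_univ t),
      ← Finset.mul_prod_erase _ _ (Finset.mem_univ t), update_self,
      show mc t = k1 + 1 by omega, Finset.prod_range_succ, mul_right_comm]
    congr 2
    exact Finset.prod_congr rfl fun t' ht' => by rw [update_of_ne (Finset.ne_of_mem_erase ht')]
  have hZ : 0 < ∑ s, b s * pertW P (update mc t k1) (exts s) :=
    Finset.sum_pos (fun s _ => mul_pos (hb s) (pertW_pos P _ (abs_exts_le s)).1)
      Finset.univ_nonempty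
  have hZ' : ∑ s, b s * pertW P mc (exts s) =
      (∑ s, b s * pertW P (update mc t k1) (exts s)) * (1 + mu t * γ) := by
    have h1 : 1 + mu t * γ = ∑ s, g' s * a (exts s) := by
      simp only [ha, mul_add, mul_one, Finset.sum_add_distrib, hg'p.2, hγ, Finset.mul_sum]
      congr 1
      exact Finset.sum_congr rfl fun s _ => by ring
    rw [h1, Finset.mul_sum]
    refine Finset.sum_congr rfl fun s _ => ?_
    rw [hW, hg']
    unfold pgib gib
    field_simp
  have hgg : ∀ s, pgib b P mc s = g' s * (a (exts s) / (1 + mu t * γ)) := fun s => by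
    rw [hg']
    unfold pgib gib
    beta_reduce
    rw [hZ', hW]
    field_simp
  set G : (ℕ → ℕ → ℝ) → ℝ := fun τ => F τ * ∏ l ∈ Finset.range (pp t), gfun P t k1 l (τ l)
    with hG
  have hGd : ∀ τ τ', (∀ l < n, τ l = τ' l) → G τ = G τ' := fun τ τ' h => by
    simp only [hG]
    rw [hF τ τ' h]
    congr 1
    exact Finset.prod_congr rfl fun l hl => by rw [h l ((Finset.mem_range.1 hl).trans_le hp)]
  have e1 : gsum nr (pgib b P mc) (fun τ => F τ *
        ∏ l ∈ Finset.range (pp t), site P (t + 1) k1 (l + 1) (τ l)) / (1 - mu t) ^ pp t =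
      gsum nr g' fun τ => G τ *
        ((∏ l ∈ Finset.Ico (pp t) n, (1 + mu t * gfun P t k1 (pp t) (τ l))) /
          (1 + mu t * γ) ^ n) := by
    rw [gsum_res hn.le (isPr_pgib hb P mc) fun τ τ' h => by
        rw [hF τ τ' h]
        congr 1
        exact Finset.prod_congr rfl fun l hl => by rw [h l ((Finset.mem_range.1 hl).trans_le hp)],
      gsum_res hn.le hg'p fun τ τ' h => by
        rw [hGd τ τ' h]
        congr 2
        exact Finset.prod_congr rfl fun l hl => by rw [h l (Finset.mem_Ico.1 hl).2]]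
    unfold gsum
    rw [Finset.sum_div]
    refine Finset.sum_congr rfl fun v _ => ?_
    have c1 : cw (pgib b P mc) v = cw g' v *
        ((∏ l ∈ Finset.range n, a (rep v l)) / (1 + mu t * γ) ^ n) := by
      unfold cw
      simp only [hgg]
      rw [Finset.prod_mul_distrib, Finset.prod_div_distrib, Finset.prod_const, Finset.card_univ,
        Fintype.card_fin, Finset.prod_range]
      congr 2
      exact Finset.prod_congr rfl fun l _ => by simp [rep]
    have c2 : (∏ l ∈ Finset.range (pp t), a (rep v l)) *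
        ∏ l ∈ Finset.range (pp t), site P (t + 1) k1 (l + 1) (rep v l) =
        (1 - mu t) ^ pp t * ∏ l ∈ Finset.range (pp t), gfun P t k1 l (rep v l) := by
      rw [← Finset.prod_mul_distrib, show (1 - mu t) ^ pp t = ∏ _l ∈ Finset.range (pp t), (1 - mu t)
        by simp, ← Finset.prod_mul_distrib]
      refine Finset.prod_congr rfl fun l _ => ?_
      rw [site_succ]
      exact mul_div_cancel₀ _ (hap _ (abs_rep_le v l)).ne'
    have c3 : (0 : ℝ) < (1 - mu t) ^ pp t := pow_pos (by linarith) _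
    rw [c1, ← Finset.prod_range_mul_prod_Ico _ hp, div_eq_iff c3.ne']
    simp only [hG]
    calc _ = cw g' v * F (rep v) * ((∏ l ∈ Finset.range (pp t), a (rep v l)) *
          ∏ l ∈ Finset.range (pp t), site P (t + 1) k1 (l + 1) (rep v l)) *
          ((∏ l ∈ Finset.Ico (pp t) n, a (rep v l)) / (1 + mu t * γ) ^ n) := by ring
      _ = _ := by rw [c2]; ring
  have e2 : gsum nr g' (fun τ => F τ * firstG P t k1 n τ) =
      gsum nr g' fun τ => G τ * (1 + mu t * ∑ l ∈ Finset.Ico (pp t) n,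
        gfun P t k1 (pp t) (τ l) - n * (mu t * γ)) := by
    have c1 := sum_cw_indep hg'p ({⟨n, hn⟩} : Finset (Fin nr)) (fun v => G (rep v))
      (fun v v' h => hGd _ _ fun l hl => by
        unfold rep
        rw [dif_pos (hl.trans hn), dif_pos (hl.trans hn), h _ (by simp [Fin.ext_iff]; omega)])
      fun _ s => gfun P t k1 (pp t) (exts s)
    simp only [Finset.prod_singleton] at c1
    rw [← hγ, Finset.sum_mul] at c1
    have c2 : ∀ v : Fin nr → Fin N → Bool, rep v n = exts (v ⟨n, hn⟩) := fun v => by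
      simp [rep, hn]
    have c3 : ∀ v : Fin nr → Fin N → Bool, cw g' v * (F (rep v) * firstG P t k1 n (rep v)) =
        cw g' v * (G (rep v) * (1 + mu t * ∑ l ∈ Finset.Ico (pp t) n,
          gfun P t k1 (pp t) (rep v l))) -
        n * mu t * (cw g' v * (G (rep v) * gfun P t k1 (pp t) (exts (v ⟨n, hn⟩)))) := fun v => by
      simp only [hG, firstG, c2]
      ring
    unfold gsum
    simp only [c3]
    rw [Finset.sum_sub_distrib, ← Finset.mul_sum, c1, Finset.mul_sum, ← Finset.sum_sub_distrib]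
    exact Finset.sum_congr rfl fun v _ => by ring
  rw [e1, e2]
  unfold gsum
  beta_reduce
  rw [← Finset.sum_sub_distrib, Finset.mul_sum _ _ (Cn n * mu t ^ 2)]
  refine (Finset.abs_sum_le_sum_abs _ _).trans (Finset.sum_le_sum fun v _ => ?_)
  rw [← mul_sub, ← mul_sub, abs_mul, abs_mul, abs_of_nonneg (cw_nonneg hg'p v), mul_left_comm]
  have d1 := Cn_spec n (Finset.Ico (pp t) n) (fun l => gfun P t k1 (pp t) (rep v l)) (mu t)
    (mu t * γ) (by simp) (fun l => abs_gfun_le P (abs_rep_le v l) _ _ _) m0.le m1 hub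
  have d2 : |G (rep v)| ≤ |F (rep v)| := by
    simp only [hG]
    rw [abs_mul, Finset.abs_prod]
    exact mul_le_of_le_one_right (abs_nonneg _) (Finset.prod_le_one (fun _ _ => abs_nonneg _)
      fun l _ => abs_gfun_le P (abs_rep_le v l) _ _ _)
  have d3 := mul_le_mul_of_nonneg_left (mul_le_mul d2 d1 (abs_nonneg _) (abs_nonneg _))
    (cw_nonneg hg'p v)
  linarith

end Vale.Agent.P168
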