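import Vale.Agent.P168.Sys
import Vale.Agent.P168.Avg

/-! P168 MeckeB: exchanging a pool site with the last active site.
Plan. `co (t+1) (diag p) (om ..) = 𝔼 k0 ∈ range (M (t+1)), ∏ l < p, site (t+1) k0 (l+1) (τ l)`
(`om_val`, `omv_eq`, `support_diag`, `diag_apply`). Let `k1 = mc t - 1`, so
`M ≤ k1 < 2 M ≤ B`. For `k0 < M` let `e` be the permutation of `PI L B` exchanging `(t, k0, j)` and
`(t, k1, j)`; it preserves `tgt`, so `expect_reindex` applies. Call `k0` free for `P` if `k0 ≠ 0`
and `k0 ≠ P (t', k, j)` for all `t' > t`, `k < 2 M (t'+1)`, `j < length`; this condition is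
invariant under `e`, and at most `D = 1 + ∑ t' ∈ Ioo t L, 2 M (t'+1) * length` values are not free,
`(j+1) D ≤ M`. For free `k0`, `P' = extP (P ∘ e)` satisfies the hypotheses of `tab_change`,
`gfun_change` (other entries of `extP P` vanish as `tgt = 1`), the weight `pertW` is unchanged (both
sites active; `Finset.prod_equiv (Equiv.swap k0 k1)`), `site P' (t+1) k0 = site P (t+1) k1`, and
`om P'` differs from `om P` by at most `2/M ≤ 2/(j+1)` in each coordinate. With `unif_cont` for
`φ ∘ res n` the error is at most `η/2 + 2 ‖φ‖ / (j+1)`. -/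

open MeasureTheory ProbabilityTheory Function Filter Topology
open scoped BigOperators

noncomputable section

namespace Vale.Agent.P168

/-- pool sites that may be targeted by higher species -/
def meckeBNF (L : ℕ) (M : ℕ → ℕ) (t : ℕ) (P : ℕ → ℕ → ℕ → ℕ) : Finset ℕ :=
  insert 0 (((Finset.Ioo t L).sigma fun t' => Finset.range (2 * M (t' + 1)) ×ˢ
    Finset.range (jl t').length).image fun u => P u.1 u.2.1 u.2.2)

theorem meckeB_card (L : ℕ) (M : ℕ → ℕ) (t : ℕ) (P : ℕ → ℕ → ℕ → ℕ) :
    (meckeBNF L M t P).card ≤ 1 + ∑ t' ∈ Finset.Ioo t L, 2 * M (t' + 1) * (jl t').length := by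
  unfold meckeBNF
  refine (Finset.card_insert_le _ _).trans ?_
  rw [add_comm]
  refine Nat.add_le_add_left (Finset.card_image_le.trans ?_) 1
  rw [Finset.card_sigma]
  simp [Finset.card_product]

theorem meckeB_mem {L B N : ℕ} {M : ℕ → ℕ} {P : PI L B → ℕ} (hP : P ∈ PS L B N M) {t t' : ℕ}
    (ht : t < t') (k : ℕ) (i : Fin (jl t').length) : extP P t' k i ∈ meckeBNF L M t (extP P) := by
  unfold meckeBNF
  by_cases h : t' < L ∧ k < 2 * M (t' + 1)
  · refine Finset.mem_insert_of_mem (Finset.mem_image.2 ⟨⟨t', (k, i)⟩, ?_, rfl⟩)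
    simp [Finset.mem_sigma, ht, h.1, h.2]
  · have : extP P t' k i = 0 := by
      unfold extP
      split_ifs with h'
      · have h1 := Fintype.mem_piFinset.1 hP (⟨t', h'.1⟩, ⟨k, h'.2.1⟩, ⟨i, h'.2.2⟩)
        have h2 : ¬ k < 2 * M (t' + 1) := fun h2 => h ⟨h'.1, h2⟩
        unfold tgt at h1
        simp only [h2, if_false, Finset.range_one, Finset.mem_singleton] at h1
        exact h1
      · rfl
    rw [this]
    exact Finset.mem_insert_self _ _

def meckeBPerm {L B : ℕ} (t : Fin L) (a b : Fin B) : Equiv.Perm (PI L B) :=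
  Function.Involutive.toPerm
    (fun i => if i.1 = t then (i.1, Equiv.swap a b i.2.1, i.2.2) else i) (by
      intro i
      by_cases h : i.1 = t
      · simp [h]
        exact Prod.ext h.symm rfl
      · simp [h])

theorem meckeB_perm_apply {L B : ℕ} (t : Fin L) (a b : Fin B) (i : PI L B) :
    meckeBPerm t a b i = if i.1 = t then (i.1, Equiv.swap a b i.2.1, i.2.2) else i := rfl

theorem meckeB_swap_val {B : ℕ} (a b k : Fin B) :
    ((Equiv.swap a b k : Fin B) : ℕ) = Equiv.swap (a : ℕ) (b : ℕ) (k : ℕ) :=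
  (Fin.val_injective.swap_apply a b k).symm

theorem meckeB_ext_ne {L B : ℕ} (t : Fin L) (a b : Fin B) (P : PI L B → ℕ) {t' : ℕ}
    (ht : t' ≠ t) : extP (fun i => P (meckeBPerm t a b i)) t' = extP P t' := by
  funext k i
  unfold extP
  split_ifs with h
  · simp only [meckeB_perm_apply]
    rw [if_neg fun h' => ht (congrArg Fin.val h')]
  · rfl

theorem meckeB_ext_eq {L B : ℕ} (t : Fin L) (a b : Fin B) (P : PI L B → ℕ) (k : ℕ) :
    extP (fun i => P (meckeBPerm t a b i)) t k = extP P t (Equiv.swap (a : ℕ) (b : ℕ) k) := by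
  funext i
  by_cases hk : k < B
  · have hk' : Equiv.swap (a : ℕ) (b : ℕ) k < B := by
      have := meckeB_swap_val a b ⟨k, hk⟩
      simp only at this
      rw [← this]
      exact Fin.is_lt _
    unfold extP
    by_cases hi : i < B
    · rw [dif_pos ⟨t.2, hk, hi⟩, dif_pos ⟨t.2, hk', hi⟩]
      simp only [meckeB_perm_apply, if_true]
      congr 3
      exact Fin.ext (meckeB_swap_val a b ⟨k, hk⟩)
    · rw [dif_neg fun h => hi h.2.2, dif_neg fun h => hi h.2.2]
  · have ha := a.2
    have hb := b.2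
    rw [Equiv.swap_apply_of_ne_of_ne (by omega) (by omega)]
    unfold extP
    rw [dif_neg fun h => hk h.2.1, dif_neg fun h => hk h.2.1]

theorem meckeB_tgt {L B N : ℕ} {M : ℕ → ℕ} (t : Fin L) {a b : Fin B} (ha : (a : ℕ) < 2 * M (t + 1))
    (hb : (b : ℕ) < 2 * M (t + 1)) (i : PI L B) : tgt N M (meckeBPerm t a b i) = tgt N M i := by
  rw [meckeB_perm_apply]
  split_ifs with h
  · obtain ⟨i1, i2, i3⟩ := i
    simp only at h
    subst h
    unfold tgt
    simp only
    have : ((Equiv.swap a b i2 : Fin B) : ℕ) < 2 * M (i1 + 1) ↔ (i2 : ℕ) < 2 * M (i1 + 1) := by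
      rw [Equiv.swap_apply_def]
      split_ifs with h1 h2
      · rw [h1]; exact ⟨fun _ => ha, fun _ => hb⟩
      · rw [h2]; exact ⟨fun _ => hb, fun _ => ha⟩
      · rfl
    simp only [this]
  · rfl

/-- the effect of the exchange for a free pool site -/
theorem meckeB_free {L B N : ℕ} (hN : 1 ≤ N) {M : ℕ → ℕ} (hM : ∀ s, 1 ≤ M s) (t : Fin L)
    {a b : Fin B} (mc : Fin L → ℕ) (ha : (a : ℕ) < M (t + 1)) (hb : M (t + 1) ≤ (b : ℕ))
    (hb' : (b : ℕ) < mc t) {P : PI L B → ℕ} (hP : P ∈ PS L B N M)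
    (hf : (a : ℕ) ∉ meckeBNF L M t (extP P)) :
    pertW (extP fun i => P (meckeBPerm t a b i)) mc = pertW (extP P) mc ∧
    site (extP fun i => P (meckeBPerm t a b i)) (t + 1) a = site (extP P) (t + 1) b ∧
    ∀ τ : ℕ → ℕ → ℝ, (∀ l i, |τ l i| ≤ 1) → ∀ i : Idx,
      |(om (extP fun i => P (meckeBPerm t a b i)) N M τ i : ℝ) - om (extP P) N M τ i| ≤
        2 / M (t + 1) := by
  have h1 : ∀ t', t' ≠ (t : ℕ) → extP (fun i => P (meckeBPerm t a b i)) t' = extP P t' :=
    fun t' ht' => meckeB_ext_ne t a b P ht'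
  have h2 : ∀ t', (t : ℕ) < t' → ∀ k (i : Fin (jl t').length), ((jl t').get i).1 = t + 1 →
      extP (fun i => P (meckeBPerm t a b i)) t (extP P t' k i) = extP P t (extP P t' k i) := by
    intro t' ht' k i hi
    have h3 := extP_lt hN hM hP t' k i
    rw [hi] at h3
    simp only [pool, Nat.add_eq_zero_iff, one_ne_zero, and_false, if_false] at h3
    have h4 : extP P t' k i ≠ a := fun h => hf (h ▸ meckeB_mem hP ht' k i)
    rw [meckeB_ext_eq, Equiv.swap_apply_of_ne_of_ne h4 (by omega)]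
  have hg := gfun_change h1 h2
  refine ⟨?_, ?_, ?_⟩
  · funext σ
    unfold pertW
    refine Finset.prod_congr rfl fun t' _ => ?_
    by_cases htt : t' = t
    · subst htt
      refine Finset.prod_equiv (Equiv.swap (a : ℕ) (b : ℕ)) (fun k => ?_) fun k _ => ?_
      · simp only [Finset.mem_range]
        rw [Equiv.swap_apply_def]
        split_ifs with c1 c2
        · omega
        · omega
        · rfl
      · rw [hg.2 k _ (meckeB_ext_eq t' a b P k)]
    · refine Finset.prod_congr rfl fun k _ => ?_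
      rw [hg.1 t' k fun h => htt (Fin.ext h)]
  · unfold site
    refine (tab_change h1 h2 _).2 _ _ ?_
    rw [meckeB_ext_eq, Equiv.swap_apply_left]
  · intro τ hτ i
    have e1 := om_val (extP fun i => P (meckeBPerm t a b i)) N M hτ i.1 i.2
    have e2 := om_val (extP P) N M hτ i.1 i.2
    unfold co at e1 e2
    simp only [Prod.mk.eta] at e1 e2
    rw [e1, e2]
    have hMpos : (0 : ℝ) < M (t + 1) := by exact_mod_cast hM _
    unfold omv
    by_cases hs : i.1 = t + 1
    · rw [hs]
      simp only [pool, Nat.add_eq_zero_iff, one_ne_zero, and_false, if_false]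
      rw [← sub_div, abs_div, abs_of_pos hMpos, ← Finset.sum_sub_distrib]
      refine div_le_div_of_nonneg_right ?_ hMpos.le
      rw [Finset.sum_eq_single (a : ℕ)]
      · have b1 : ∀ (P : ℕ → ℕ → ℕ → ℕ) (k : ℕ),
            |∏ l ∈ i.2.support, site P (t + 1) k (i.2 l) (τ l)| ≤ 1 := fun P k => by
          rw [Finset.abs_prod]
          exact Finset.prod_le_one (fun _ _ => abs_nonneg _) fun l _ => abs_tab_le P (hτ l) _ _ _ _
        have := abs_sub (∏ l ∈ i.2.support,
          site (extP fun i => P (meckeBPerm t a b i)) (t + 1) a (i.2 l) (τ l))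
          (∏ l ∈ i.2.support, site (extP P) (t + 1) a (i.2 l) (τ l))
        linarith [b1 (extP fun i => P (meckeBPerm t a b i)) a, b1 (extP P) a]
      · intro k hk hka
        have := Finset.mem_range.1 hk
        unfold site
        rw [(tab_change h1 h2 _).2 k k (by
          rw [meckeB_ext_eq, Equiv.swap_apply_of_ne_of_ne hka (by omega)]), sub_self]
      · intro h
        exact absurd (Finset.mem_range.2 ha) h
    · unfold site
      simp only [(tab_change h1 h2 _).1 i.1 _ hs, sub_self, abs_zero]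
      positivity

theorem mecke_swap (φ : C(X, ℝ)) (n : ℕ) {η : ℝ} (hη : 0 < η) :
    ∃ j0 : ℕ, ∀ (L B j : ℕ) (M : ℕ → ℕ), Scal L B M j → j0 ≤ j → ∀ (t : Fin L) (N nr : ℕ), 1 ≤ N →
      ∀ b : (Fin N → Bool) → ℝ, (∀ s, 0 < b s) → ∀ mc ∈ CS L M,
      |(𝔼 P ∈ PS L B N M, gsum nr (pgib b (extP P) mc) fun τ =>
            φ (res n (om (extP P) N M τ)) * co (t + 1) (diag (pp t)) (om (extP P) N M τ)) -
          𝔼 P ∈ PS L B N M, gsum nr (pgib b (extP P) mc) fun τ =>
            φ (res n (om (extP P) N M τ)) *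
              ∏ l ∈ Finset.range (pp t), site (extP P) (t + 1) (mc t - 1) (l + 1) (τ l)| ≤ η := by
  classical
  obtain ⟨δ, hδ, hu⟩ := unif_cont (φ.comp ⟨res n, continuous_res n⟩) (half_pos hη)
  have hC : ∀ ω, |φ ω| ≤ ‖φ‖ := fun ω => φ.norm_coe_le_norm ω
  have hC0 : 0 ≤ ‖φ‖ := norm_nonneg _
  obtain ⟨j0, hj0⟩ := exists_nat_ge (max (2 / δ) (4 * ‖φ‖ / η))
  refine ⟨j0, fun L B j M hS hj t N nr hN b hb mc hmc => ?_⟩
  obtain ⟨hB1, -, hB3⟩ := hS.2 t t.2
  have hmt := Finset.mem_Ioc.1 (Fintype.mem_piFinset.1 hmc t)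
  have hM1 := hS.1 (t + 1)
  have hMpos : (0 : ℝ) < M (t + 1) := by exact_mod_cast hM1
  set D : ℕ := 1 + ∑ t' ∈ Finset.Ioo (t : ℕ) L, 2 * M (t' + 1) * (jl t').length with hD
  have hD1 : 1 ≤ D := by omega
  have hjM : ((j : ℝ) + 1) * D ≤ M (t + 1) := by exact_mod_cast hB3
  have hjj : (j0 : ℝ) ≤ j := by exact_mod_cast hj
  have hD1' : (1 : ℝ) ≤ D := by exact_mod_cast hD1
  have hδM : 2 / (M (t + 1) : ℝ) ≤ δ := by
    have h1 : 2 / δ ≤ j := (le_max_left _ _).trans (hj0.trans hjj)
    rw [div_le_iff₀ hδ] at h1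
    rw [div_le_iff₀ hMpos]
    have : (j : ℝ) + 1 ≤ M (t + 1) := by nlinarith
    nlinarith
  have hDM : 2 * ‖φ‖ * (D / M (t + 1)) ≤ η / 2 := by
    have h1 : 4 * ‖φ‖ / η ≤ j := (le_max_right _ _).trans (hj0.trans hjj)
    rw [div_le_iff₀ hη] at h1
    rw [← mul_div_assoc, div_le_iff₀ hMpos]
    have h2 : 0 ≤ (D : ℝ) := by positivity
    nlinarith [mul_le_mul_of_nonneg_right h1 h2, mul_le_mul_of_nonneg_left hjM hη.le]
  set A : (PI L B → ℕ) → ℕ → ℝ := fun P k => gsum nr (pgib b (extP P) mc) fun τ =>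
    φ (res n (om (extP P) N M τ)) *
      ∏ l ∈ Finset.range (pp t), site (extP P) (t + 1) k (l + 1) (τ l) with hA
  have hsite : ∀ (P : ℕ → ℕ → ℕ → ℕ) (k : ℕ) (τ : ℕ → ℕ → ℝ), (∀ l i, |τ l i| ≤ 1) →
      |∏ l ∈ Finset.range (pp t), site P (t + 1) k (l + 1) (τ l)| ≤ 1 := fun P k τ hτ => by
    rw [Finset.abs_prod]
    exact Finset.prod_le_one (fun _ _ => abs_nonneg _) fun l _ => abs_tab_le P (hτ l) _ _ _ _
  have hAb : ∀ P k, |A P k| ≤ ‖φ‖ := fun P k =>
    abs_gsum_le (isPr_pgib hb _ _) fun τ hτ => by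
      rw [abs_mul]
      exact (mul_le_mul (hC _) (hsite _ _ τ hτ) (abs_nonneg _) hC0).trans (mul_one _).le
  have hfirst : ∀ P : PI L B → ℕ, (gsum nr (pgib b (extP P) mc) fun τ =>
      φ (res n (om (extP P) N M τ)) * co (t + 1) (diag (pp t)) (om (extP P) N M τ)) =
      𝔼 k ∈ Finset.range (M (t + 1)), A P k := by
    intro P
    simp only [hA]
    unfold gsum
    rw [Finset.expect_sum_comm]
    refine Finset.sum_congr rfl fun v _ => ?_
    beta_reduce
    rw [← Finset.mul_expect, ← Finset.mul_expect, om_val _ _ _ (abs_rep_le v),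
      omv_eq _ _ _ _ _ (support_diag (pp t)).subset]
    congr 2
    simp only [pool, Nat.add_eq_zero_iff, one_ne_zero, and_false, if_false]
    refine Finset.expect_congr rfl fun k _ => Finset.prod_congr rfl fun l hl => ?_
    rw [diag_apply (Finset.mem_range.1 hl)]
  simp only [hfirst]
  change |_ - 𝔼 P ∈ PS L B N M, A P (mc t - 1)| ≤ η
  have hRne : (Finset.range (M (t + 1))).Nonempty := Finset.nonempty_range_iff.2 (by omega)
  have hsplit : (𝔼 P ∈ PS L B N M, 𝔼 k ∈ Finset.range (M (t + 1)), A P k) -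
      𝔼 P ∈ PS L B N M, A P (mc t - 1) =
      (𝔼 k ∈ Finset.range (M (t + 1)),
        ((𝔼 P ∈ PS L B N M, if k ∉ meckeBNF L M t (extP P) then A P k else 0) -
          𝔼 P ∈ PS L B N M, if k ∉ meckeBNF L M t (extP P) then A P (mc t - 1) else 0)) +
      𝔼 P ∈ PS L B N M, 𝔼 k ∈ Finset.range (M (t + 1)),
        if k ∈ meckeBNF L M t (extP P) then A P k - A P (mc t - 1) else 0 := by
    simp only [← Finset.expect_sub_distrib]
    rw [Finset.expect_comm (Finset.range (M (t + 1))), ← Finset.expect_add_distrib]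
    refine Finset.expect_congr rfl fun P _ => ?_
    rw [← Finset.expect_add_distrib]
    conv_lhs => rw [← Finset.expect_const hRne (A P (mc t - 1)), ← Finset.expect_sub_distrib]
    refine Finset.expect_congr rfl fun k _ => ?_
    split_ifs <;> ring
  rw [hsplit]
  have e1 : |𝔼 k ∈ Finset.range (M (t + 1)),
      ((𝔼 P ∈ PS L B N M, if k ∉ meckeBNF L M t (extP P) then A P k else 0) -
        𝔼 P ∈ PS L B N M, if k ∉ meckeBNF L M t (extP P) then A P (mc t - 1) else 0)| ≤ η / 2 := by
    refine abs_expect_le _ (half_pos hη).le fun k hk => ?_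
    have hk' := Finset.mem_range.1 hk
    set a : Fin B := ⟨k, by omega⟩ with ha
    set c : Fin B := ⟨mc t - 1, by omega⟩ with hc
    have hre := expect_reindex (fun i : PI L B => Finset.range (tgt N M i)) (meckeBPerm t a c)
      (fun i => by rw [meckeB_tgt t (by simp only [ha]; omega) (by simp only [hc]; omega)])
      (fun P => if k ∉ meckeBNF L M t (extP P) then A P k else 0)
    unfold PS
    rw [← hre]
    refine abs_expect_sub_le _ (half_pos hη).le fun P hP => ?_
    have hNF : meckeBNF L M t (extP fun i => P (meckeBPerm t a c i)) =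
        meckeBNF L M t (extP P) := by
      unfold meckeBNF
      congr 1
      refine Finset.image_congr fun u hu => ?_
      have := (Finset.mem_Ioo.1 (Finset.mem_sigma.1 hu).1).1
      rw [meckeB_ext_ne t a c P (by omega)]
    rw [hNF]
    split_ifs with hf
    · rw [sub_self, abs_zero]
      exact (half_pos hη).le
    · obtain ⟨f1, f2, f3⟩ := meckeB_free hN hS.1 t (a := a) (b := c) mc hk'
        (by simp only [hc]; omega) (by simp only [hc]; omega) hP hf
      simp only [hA]
      unfold pgib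
      rw [f1]
      have f2' : site (extP fun i => P (meckeBPerm t a c i)) (t + 1) k =
          site (extP P) (t + 1) (mc t - 1) := f2
      rw [f2']
      unfold gsum
      rw [← Finset.sum_sub_distrib]
      simp only [← mul_sub, ← sub_mul]
      refine abs_sum_pr_le (isPr_cw (isPr_pgib hb (extP P) mc)) fun v => ?_
      rw [abs_mul]
      have h1 := hu _ _ fun i => (f3 (rep v) (abs_rep_le v) i).trans hδM
      exact (mul_le_mul h1 (hsite _ _ _ (abs_rep_le v)) (abs_nonneg _) (half_pos hη).le).trans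
        (mul_one _).le
  have e2 : |𝔼 P ∈ PS L B N M, 𝔼 k ∈ Finset.range (M (t + 1)),
      if k ∈ meckeBNF L M t (extP P) then A P k - A P (mc t - 1) else 0| ≤ η / 2 := by
    refine abs_expect_le _ (half_pos hη).le fun P _ => le_trans ?_ hDM
    rw [Finset.expect_eq_sum_div_card, Finset.card_range, abs_div, abs_of_pos hMpos,
      ← mul_div_assoc]
    refine div_le_div_of_nonneg_right ?_ hMpos.le
    rw [← Finset.sum_filter]
    refine (Finset.abs_sum_le_sum_abs _ _).trans ?_
    refine (Finset.sum_le_card_nsmul _ _ (2 * ‖φ‖) fun k _ => ?_).trans ?_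
    · have := abs_sub (A P k) (A P (mc t - 1))
      linarith [hAb P k, hAb P (mc t - 1)]
    · rw [nsmul_eq_mul, mul_comm]
      refine mul_le_mul_of_nonneg_left ?_ (by positivity)
      have : ((Finset.range (M (t + 1))).filter fun k => k ∈ meckeBNF L M t (extP P)).card ≤ D :=
        (Finset.card_le_card fun k hk => (Finset.mem_filter.1 hk).2).trans (meckeB_card L M t _)
      exact_mod_cast this
  exact (abs_add_le _ _).trans (by linarith)

end Vale.Agent.P168
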