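import Vale.Agent.P168.Wt
import Vale.Agent.P168.Meas

/-! P168 OneA: positivity of one term of the interpolation.
Plan. Write `sterm .. z = ∑ v, ∑ σ : Fin (n+1) → Fin N → Bool, ρ v σ * ∏ l, z (σ l) (v l)` with
`ρ v σ = wt .. h v * ∏ l, gib (b · (v l)) (σ l) ≥ 0` (`Finset.prod_univ_sum`, `wt_nonneg`,
`normW_tilt`). With `β = t^(n+1) * ∫ (-b)^(n+1) ∂Pb ≥ 0`,
`a σ i = ∫ f, ∏ l, f (σ l i) ∂Pf`, `A σ = 𝔼 i, a σ i`,
`Bh = ∫ f, ∑ u, wt μ 1 h u * ∏ l, phi f (x (u l)) ∂Pf`, the three integrals are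
`β ∑ ρ A^K`, `β (∑ ρ A) Bh^(K-1)`, `β Bh^K = β ∑ ρ Bh^K`. For the second and third use `wt_slot`
first (for fixed `(b, f)`, with `S` the image under `slot` of `univ.erase l`, resp. `univ`;
`tilt_slotDep` and monotonicity of `SlotDep`), then `integral_prod_mul` and
`integral_fintype_prod_eq_prod`. Integrability: a.e. bounded and measurable.
`𝔼 idx, ∏ j, a (idx j) = (𝔼 i, a i)^K` by `Finset.prod_univ_sum`. Finally `even_tangent`. -/

open MeasureTheory ProbabilityTheory Function Filter Topology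
open scoped BigOperators

noncomputable section

namespace Vale.Agent.P168

def zc {K N r : ℕ} {J A : Type} (t : ℝ) (bf : ℝ × (Fin K → Bool → ℝ)) (idx : Fin K → Fin N)
    (s : Fin N → Bool) (_w : Fin (r + 1) → J → A) : ℝ :=
  -(t * bf.1) * ∏ j, bf.2 j (s (idx j))

def zs {K N r : ℕ} {J A : Type} (x : (Fin (r + 1) → A) → ℝ) (slot : Fin K → J) (t : ℝ)
    (bf : ℝ × (Fin K → Bool → ℝ)) (l : Fin K) (idx : Fin K → Fin N)
    (s : Fin N → Bool) (w : Fin (r + 1) → J → A) : ℝ :=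
  -(t * bf.1) * (bf.2 l (s (idx l)) *
    ∏ j ∈ Finset.univ.erase l, phi (bf.2 j) (x fun p => w p (slot j)))

def zv {K N r : ℕ} {J A : Type} (x : (Fin (r + 1) → A) → ℝ) (slot : Fin K → J) (t : ℝ)
    (bf : ℝ × (Fin K → Bool → ℝ)) (_s : Fin N → Bool) (w : Fin (r + 1) → J → A) : ℝ :=
  -(t * bf.1) * ∏ j, phi (bf.2 j) (x fun p => w p (slot j))

theorem abs_phi_le {f : Bool → ℝ} (hf : ∀ s, |f s| ≤ 1) {x : ℝ} (hx : |x| ≤ 1) :
    |phi f x| ≤ 1 := by
  have h1 := abs_le.1 (hf true)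
  have h2 := abs_le.1 (hf false)
  have h3 := abs_le.1 hx
  unfold phi
  rw [abs_le]
  constructor <;> nlinarith [mul_nonneg (sub_nonneg.2 h3.2) (sub_nonneg.2 h2.2),
    mul_nonneg (neg_le_iff_add_nonneg'.1 h3.1) (sub_nonneg.2 h1.2),
    mul_nonneg (sub_nonneg.2 h3.2) (neg_le_iff_add_nonneg'.1 h2.1),
    mul_nonneg (neg_le_iff_add_nonneg'.1 h3.1) (neg_le_iff_add_nonneg'.1 h1.1)]

theorem even_tangent {K : ℕ} (hK : 1 ≤ K) (he : Even K) (A B : ℝ) :
    0 ≤ A ^ K - K * A * B ^ (K - 1) + (K - 1) * B ^ K := by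
  have key : ∀ A B : ℝ, 0 ≤ B → 0 ≤ A ^ K - K * A * B ^ (K - 1) + (K - 1) * B ^ K := by
    intro A B hB
    have hK1 : (1 : ℝ) ≤ K := by exact_mod_cast hK
    have e : B ^ K = B ^ (K - 1) * B := by rw [← pow_succ, Nat.sub_add_cancel hK]
    by_cases h : 0 ≤ A
    · have h1 := pow_add_mul_le_add_pow (b := A - B) hB (by linarith) K
      rw [add_sub_cancel] at h1
      rw [e] at h1 ⊢
      linarith
    · have h1 : 0 ≤ A ^ K := he.pow_nonneg A
      have h2 : 0 ≤ (K - 1) * B ^ K := mul_nonneg (by linarith) (pow_nonneg hB K)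
      have h3 : 0 ≤ K * (-A) * B ^ (K - 1) :=
        mul_nonneg (mul_nonneg (by linarith) (by linarith)) (pow_nonneg hB _)
      linarith
  rcases le_total 0 B with h | h
  · exact key A B h
  · have h1 := key (-A) (-B) (by linarith)
    have ho : Odd (K - 1) := Nat.Even.sub_odd hK he odd_one
    rw [he.neg_pow, he.neg_pow, ho.neg_pow] at h1
    linarith

theorem oneA_expect_prod {K N : ℕ} (a : Fin K → Fin N → ℝ) :
    𝔼 idx : Fin K → Fin N, ∏ j, a j (idx j) = ∏ j, 𝔼 i, a j i := by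
  simp only [Finset.expect_eq_sum_div_card, Finset.prod_div_distrib, Finset.prod_univ_sum,
    Fintype.piFinset_univ, Finset.prod_const, Finset.card_univ, Fintype.card_fun, Nat.cast_pow]

section Aux

variable {K N r n : ℕ} {J A : Type} [Fintype J] [DecidableEq J] [Fintype A]

/-- common form of the three perturbations -/
def oneZ (x : (Fin (r + 1) → A) → ℝ) (slot : Fin K → J) (t : ℝ) (bf : ℝ × (Fin K → Bool → ℝ))
    (S : Finset (Fin K)) (idx : Fin K → Fin N) (s : Fin N → Bool) (w : Fin (r + 1) → J → A) : ℝ :=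
  -(t * bf.1) * ((∏ j ∈ Sᶜ, bf.2 j (s (idx j))) * ∏ j ∈ S, phi (bf.2 j) (x fun p => w p (slot j)))

/-- law of the spin configurations of the replicas -/
def oneR (μ : A → ℝ) (m : Fin r → ℝ) (b : (Fin N → Bool) → (Fin (r + 1) → J → A) → ℝ)
    (h : Hist r n) (σ : Fin (n + 1) → Fin N → Bool) : ℝ :=
  ∑ v, wt (cw μ) (tilt (cw μ) m fun w => ∑ s, b s w) h v * ∏ l, gib (fun s' => b s' (v l)) (σ l)

/-- spin multi-overlap -/
def oneA (σ : Fin (n + 1) → Fin N → Bool) (f : Bool → ℝ) : ℝ := 𝔼 i, ∏ l, f (σ l i)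

/-- message multi-overlap -/
def oneG (μ : A → ℝ) (x : (Fin (r + 1) → A) → ℝ) (h : Hist r n) (f : Bool → ℝ) : ℝ :=
  ∑ u, wt μ (fun _ _ => 1) h u * ∏ l, phi f (x (u l))

/-- one term -/
def oneT (μ : A → ℝ) (x : (Fin (r + 1) → A) → ℝ) (h : Hist r n) (t : ℝ) (S : Finset (Fin K))
    (σ : Fin (n + 1) → Fin N → Bool) (bf : ℝ × (Fin K → Bool → ℝ)) : ℝ :=
  (-(t * bf.1)) ^ (n + 1) * ∏ j, if j ∈ S then oneG μ x h (bf.2 j) else oneA σ (bf.2 j)

theorem oneA_sterm {μ : A → ℝ} (hμ : IsPr μ) (m : Fin r → ℝ) (x : (Fin (r + 1) → A) → ℝ)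
    {slot : Fin K → J} (hs : Injective slot) {b : (Fin N → Bool) → (Fin (r + 1) → J → A) → ℝ}
    (hbs : ∀ s, SlotDep (Set.range slot)ᶜ (b s)) (h : Hist r n) (t : ℝ)
    (bf : ℝ × (Fin K → Bool → ℝ)) (S : Finset (Fin K)) (idx : Fin K → Fin N) :
    sterm (cw μ) m b h (oneZ x slot t bf S idx) = ∑ σ, oneR μ m b h σ * ((-(t * bf.1)) ^ (n + 1) *
      ∏ j, if j ∈ S then oneG μ x h (bf.2 j) else ∏ l, bf.2 j (σ l (idx j))) := by
  have hb' : ∀ s (w w' : Fin (r + 1) → J → A), (∀ p, ∀ j ∉ S.image slot, w p j = w' p j) →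
      b s w = b s w' := fun s w w' hw => hbs s w w' fun p j hj => hw p j fun hj' => by
    obtain ⟨i, -, rfl⟩ := Finset.mem_image.1 hj'
    exact hj ⟨i, rfl⟩
  have hY : SlotDep ((S.image slot : Finset J) : Set J)ᶜ fun w => ∑ s, b s w := fun w w' hw =>
    Finset.sum_congr rfl fun s _ => hb' s w w' fun p j hj => hw p j hj
  have h1 := wt_slot hμ (S.image slot) (fun q => tilt_slotDep μ m hY q) h
    (fun v => ∏ l, ∑ s, gib (fun s' => b s' (v l)) s * ∏ j ∈ Sᶜ, bf.2 j (s (idx j)))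
    (fun v v' hv => by
      have : ∀ l, (fun s' => b s' (v l)) = fun s' => b s' (v' l) := fun l =>
        funext fun s' => hb' s' _ _ fun p j hj => hv l p j hj
      simp only [this])
    (extend slot (fun j u => ∏ l, phi (bf.2 j) (x (u l))) fun _ _ => 1)
  simp only [Finset.prod_image hs.injOn, hs.extend_apply] at h1
  have h2 : ∀ v : Fin (n + 1) → Fin (r + 1) → J → A,
      ∏ l, ∑ s, gib (fun s' => b s' (v l)) s * oneZ x slot t bf S idx s (v l) =
      (-(t * bf.1)) ^ (n + 1) *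
        ((∏ l, ∑ s, gib (fun s' => b s' (v l)) s * ∏ j ∈ Sᶜ, bf.2 j (s (idx j))) *
        ∏ j ∈ S, ∏ l, phi (bf.2 j) (x fun p => v l p (slot j))) := by
    intro v
    have h3 : ∀ l, ∑ s, gib (fun s' => b s' (v l)) s * oneZ x slot t bf S idx s (v l) =
        -(t * bf.1) * ((∑ s, gib (fun s' => b s' (v l)) s * ∏ j ∈ Sᶜ, bf.2 j (s (idx j))) *
        ∏ j ∈ S, phi (bf.2 j) (x fun p => v l p (slot j))) := by
      intro l
      rw [Finset.sum_mul, Finset.mul_sum]
      refine Finset.sum_congr rfl fun s _ => ?_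
      unfold oneZ
      ring
    rw [Finset.prod_congr rfl fun l _ => h3 l, Finset.prod_mul_distrib, Finset.prod_mul_distrib,
      Finset.prod_const, Finset.card_univ, Fintype.card_fin, Finset.prod_comm (s := S)]
  have h4 : ∑ v, wt (cw μ) (tilt (cw μ) m fun w => ∑ s, b s w) h v *
      ∏ l, ∑ s, gib (fun s' => b s' (v l)) s * ∏ j ∈ Sᶜ, bf.2 j (s (idx j)) =
      ∑ σ, oneR μ m b h σ * ∏ j ∈ Sᶜ, ∏ l, bf.2 j (σ l (idx j)) := by
    simp only [oneR, Finset.sum_mul]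
    rw [Finset.sum_comm]
    refine Finset.sum_congr rfl fun v _ => ?_
    rw [Finset.prod_univ_sum, Fintype.piFinset_univ, Finset.mul_sum]
    refine Finset.sum_congr rfl fun σ _ => ?_
    rw [Finset.prod_mul_distrib, Finset.prod_comm (s := Sᶜ), mul_assoc]
  unfold sterm
  simp only [h2, mul_left_comm _ ((-(t * bf.1)) ^ (n + 1)), ← Finset.mul_sum]
  rw [h1, h4, Finset.sum_mul]
  congr 1
  refine Finset.sum_congr rfl fun σ _ => ?_
  rw [Finset.prod_ite, Finset.filter_mem_eq_inter, Finset.univ_inter, mul_assoc, mul_comm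
    (∏ j ∈ S, oneG μ x h (bf.2 j))]
  congr 2
  refine Finset.prod_congr ?_ fun _ _ => rfl
  ext j
  simp

theorem oneA_expect [Nonempty (Fin N)] {μ : A → ℝ} (hμ : IsPr μ) (m : Fin r → ℝ)
    (x : (Fin (r + 1) → A) → ℝ)
    {slot : Fin K → J} (hs : Injective slot) {b : (Fin N → Bool) → (Fin (r + 1) → J → A) → ℝ}
    (hbs : ∀ s, SlotDep (Set.range slot)ᶜ (b s)) (h : Hist r n) (t : ℝ)
    (bf : ℝ × (Fin K → Bool → ℝ)) (S : Finset (Fin K)) :
    𝔼 idx : Fin K → Fin N, sterm (cw μ) m b h (oneZ x slot t bf S idx) =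
      ∑ σ, oneR μ m b h σ * oneT μ x h t S σ bf := by
  simp only [oneA_sterm hμ m x hs hbs h t bf S]
  rw [Finset.expect_sum_comm]
  refine Finset.sum_congr rfl fun σ _ => ?_
  rw [← Finset.mul_expect, ← Finset.mul_expect, oneA_expect_prod
    (fun j i => if j ∈ S then oneG μ x h (bf.2 j) else ∏ l, bf.2 j (σ l i))]
  unfold oneT
  congr 2
  refine Finset.prod_congr rfl fun j _ => ?_
  split_ifs
  · exact Fintype.expect_const _
  · rfl

theorem oneA_int [Nonempty (Fin N)] {μ : A → ℝ} (hμ : IsPr μ) {x : (Fin (r + 1) → A) → ℝ}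
    (hx : ∀ w, |x w| ≤ 1) (h : Hist r n) (t : ℝ) (S : Finset (Fin K))
    (σ : Fin (n + 1) → Fin N → Bool) (Pb : Measure ℝ) (Pf : Measure (Bool → ℝ))
    [IsProbabilityMeasure Pb] [IsProbabilityMeasure Pf] (hPb : ∀ᵐ y ∂Pb, |y| ≤ 1)
    (hPf : ∀ᵐ f ∂Pf, ∀ s, |f s| ≤ 1) :
    Integrable (oneT μ x h t S σ) (Pb.prod (Measure.pi fun _ : Fin K => Pf)) ∧
    ∫ bf, oneT μ x h t S σ bf ∂(Pb.prod (Measure.pi fun _ : Fin K => Pf)) =
      t ^ (n + 1) * (∫ y, (-y) ^ (n + 1) ∂Pb) *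
        ∏ j, if j ∈ S then ∫ f, oneG μ x h f ∂Pf else ∫ f, oneA σ f ∂Pf := by
  have hp : ∀ (a : Fin (n + 1) → ℝ), (∀ l, |a l| ≤ 1) → |∏ l, a l| ≤ 1 := fun a ha => by
    rw [Finset.abs_prod]
    exact Finset.prod_le_one (fun l _ => abs_nonneg _) fun l _ => ha l
  have hA : Integrable (oneA σ) Pf := by
    refine Integrable.of_bound (C := 1) (Continuous.aestronglyMeasurable ?_)
      (hPf.mono fun f hf => ?_)
    · unfold oneA
      simp only [Finset.expect_eq_sum_div_card]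
      fun_prop
    · exact (Finset.abs_expect_le _ _).trans
        (Finset.expect_le Finset.univ_nonempty fun i _ => hp _ fun l => hf _)
  have hG : Integrable (oneG μ x h) Pf := by
    refine Integrable.of_bound (C := 1) (Continuous.aestronglyMeasurable ?_)
      (hPf.mono fun f hf => ?_)
    · unfold oneG phi
      fun_prop
    · exact abs_sum_pr_le (isPr_wt hμ (normW_one hμ) h) fun u =>
        hp _ fun l => abs_phi_le hf (hx _)
  have hβ : Integrable (fun y : ℝ => (-(t * y)) ^ (n + 1)) Pb := by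
    refine Integrable.of_bound (C := |t| ^ (n + 1)) (Continuous.aestronglyMeasurable (by fun_prop))
      (hPb.mono fun y hy => ?_)
    rw [Real.norm_eq_abs, abs_pow, abs_neg, abs_mul]
    exact pow_le_pow_left₀ (by positivity) (mul_le_of_le_one_right (abs_nonneg t) hy) _
  have hH : ∀ j : Fin K, Integrable (fun f => if j ∈ S then oneG μ x h f else oneA σ f) Pf := by
    intro j
    split_ifs
    · exact hG
    · exact hA
  refine ⟨hβ.mul_prod (Integrable.fintype_prod (μ := fun _ : Fin K => Pf) hH), ?_⟩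
  have h1 := integral_prod_mul (μ := Pb) (ν := Measure.pi fun _ : Fin K => Pf)
    (fun y : ℝ => (-(t * y)) ^ (n + 1))
    (fun g : Fin K → Bool → ℝ => ∏ j, if j ∈ S then oneG μ x h (g j) else oneA σ (g j))
  refine h1.trans ?_
  rw [integral_fintype_prod_eq_prod (fun j f => if j ∈ S then oneG μ x h f else oneA σ f),
    ← integral_const_mul]
  congr 1
  · refine integral_congr_ae (ae_of_all _ fun y => ?_)
    show (-(t * y)) ^ (n + 1) = t ^ (n + 1) * (-y) ^ (n + 1)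
    rw [← mul_pow, mul_neg]
  · refine Finset.prod_congr rfl fun j _ => ?_
    split_ifs <;> rfl

end Aux

theorem one_term_nonneg {K N r n : ℕ} (hK : 1 ≤ K) (he : Even K) (hN : 1 ≤ N) {J A : Type}
    [Fintype J] [DecidableEq J] [Fintype A] {μ : A → ℝ} (hμ : IsPr μ) {m : Fin r → ℝ} (hm : Adm m)
    {x : (Fin (r + 1) → A) → ℝ} (hx : ∀ w, |x w| ≤ 1) {slot : Fin K → J} (hs : Injective slot)
    {b : (Fin N → Bool) → (Fin (r + 1) → J → A) → ℝ} (hb : ∀ s w, 0 < b s w)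
    (hbs : ∀ s, SlotDep (Set.range slot)ᶜ (b s)) (Pb : Measure ℝ) (Pf : Measure (Bool → ℝ))
    [IsProbabilityMeasure Pb] [IsProbabilityMeasure Pf] (hPb : ∀ᵐ y ∂Pb, |y| ≤ 1)
    (hPf : ∀ᵐ f ∂Pf, ∀ s, |f s| ≤ 1) (hpos : 0 ≤ ∫ y, (-y) ^ (n + 1) ∂Pb) {t : ℝ} (ht : 0 ≤ t)
    (h : Hist r n) :
    Integrable (fun bf => (𝔼 idx : Fin K → Fin N, sterm (cw μ) m b h (zc t bf idx)) -
        K * (𝔼 l : Fin K, 𝔼 idx : Fin K → Fin N, sterm (cw μ) m b h (zs x slot t bf l idx)) +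
        (K - 1) * sterm (cw μ) m b h (zv x slot t bf))
      (Pb.prod (Measure.pi fun _ : Fin K => Pf)) ∧
    0 ≤ ∫ bf, ((𝔼 idx : Fin K → Fin N, sterm (cw μ) m b h (zc t bf idx)) -
        K * (𝔼 l : Fin K, 𝔼 idx : Fin K → Fin N, sterm (cw μ) m b h (zs x slot t bf l idx)) +
        (K - 1) * sterm (cw μ) m b h (zv x slot t bf))
      ∂(Pb.prod (Measure.pi fun _ : Fin K => Pf)) := by
  have : Nonempty (Fin N) := ⟨⟨0, hN⟩⟩
  have hY : ∀ w, 0 < ∑ s, b s w := fun w =>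
    Finset.sum_pos (fun s _ => hb s w) Finset.univ_nonempty
  have hR : ∀ σ, 0 ≤ oneR μ m b h σ := fun σ =>
    Finset.sum_nonneg fun v _ => mul_nonneg
      (wt_nonneg (isPr_cw hμ) (normW_tilt (isPr_cw hμ) hm hY) h v)
      (Finset.prod_nonneg fun l _ => (isPr_gib fun s => hb s (v l)).1 _)
  have e : ∀ bf : ℝ × (Fin K → Bool → ℝ),
      (𝔼 idx : Fin K → Fin N, sterm (cw μ) m b h (zc t bf idx)) -
        K * (𝔼 l : Fin K, 𝔼 idx : Fin K → Fin N, sterm (cw μ) m b h (zs x slot t bf l idx)) +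
        (K - 1) * sterm (cw μ) m b h (zv x slot t bf) =
      ∑ σ, oneR μ m b h σ * (oneT μ x h t ∅ σ bf - ∑ l, oneT μ x h t (Finset.univ.erase l) σ bf +
        (K - 1) * oneT μ x h t Finset.univ σ bf) := by
    intro bf
    have e1 : ∀ idx : Fin K → Fin N, zc t bf idx = oneZ x slot t bf ∅ idx := by
      intro idx
      funext s w
      simp [zc, oneZ]
    have e2 : ∀ l (idx : Fin K → Fin N),
        zs x slot t bf l idx = oneZ x slot t bf (Finset.univ.erase l) idx := by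
      intro l idx
      funext s w
      simp [zs, oneZ, Finset.compl_erase]
    have e3 : ∀ idx, zv x slot t bf = oneZ (N := N) x slot t bf Finset.univ idx := by
      intro idx
      funext s w
      simp [zv, oneZ]
    have e4 : sterm (cw μ) m b h (zv x slot t bf) =
        𝔼 idx : Fin K → Fin N, sterm (cw μ) m b h (oneZ x slot t bf Finset.univ idx) := by
      simp only [← e3, Fintype.expect_const]
    have e5 := Fintype.card_mul_expect fun l : Fin K =>
      𝔼 idx : Fin K → Fin N, sterm (cw μ) m b h (zs x slot t bf l idx)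
    rw [Fintype.card_fin] at e5
    rw [e4, e5]
    simp only [e1, e2, oneA_expect hμ m x hs hbs h t bf]
    rw [Finset.sum_comm, Finset.mul_sum, ← Finset.sum_sub_distrib, ← Finset.sum_add_distrib]
    refine Finset.sum_congr rfl fun σ _ => ?_
    rw [← Finset.mul_sum]
    ring
  simp only [e]
  have hI := fun (S : Finset (Fin K)) (σ : Fin (n + 1) → Fin N → Bool) =>
    oneA_int hμ hx h t S σ Pb Pf hPb hPf
  have hI2 : ∀ σ : Fin (n + 1) → Fin N → Bool, Integrable (fun bf => oneR μ m b h σ *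
      (oneT μ x h t ∅ σ bf - ∑ l, oneT μ x h t (Finset.univ.erase l) σ bf +
        (K - 1) * oneT μ x h t Finset.univ σ bf)) (Pb.prod (Measure.pi fun _ : Fin K => Pf)) :=
    fun σ => ((((hI ∅ σ).1.sub (integrable_finsetSum _ fun l _ => (hI _ σ).1)).add
      ((hI _ σ).1.const_mul _))).const_mul _
  refine ⟨integrable_finsetSum _ fun σ _ => hI2 σ, ?_⟩
  rw [integral_finsetSum _ fun σ _ => hI2 σ]
  refine Finset.sum_nonneg fun σ _ => ?_
  rw [integral_const_mul]
  refine mul_nonneg (hR σ) ?_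
  have hI3 : Integrable (fun bf => oneT μ x h t ∅ σ bf -
      ∑ l, oneT μ x h t (Finset.univ.erase l) σ bf) (Pb.prod (Measure.pi fun _ : Fin K => Pf)) :=
    (hI ∅ σ).1.sub (integrable_finsetSum _ fun l _ => (hI _ σ).1)
  rw [integral_add hI3 ((hI _ σ).1.const_mul _), integral_sub (hI ∅ σ).1
    (integrable_finsetSum _ fun l _ => (hI _ σ).1), integral_finsetSum _ fun l _ => (hI _ σ).1,
    integral_const_mul]
  simp only [fun S => (hI S σ).2]
  have f1 : ∀ l : Fin K, ∏ j : Fin K, (if j ∈ Finset.univ.erase l then ∫ f, oneG μ x h f ∂Pf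
      else ∫ f, oneA σ f ∂Pf) = (∫ f, oneA σ f ∂Pf) * (∫ f, oneG μ x h f ∂Pf) ^ (K - 1) := by
    intro l
    rw [← Finset.mul_prod_erase _ _ (Finset.mem_univ l), if_neg (Finset.notMem_erase l _),
      Finset.prod_congr rfl fun j hj => if_pos hj, Finset.prod_const, Finset.card_erase_of_mem
      (Finset.mem_univ l), Finset.card_univ, Fintype.card_fin]
  simp only [f1, Finset.notMem_empty, if_false, Finset.mem_univ, if_true, Finset.prod_const,
    Finset.sum_const, Finset.card_univ, Fintype.card_fin, nsmul_eq_mul]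
  have f2 := mul_nonneg (mul_nonneg (pow_nonneg ht (n + 1)) hpos)
    (even_tangent hK he (∫ f, oneA σ f ∂Pf) (∫ f, oneG μ x h f ∂Pf))
  linarith

end Vale.Agent.P168
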