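import Vale.Agent.P168.OneA
import Vale.Agent.P168.Expand

/-! P168 OneB: the scaled one-step inequality.
Plan. For a family `z s w` with `|z| ≤ t`, `∑ s, b s w * (1 - z s w) = Y w * (1 - zbar w)` with
`Y w = ∑ s, b s w`, `zbar w = ∑ s, gib (b · w) s * z s w`, `|zbar| ≤ t`, so `expand` gives
`|fT (..) - fT Y + ∑ n < k, 1/(n+1) * ∑ h, hP m h * sterm .. h z| ≤ t^k * -log (1-t)` (`expand_b`).
For a.e. `bf` all three families are bounded by `t`. The coefficients `1 - K + (K - 1)` cancel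
`fT Y`, hence `dT bf ≤ -∑ n < k, 1/(n+1) ∑ h, hP m h * (combination) + 2 K t^k (-log (1-t))`.
Integrate (`one_term_nonneg`, `hP_nonneg`; `dT` is measurable by `measurable_fT` and a.e.
bounded), let `k → ∞`. -/

open MeasureTheory ProbabilityTheory Function Filter Topology
open scoped BigOperators

noncomputable section

namespace Vale.Agent.P168

/-- the combination of the three one-step increments -/
def dT {K N r : ℕ} {J A : Type} [Fintype J] [DecidableEq J] [Fintype A] (μ : A → ℝ)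
    (m : Fin r → ℝ) (x : (Fin (r + 1) → A) → ℝ) (slot : Fin K → J)
    (b : (Fin N → Bool) → (Fin (r + 1) → J → A) → ℝ) (t : ℝ) (bf : ℝ × (Fin K → Bool → ℝ)) : ℝ :=
  (𝔼 idx : Fin K → Fin N, fT (cw μ) m fun w => ∑ s, b s w * (1 - zc t bf idx s w)) -
    K * (𝔼 l : Fin K, 𝔼 idx : Fin K → Fin N,
      fT (cw μ) m fun w => ∑ s, b s w * (1 - zs x slot t bf l idx s w)) +
    (K - 1) * fT (cw μ) m fun w => ∑ s, b s w * (1 - zv x slot t bf s w)

theorem expand_b {r : ℕ} {B C : Type} [Fintype B] [Fintype C] [Nonempty C] {μ : B → ℝ}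
    (hμ : IsPr μ) {m : Fin r → ℝ} (hm : Adm m) {b z : C → (Fin (r + 1) → B) → ℝ}
    (hb : ∀ s w, 0 < b s w) {c : ℝ} (hc0 : 0 ≤ c) (hc1 : c < 1) (hz : ∀ s w, |z s w| ≤ c) (k : ℕ) :
    |fT μ m (fun w => ∑ s, b s w * (1 - z s w)) - fT μ m (fun w => ∑ s, b s w) +
      ∑ n ∈ Finset.range k, 1 / ((n : ℝ) + 1) * ∑ h : Hist r n, hP m h * sterm μ m b h z| ≤
      c ^ k * -Real.log (1 - c) := by
  have hY : ∀ w, 0 < ∑ s, b s w := fun w =>
    Finset.sum_pos (fun s _ => hb s w) Finset.univ_nonempty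
  have h1 := expand hμ hm (z := fun w => ∑ s, gib (fun s' => b s' w) s * z s w) hY hc0 hc1
    (fun w => abs_sum_pr_le (isPr_gib fun s => hb s w) fun s => hz s w) k
  have h2 : (fun w => ∑ s, b s w * (1 - z s w)) =
      fun w => (∑ s, b s w) * (1 - ∑ s, gib (fun s' => b s' w) s * z s w) := by
    funext w
    rw [mul_sub, mul_one, Finset.mul_sum, ← Finset.sum_sub_distrib]
    refine Finset.sum_congr rfl fun s _ => ?_
    have := (hY w).ne'
    unfold gib
    field_simp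
  rw [h2]
  exact h1

theorem oneB_meas_expect {Ω D : Type} [MeasurableSpace Ω] [Fintype D] {F : D → Ω → ℝ}
    (hF : ∀ d, Measurable (F d)) : Measurable fun ω => 𝔼 d, F d ω := by
  simp only [Finset.expect_eq_sum_div_card]
  exact (Finset.measurable_sum _ fun d _ => hF d).div_const _

theorem measurable_dT {K N r : ℕ} {J A : Type} [Fintype J] [DecidableEq J] [Fintype A] (μ : A → ℝ)
    (m : Fin r → ℝ) (x : (Fin (r + 1) → A) → ℝ) (slot : Fin K → J)
    (b : (Fin N → Bool) → (Fin (r + 1) → J → A) → ℝ) (t : ℝ) :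
    Measurable (dT μ m x slot b t) := by
  have h1 : ∀ idx : Fin K → Fin N, Measurable fun bf : ℝ × (Fin K → Bool → ℝ) =>
      fT (cw μ) m fun w => ∑ s, b s w * (1 - zc t bf idx s w) := fun idx =>
    measurable_fT _ _ fun w => by unfold zc; fun_prop
  have h2 : ∀ l (idx : Fin K → Fin N), Measurable fun bf : ℝ × (Fin K → Bool → ℝ) =>
      fT (cw μ) m fun w => ∑ s, b s w * (1 - zs x slot t bf l idx s w) := fun l idx =>
    measurable_fT _ _ fun w => by unfold zs phi; fun_prop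
  have h3 : Measurable fun bf : ℝ × (Fin K → Bool → ℝ) =>
      fT (cw μ) m fun w => ∑ s, b s w * (1 - zv x slot t bf s w) :=
    measurable_fT _ _ fun w => by unfold zv phi; fun_prop
  exact ((oneB_meas_expect h1).sub
    ((oneB_meas_expect fun l => oneB_meas_expect (h2 l)).const_mul _)).add (h3.const_mul _)

section Aux

variable {K N r : ℕ} {J A : Type}

/-- the linear combination of the three families -/
def oneL (x : (Fin (r + 1) → A) → ℝ) (slot : Fin K → J) (t : ℝ) (bf : ℝ × (Fin K → Bool → ℝ))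
    (F : ((Fin N → Bool) → (Fin (r + 1) → J → A) → ℝ) → ℝ) : ℝ :=
  (𝔼 idx : Fin K → Fin N, F (zc t bf idx)) -
    K * (𝔼 l : Fin K, 𝔼 idx : Fin K → Fin N, F (zs x slot t bf l idx)) +
    (K - 1) * F (zv x slot t bf)

variable {x : (Fin (r + 1) → A) → ℝ} {slot : Fin K → J} {t : ℝ} {bf : ℝ × (Fin K → Bool → ℝ)}

theorem oneL_add (F G : ((Fin N → Bool) → (Fin (r + 1) → J → A) → ℝ) → ℝ) :
    oneL x slot t bf (fun z => F z + G z) = oneL x slot t bf F + oneL x slot t bf G := by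
  simp only [oneL, Finset.expect_add_distrib]
  ring

theorem oneL_sub (F G : ((Fin N → Bool) → (Fin (r + 1) → J → A) → ℝ) → ℝ) :
    oneL x slot t bf (fun z => F z - G z) = oneL x slot t bf F - oneL x slot t bf G := by
  simp only [oneL, Finset.expect_sub_distrib]
  ring

theorem oneL_mul (c : ℝ) (F : ((Fin N → Bool) → (Fin (r + 1) → J → A) → ℝ) → ℝ) :
    oneL x slot t bf (fun z => c * F z) = c * oneL x slot t bf F := by
  simp only [oneL, ← Finset.mul_expect]
  ring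

theorem oneL_const [Nonempty (Fin N)] [Nonempty (Fin K)] (c : ℝ) :
    oneL (N := N) x slot t bf (fun _ => c) = 0 := by
  simp only [oneL, Fintype.expect_const]
  ring

theorem oneL_sum {ι : Type} (S : Finset ι)
    (F : ι → ((Fin N → Bool) → (Fin (r + 1) → J → A) → ℝ) → ℝ) :
    oneL x slot t bf (fun z => ∑ i ∈ S, F i z) = ∑ i ∈ S, oneL x slot t bf (F i) := by
  simp only [oneL, Finset.expect_sum_comm, Finset.mul_sum, Finset.sum_add_distrib,
    Finset.sum_sub_distrib]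

theorem oneL_abs [Nonempty (Fin N)] (hK : 1 ≤ K) (hx : ∀ w, |x w| ≤ 1) (slot : Fin K → J)
    (ht : 0 ≤ t) (h1 : |bf.1| ≤ 1) (h2 : ∀ j s, |bf.2 j s| ≤ 1)
    (F : ((Fin N → Bool) → (Fin (r + 1) → J → A) → ℝ) → ℝ) {ε : ℝ}
    (hF : ∀ z, (∀ s w, |z s w| ≤ t) → |F z| ≤ ε) : |oneL x slot t bf F| ≤ 2 * K * ε := by
  have : Nonempty (Fin K) := ⟨⟨0, hK⟩⟩
  have hK1 : (1 : ℝ) ≤ K := by exact_mod_cast hK
  have hp : ∀ (S : Finset (Fin K)) (a : Fin K → ℝ), (∀ l, |a l| ≤ 1) → |∏ l ∈ S, a l| ≤ 1 :=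
    fun S a ha => by
      rw [Finset.abs_prod]
      exact Finset.prod_le_one (fun l _ => abs_nonneg _) fun l _ => ha l
  have hq : ∀ u : ℝ, |u| ≤ 1 → |-(t * bf.1) * u| ≤ t := fun u hu => by
    rw [abs_mul, abs_neg, abs_mul, abs_of_nonneg ht, mul_assoc]
    exact mul_le_of_le_one_right ht (mul_le_one₀ h1 (abs_nonneg _) hu)
  have a1 : |𝔼 idx : Fin K → Fin N, F (zc t bf idx)| ≤ ε :=
    (Finset.abs_expect_le _ _).trans (Finset.expect_le Finset.univ_nonempty fun idx _ =>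
      hF _ fun s w => hq _ (hp _ _ fun j => h2 _ _))
  have a2 : |𝔼 l : Fin K, 𝔼 idx : Fin K → Fin N, F (zs x slot t bf l idx)| ≤ ε :=
    (Finset.abs_expect_le _ _).trans (Finset.expect_le Finset.univ_nonempty fun l _ =>
      (Finset.abs_expect_le _ _).trans (Finset.expect_le Finset.univ_nonempty fun idx _ =>
        hF _ fun s w => hq _ (by
          rw [abs_mul]
          exact mul_le_one₀ (h2 _ _) (abs_nonneg _) (hp _ _ fun j => abs_phi_le (h2 j) (hx _)))))
  have a3 : |F (zv x slot t bf)| ≤ ε :=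
    hF _ fun s w => hq _ (hp _ _ fun j => abs_phi_le (h2 j) (hx _))
  rw [abs_le] at a1 a2 a3 ⊢
  unfold oneL
  constructor <;> nlinarith [a1.1, a1.2, a2.1, a2.2, a3.1, a3.2]

end Aux

theorem integral_dT_nonpos {K N r : ℕ} (hK : 1 ≤ K) (he : Even K) (hN : 1 ≤ N) {J A : Type}
    [Fintype J] [DecidableEq J] [Fintype A] {μ : A → ℝ} (hμ : IsPr μ) {m : Fin r → ℝ} (hm : Adm m)
    {x : (Fin (r + 1) → A) → ℝ} (hx : ∀ w, |x w| ≤ 1) {slot : Fin K → J} (hs : Injective slot)
    {b : (Fin N → Bool) → (Fin (r + 1) → J → A) → ℝ} (hb : ∀ s w, 0 < b s w)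
    (hbs : ∀ s, SlotDep (Set.range slot)ᶜ (b s)) (Pb : Measure ℝ) (Pf : Measure (Bool → ℝ))
    [IsProbabilityMeasure Pb] [IsProbabilityMeasure Pf] (hPb : ∀ᵐ y ∂Pb, |y| ≤ 1)
    (hPf : ∀ᵐ f ∂Pf, ∀ s, |f s| ≤ 1) (hpos : ∀ n : ℕ, 0 ≤ ∫ y, (-y) ^ (n + 1) ∂Pb) {t : ℝ}
    (ht0 : 0 ≤ t) (ht1 : t < 1) :
    ∫ bf, dT μ m x slot b t bf ∂(Pb.prod (Measure.pi fun _ : Fin K => Pf)) ≤ 0 := by
  have : Nonempty (Fin N) := ⟨⟨0, hN⟩⟩
  have : Nonempty (Fin K) := ⟨⟨0, hK⟩⟩
  have hg : ∀ᵐ bf ∂(Pb.prod (Measure.pi fun _ : Fin K => Pf)),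
      |bf.1| ≤ 1 ∧ ∀ j s, |bf.2 j s| ≤ 1 := by
    refine (Measure.quasiMeasurePreserving_fst.ae hPb).and
      (Measure.quasiMeasurePreserving_snd.ae (p := fun g : Fin K → Bool → ℝ => ∀ j s, |g j s| ≤ 1)
        (ae_all_iff.2 fun j => ?_))
    exact (measurePreserving_eval (fun _ : Fin K => Pf) j).quasiMeasurePreserving.ae hPf
  have hb1 : ∀ k, ∀ᵐ bf ∂(Pb.prod (Measure.pi fun _ : Fin K => Pf)),
      |dT μ m x slot b t bf + ∑ n ∈ Finset.range k, 1 / ((n : ℝ) + 1) *
        ∑ h : Hist r n, hP m h * oneL x slot t bf (sterm (cw μ) m b h)| ≤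
        2 * K * (t ^ k * -Real.log (1 - t)) := by
    intro k
    refine hg.mono fun bf hbf => ?_
    have h1 := oneL_abs hK hx slot ht0 hbf.1 hbf.2 (N := N) (fun z =>
      fT (cw μ) m (fun w => ∑ s, b s w * (1 - z s w)) - fT (cw μ) m (fun w => ∑ s, b s w) +
      ∑ n ∈ Finset.range k, 1 / ((n : ℝ) + 1) * ∑ h : Hist r n, hP m h * sterm (cw μ) m b h z)
      fun z hz => expand_b (isPr_cw hμ) hm hb ht0 ht1 hz k
    simp only [oneL_add, oneL_sub, oneL_const, oneL_sum, oneL_mul, sub_zero] at h1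
    exact h1
  have hI : Integrable (dT μ m x slot b t) (Pb.prod (Measure.pi fun _ : Fin K => Pf)) := by
    refine Integrable.of_bound (measurable_dT μ m x slot b t).aestronglyMeasurable
      (2 * K * (t ^ 0 * -Real.log (1 - t))) ((hb1 0).mono fun bf hbf => ?_)
    simpa using hbf
  have hT := fun n (h : Hist r n) =>
    one_term_nonneg hK he hN hμ hm hx hs hb hbs Pb Pf hPb hPf (hpos n) ht0 h
  have hI1 : ∀ n (h : Hist r n), Integrable (fun bf => hP m h *
      oneL x slot t bf (sterm (cw μ) m b h)) (Pb.prod (Measure.pi fun _ : Fin K => Pf)) :=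
    fun n h => (hT n h).1.const_mul _
  have hI2 : ∀ n : ℕ, Integrable (fun bf => 1 / ((n : ℝ) + 1) * ∑ h : Hist r n, hP m h *
      oneL x slot t bf (sterm (cw μ) m b h)) (Pb.prod (Measure.pi fun _ : Fin K => Pf)) :=
    fun n => (integrable_finsetSum _ fun h _ => hI1 n h).const_mul _
  have hle : ∀ k : ℕ, ∫ bf, dT μ m x slot b t bf ∂(Pb.prod (Measure.pi fun _ : Fin K => Pf)) ≤
      2 * K * (t ^ k * -Real.log (1 - t)) := by
    intro k
    have hI3 := integrable_finsetSum (Finset.range k) fun n _ => hI2 n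
    have h1 := integral_mono_ae (hI.add hI3) (integrable_const _)
      ((hb1 k).mono fun bf hbf => (le_abs_self _).trans hbf)
    have h2 := integral_add hI hI3
    have h3 : 0 ≤ ∫ bf, ∑ n ∈ Finset.range k, 1 / ((n : ℝ) + 1) * ∑ h : Hist r n, hP m h *
        oneL x slot t bf (sterm (cw μ) m b h) ∂(Pb.prod (Measure.pi fun _ : Fin K => Pf)) := by
      rw [integral_finsetSum _ fun n _ => hI2 n]
      refine Finset.sum_nonneg fun n _ => ?_
      rw [integral_const_mul, integral_finsetSum _ fun h _ => hI1 n h]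
      refine mul_nonneg (by positivity) (Finset.sum_nonneg fun h _ => ?_)
      rw [integral_const_mul]
      exact mul_nonneg (hP_nonneg hm h) (hT n h).2
    simp only [Pi.add_apply, integral_const, probReal_univ, one_smul] at h1
    linarith
  have hlim : Tendsto (fun k : ℕ => 2 * K * (t ^ k * -Real.log (1 - t))) atTop (𝓝 0) := by
    simpa using ((tendsto_pow_atTop_nhds_zero_of_lt_one ht0 ht1).mul_const
      (-Real.log (1 - t))).const_mul (2 * (K : ℝ))
  exact ge_of_tendsto' hlim hle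

end Vale.Agent.P168
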