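import Vale.Agent.P168.OneB
import Vale.Agent.P168.Mext

/-! P168 OneC: the one-step inequality of the interpolation.
Plan. For good `q = (a, b, f)` (`a > 0`, `|b| < 1`, `|f| ≤ 1`):
`exp (theta q s) = a (1 - zc 1)`, `siteFac = a (1 - zs 1)`, `fullFac = a (1 - zv 1)`
(`Finset.prod_univ_sum`), so by `fT_const_mul` the combination
`D q = 𝔼 idx clause - K 𝔼 l 𝔼 idx site + (K-1) fT (∑ s, b s w * fullFac)` equals `dT 1 q.2`.
`∫ dT t (q.2) ∂Q ≤ 0` for `t < 1` (`integral_map`, `Positive`, marginals of the product give the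
a.e. bounds for `Pb`, `Pf`; `∫ (-y)^n ∂Pb = ∫ (-q.2.1)^n ∂Q`). Let `t = 1 - 1/(k+2) → 1`:
put `θt s = log (1 + t b ∏ f_j (s j))`; each of the three terms minus `fT Y` lies in
`[min θt, max θt]` (each factor is a convex combination of the values `exp (θt s)`; `fT_mono`,
`fT_const_mul`), `max θt - min θt ≤ 2 ‖theta q‖` since `(1 + t u)/(1 + t v) ≤ (1 + u)/(1 + v)` for
`u ≥ v`, so `|dT t q.2| ≤ 2 K ‖theta q‖`; pointwise convergence from `fT_lip`
(finitely many `w`); dominated convergence. Finally `fT_mul`, `fT_comp` give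
`fT (∑ s, b s w * fullFac) = fT Y + fT fullFac`, and the integrals over `QE` are computed with
`integral_prod`, `integral_unif`: the mixed term is `(1/K) clause + (1 - 1/K) fT Y`. -/

open MeasureTheory ProbabilityTheory Function Filter Topology
open scoped BigOperators

noncomputable section

namespace Vale.Agent.P168

section Aux

theorem oneC_between {r : ℕ} {B C : Type} [Fintype B] [Fintype C] [Nonempty C] {μ : B → ℝ}
    (hμ : IsPr μ) {m : Fin r → ℝ} (hm : Adm m) {b g : C → (Fin (r + 1) → B) → ℝ}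
    (hb : ∀ s w, 0 < b s w) {lo hi : ℝ} (hlo : 0 < lo) (h1 : ∀ s w, lo ≤ g s w)
    (h2 : ∀ s w, g s w ≤ hi) :
    Real.log lo ≤ (fT μ m fun w => ∑ s, b s w * g s w) - (fT μ m fun w => ∑ s, b s w) ∧
      (fT μ m fun w => ∑ s, b s w * g s w) - (fT μ m fun w => ∑ s, b s w) ≤ Real.log hi := by
  have hY : ∀ w, 0 < ∑ s, b s w := fun w =>
    Finset.sum_pos (fun s _ => hb s w) Finset.univ_nonempty
  have hY' : ∀ w, 0 < ∑ s, b s w * g s w := fun w =>
    Finset.sum_pos (fun s _ => mul_pos (hb s w) (hlo.trans_le (h1 s w))) Finset.univ_nonempty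
  have hB : Nonempty B := by
    by_contra h
    rw [not_nonempty_iff] at h
    have := hμ.2
    simp at this
  have hhi : 0 < hi := (hlo.trans_le (h1 (Classical.arbitrary C) (Classical.arbitrary _))).trans_le
    (h2 _ _)
  have a1 := fT_mono hμ hm (Y := fun w => lo * ∑ s, b s w) (Y' := fun w => ∑ s, b s w * g s w)
    (fun w => mul_pos hlo (hY w)) fun w => by
      rw [mul_comm, Finset.sum_mul]
      exact Finset.sum_le_sum fun s _ => mul_le_mul_of_nonneg_left (h1 s w) (hb s w).le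
  have a2 := fT_mono hμ hm (Y := fun w => ∑ s, b s w * g s w) (Y' := fun w => hi * ∑ s, b s w)
    hY' fun w => by
      rw [mul_comm, Finset.sum_mul]
      exact Finset.sum_le_sum fun s _ => mul_le_mul_of_nonneg_left (h2 s w) (hb s w).le
  rw [fT_const_mul hμ hm hY hlo] at a1
  rw [fT_const_mul hμ hm hY hhi] at a2
  constructor <;> linarith

theorem oneC_exp {g δ : ℝ} (hg : 0 < g) (h : |Real.log g| ≤ δ) :
    Real.exp (-δ) ≤ g ∧ g ≤ Real.exp δ :=
  ⟨(Real.le_log_iff_exp_le hg).1 (abs_le.1 h).1, (Real.log_le_iff_le_exp hg).1 (abs_le.1 h).2⟩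

theorem oneC_lip {r : ℕ} {B C : Type} [Fintype B] [Fintype C] [Nonempty C] {μ : B → ℝ}
    (hμ : IsPr μ) {m : Fin r → ℝ} (hm : Adm m) {b g : C → (Fin (r + 1) → B) → ℝ}
    (hb : ∀ s w, 0 < b s w) {δ : ℝ} (hg : ∀ s w, 0 < g s w) (h : ∀ s w, |Real.log (g s w)| ≤ δ) :
    |(fT μ m fun w => ∑ s, b s w * g s w) - (fT μ m fun w => ∑ s, b s w)| ≤ δ := by
  have h1 := oneC_between hμ hm hb (Real.exp_pos (-δ)) (fun s w => (oneC_exp (hg s w) (h s w)).1)
    fun s w => (oneC_exp (hg s w) (h s w)).2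
  rw [Real.log_exp, Real.log_exp] at h1
  exact abs_le.2 h1

theorem oneC_QE {K N : ℕ} [Nonempty (Fin N)] [Nonempty (Fin K)] {Q : Measure (Par K)}
    [IsProbabilityMeasure Q] (F : Evt K N → ℝ) (hm : ∀ d, Measurable fun q => F (q, d))
    {g : Par K → ℝ} (hg : Integrable g Q) (hb : ∀ q d, |F (q, d)| ≤ g q) :
    ∫ e, F e ∂QE K N Q = ∫ q, 𝔼 l : Fin K, 𝔼 idx : Fin K → Fin N, F (q, idx, l) ∂Q := by
  have hI : Integrable F (QE K N Q) := (hg.comp_fst _).mono'
    (measurable_from_prod_countable_left hm).aestronglyMeasurable (ae_of_all _ fun e => hb e.1 e.2)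
  unfold QE at hI ⊢
  rw [integral_prod _ hI]
  refine integral_congr_ae (ae_of_all _ fun q => ?_)
  simp only
  rw [integral_prod_symm _ Integrable.of_finite]
  simp only [integral_unif]

variable {K N r : ℕ} {J A : Type}

theorem oneC_phi (f : Bool → ℝ) (e : Bool) : phi f (spin e) = f e := by
  cases e <;> simp [phi, spin]

theorem oneC_theta {q : Par K} (hq : 0 < q.1 ∧ |q.2.1| < 1 ∧ ∀ j s, |q.2.2 j s| ≤ 1)
    (s : Fin K → Bool) : Real.exp (theta q s) = q.1 * (1 + q.2.1 * ∏ j, q.2.2 j (s j)) := by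
  refine Real.exp_log (mul_pos hq.1 ?_)
  have h1 : |∏ j, q.2.2 j (s j)| ≤ 1 := by
    rw [Finset.abs_prod]
    exact Finset.prod_le_one (fun l _ => abs_nonneg _) fun l _ => hq.2.2 _ _
  have h2 : |q.2.1 * ∏ j, q.2.2 j (s j)| < 1 := by
    rw [abs_mul]
    exact (mul_le_of_le_one_right (abs_nonneg _) h1).trans_lt hq.2.1
  linarith [(abs_lt.1 h2).1]

theorem oneC_full {q : Par K} (hq : 0 < q.1 ∧ |q.2.1| < 1 ∧ ∀ j s, |q.2.2 j s| ≤ 1)
    (y : Fin K → ℝ) : fullFac q y = q.1 * (1 + q.2.1 * ∏ j, phi (q.2.2 j) (y j)) := by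
  have h1 : ∏ j, phi (q.2.2 j) (y j) =
      ∑ s : Fin K → Bool, (∏ j, q.2.2 j (s j)) * ∏ j, (1 + y j * spin (s j)) / 2 := by
    have h2 : ∀ j, phi (q.2.2 j) (y j) = ∑ e : Bool, q.2.2 j e * ((1 + y j * spin e) / 2) := by
      intro j
      simp only [phi, spin, Fintype.sum_bool, if_true, Bool.false_eq_true, if_false]
      ring
    simp only [h2, Finset.prod_univ_sum, Fintype.piFinset_univ, Finset.prod_mul_distrib]
  unfold fullFac
  rw [h1, ← sum_half_prod y, Finset.mul_sum, ← Finset.sum_add_distrib, Finset.mul_sum]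
  refine Finset.sum_congr rfl fun s _ => ?_
  rw [oneC_theta hq, sum_half_prod y]
  ring

theorem oneC_site (q : Par K) (l : Fin K) (e : Bool) (y : Fin K → ℝ) :
    siteFac q l e y = fullFac q (update y l (spin e)) := by
  unfold siteFac fullFac
  rw [Finset.sum_filter]
  refine Finset.sum_congr rfl fun s _ => ?_
  rw [← Finset.mul_prod_erase _ _ (Finset.mem_univ l), update_self,
    Finset.prod_congr rfl (f := fun j => (1 + update y l (spin e) j * spin (s j)) / 2)
      (g := fun j => (1 + y j * spin (s j)) / 2)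
      fun j hj => by rw [update_of_ne (Finset.mem_erase.1 hj).1]]
  cases e <;> cases s l <;> simp [spin]

theorem oneC_upd (f : Fin K → Bool → ℝ) (l : Fin K) (e : Bool) (y : Fin K → ℝ) :
    ∏ j, phi (f j) (update y l (spin e) j) =
      f l e * ∏ j ∈ Finset.univ.erase l, phi (f j) (y j) := by
  rw [← Finset.mul_prod_erase _ _ (Finset.mem_univ l), update_self, oneC_phi]
  congr 1
  exact Finset.prod_congr rfl fun j hj => by rw [update_of_ne (Finset.mem_erase.1 hj).1]

theorem oneC_abs [Nonempty (Fin N)] (hK : 1 ≤ K) {x : (Fin (r + 1) → A) → ℝ}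
    (hx : ∀ w, |x w| ≤ 1) (slot : Fin K → J) {q : Par K}
    (hq : 0 < q.1 ∧ |q.2.1| < 1 ∧ ∀ j s, |q.2.2 j s| ≤ 1)
    (F : ((Fin N → Bool) → (Fin (r + 1) → J → A) → ℝ) → ℝ) {ε : ℝ}
    (hF : ∀ z, (∀ s w, Real.exp (-‖theta q‖) / q.1 ≤ 1 - z s w ∧
      1 - z s w ≤ Real.exp ‖theta q‖ / q.1) → |F z| ≤ ε) :
    |oneL x slot 1 q.2 F| ≤ 2 * K * ε := by
  have : Nonempty (Fin K) := ⟨⟨0, hK⟩⟩
  have hK1 : (1 : ℝ) ≤ K := by exact_mod_cast hK
  have hp : ∀ (y : Fin K → ℝ) (u : ℝ), (∀ j, |y j| ≤ 1) → ∏ j, phi (q.2.2 j) (y j) = u →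
      Real.exp (-‖theta q‖) / q.1 ≤ 1 - -(1 * q.2.1) * u ∧
      1 - -(1 * q.2.1) * u ≤ Real.exp ‖theta q‖ / q.1 := by
    intro y u hy hu
    have h1 := oneC_exp (fullFac_pos q hy).1 (fullFac_pos q hy).2
    rw [oneC_full hq, hu] at h1
    rw [div_le_iff₀ hq.1, le_div_iff₀ hq.1]
    constructor <;> linarith [h1.1, h1.2]
  have a1 : |𝔼 idx : Fin K → Fin N, F (zc 1 q.2 idx)| ≤ ε :=
    (Finset.abs_expect_le _ _).trans (Finset.expect_le Finset.univ_nonempty fun idx _ =>
      hF _ fun s w => hp (fun j => spin (s (idx j))) _ (fun j => (abs_spin _).le)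
        (by simp only [oneC_phi]))
  have a2 : |𝔼 l : Fin K, 𝔼 idx : Fin K → Fin N, F (zs x slot 1 q.2 l idx)| ≤ ε :=
    (Finset.abs_expect_le _ _).trans (Finset.expect_le Finset.univ_nonempty fun l _ =>
      (Finset.abs_expect_le _ _).trans (Finset.expect_le Finset.univ_nonempty fun idx _ =>
        hF _ fun s w => hp (update (fun j => x fun p => w p (slot j)) l (spin (s (idx l)))) _
          (fun j => by
            by_cases h : j = l
            · rw [h, update_self]; exact (abs_spin _).le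
            · rw [update_of_ne h]; exact hx _) (oneC_upd _ _ _ _)))
  have a3 : |F (zv x slot 1 q.2)| ≤ ε :=
    hF _ fun s w => hp (fun j => x fun p => w p (slot j)) _ (fun j => hx _) rfl
  rw [abs_le] at a1 a2 a3 ⊢
  unfold oneL
  constructor <;> nlinarith [a1.1, a1.2, a2.1, a2.2, a3.1, a3.2]

variable [Fintype J] [DecidableEq J] [Fintype A] {μ : A → ℝ} {m : Fin r → ℝ}
  {x : (Fin (r + 1) → A) → ℝ} {b : (Fin N → Bool) → (Fin (r + 1) → J → A) → ℝ}

theorem oneC_dT (slot : Fin K → J) (t : ℝ) (bf : ℝ × (Fin K → Bool → ℝ)) :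
    dT μ m x slot b t bf =
      oneL x slot 1 bf fun z => fT (cw μ) m fun w => ∑ s, b s w * (1 - t * z s w) := by
  simp only [dT, oneL, zc, zs, zv, one_mul, neg_mul, mul_neg, mul_assoc]

theorem oneC_D [Nonempty (Fin N)] (hK : 1 ≤ K) (hμ : IsPr μ) (hm : Adm m) (hx : ∀ w, |x w| ≤ 1)
    (slot : Fin K → J) (hb : ∀ s w, 0 < b s w) {q : Par K}
    (hq : 0 < q.1 ∧ |q.2.1| < 1 ∧ ∀ j s, |q.2.2 j s| ≤ 1) :
    dT μ m x slot b 1 q.2 = (𝔼 idx : Fin K → Fin N,
      fT (cw μ) m fun w => ∑ s, b s w * Real.exp (theta q fun j => s (idx j))) -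
      K * (𝔼 l : Fin K, 𝔼 idx : Fin K → Fin N, fT (cw μ) m fun w => ∑ s, b s w *
        siteFac q l (s (idx l)) fun j => x fun p => w p (slot j)) +
      (K - 1) * fT (cw μ) m fun w => ∑ s, b s w * fullFac q fun j => x fun p => w p (slot j) := by
  have : Nonempty (Fin K) := ⟨⟨0, hK⟩⟩
  have h1 := oneC_abs hK hx slot hq (N := N) (ε := 0) (fun z =>
    (fT (cw μ) m fun w => ∑ s, b s w * (q.1 * (1 - z s w))) -
      (fT (cw μ) m fun w => ∑ s, b s w * (1 - 1 * z s w)) - Real.log q.1) fun z hz => by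
    have h2 : ∀ w, 0 < ∑ s, b s w * (1 - z s w) := fun w => Finset.sum_pos (fun s _ =>
      mul_pos (hb s w) ((div_pos (Real.exp_pos _) hq.1).trans_le (hz s w).1)) Finset.univ_nonempty
    simp only [mul_left_comm _ q.1, ← Finset.mul_sum, one_mul]
    rw [fT_const_mul (isPr_cw hμ) hm h2 hq.1]
    simp
  simp only [oneL_sub, oneL_const, sub_zero, mul_zero, abs_nonpos_iff, sub_eq_zero] at h1
  rw [oneC_dT, ← h1]
  simp only [oneL, zc, zs, zv, oneC_site, oneC_full hq, oneC_theta hq, oneC_upd, one_mul, neg_mul,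
    sub_neg_eq_add]

theorem oneC_bound [Nonempty (Fin N)] (hK : 1 ≤ K) (hμ : IsPr μ) (hm : Adm m)
    (hx : ∀ w, |x w| ≤ 1) (slot : Fin K → J) (hb : ∀ s w, 0 < b s w) {q : Par K}
    (hq : 0 < q.1 ∧ |q.2.1| < 1 ∧ ∀ j s, |q.2.2 j s| ≤ 1) {t : ℝ} (ht : t ∈ Set.Ioo (0 : ℝ) 1) :
    |dT μ m x slot b t q.2| ≤ 2 * K * (2 * ‖theta q‖) := by
  have : Nonempty (Fin K) := ⟨⟨0, hK⟩⟩
  have hγ : 0 < Real.exp (-‖theta q‖) / q.1 := div_pos (Real.exp_pos _) hq.1
  have ht1 : 0 < 1 - t := sub_pos.2 ht.2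
  have hlo : 0 < 1 - t + t * (Real.exp (-‖theta q‖) / q.1) := add_pos ht1 (mul_pos ht.1 hγ)
  have h1 := oneC_abs hK hx slot hq (N := N) (ε := 2 * ‖theta q‖) (fun z =>
    (fT (cw μ) m fun w => ∑ s, b s w * (1 - t * z s w)) -
      ((fT (cw μ) m fun w => ∑ s, b s w) +
        Real.log (1 - t + t * (Real.exp (-‖theta q‖) / q.1)))) fun z hz => by
    have h2 := oneC_between (isPr_cw hμ) hm hb (g := fun s w => 1 - t * z s w)
      (hi := Real.exp (2 * ‖theta q‖) * (1 - t + t * (Real.exp (-‖theta q‖) / q.1))) hlo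
      (fun s w => by nlinarith [(hz s w).1, ht.1]) fun s w => by
        have h3 : 1 ≤ Real.exp (2 * ‖theta q‖) := Real.one_le_exp (by positivity)
        have h4 : Real.exp (2 * ‖theta q‖) * (Real.exp (-‖theta q‖) / q.1) =
            Real.exp ‖theta q‖ / q.1 := by
          rw [← mul_div_assoc, ← Real.exp_add]
          congr 2
          ring
        have h5 := mul_le_mul_of_nonneg_left (hz s w).2 ht.1.le
        have h6 := le_mul_of_one_le_left ht1.le h3
        rw [mul_add, mul_left_comm, h4]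
        linarith
    rw [Real.log_mul (Real.exp_pos _).ne' hlo.ne', Real.log_exp] at h2
    have h7 := norm_nonneg (theta q)
    rw [abs_le]
    constructor <;> linarith [h2.1, h2.2]
  simp only [oneL_sub, oneL_const, sub_zero] at h1
  rw [oneC_dT]
  exact h1

theorem oneC_tend [Nonempty (Fin N)] (hK : 1 ≤ K) (hμ : IsPr μ) (hm : Adm m)
    (hx : ∀ w, |x w| ≤ 1) (slot : Fin K → J) (hb : ∀ s w, 0 < b s w) {q : Par K}
    (hq : 0 < q.1 ∧ |q.2.1| < 1 ∧ ∀ j s, |q.2.2 j s| ≤ 1) :
    Tendsto (fun t => dT μ m x slot b t q.2) (𝓝[<] 1) (𝓝 (dT μ m x slot b 1 q.2)) := by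
  set γ := Real.exp (-‖theta q‖) / q.1 with hγd
  have hγ : 0 < γ := div_pos (Real.exp_pos _) hq.1
  rw [tendsto_iff_norm_sub_tendsto_zero]
  have hc : ContinuousAt (fun t : ℝ => 2 * K * (|Real.log t| + |Real.log (t + (1 - t) / γ)|)) 1 := by
    refine ContinuousAt.mul continuousAt_const (ContinuousAt.add ?_ ?_)
    · exact (Real.continuousAt_log one_ne_zero).abs
    · refine (ContinuousAt.log (by fun_prop) ?_).abs
      simp
  have hc' := hc.tendsto.mono_left (nhdsWithin_le_nhds (s := Set.Iio 1))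
  simp only [Real.log_one, sub_self, zero_div, add_zero, abs_zero, mul_zero] at hc'
  refine squeeze_zero' (Eventually.of_forall fun t => norm_nonneg _) ?_ hc'
  filter_upwards [Ioo_mem_nhdsLT (zero_lt_one' ℝ)] with t ht
  have ht1 : 0 < 1 - t := sub_pos.2 ht.2
  have h1 := oneC_abs hK hx slot hq (N := N) (ε := |Real.log t| + |Real.log (t + (1 - t) / γ)|)
    (fun z => (fT (cw μ) m fun w => ∑ s, b s w * (1 - t * z s w)) -
      fT (cw μ) m fun w => ∑ s, b s w * (1 - 1 * z s w)) fun z hz => by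
    have hp : ∀ s w, 0 < 1 - z s w := fun s w => hγ.trans_le (hz s w).1
    have h2 := oneC_between (isPr_cw hμ) hm (b := fun s w => b s w * (1 - z s w))
      (g := fun s w => t + (1 - t) / (1 - z s w)) (hi := t + (1 - t) / γ)
      (fun s w => mul_pos (hb s w) (hp s w)) ht.1
      (fun s w => le_add_of_nonneg_right (div_pos ht1 (hp s w)).le) fun s w =>
        add_le_add_right (div_le_div_of_nonneg_left ht1.le hγ (hz s w).1) t
    have h3 : ∀ s w, b s w * (1 - z s w) * (t + (1 - t) / (1 - z s w)) =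
        b s w * (1 - t * z s w) := fun s w => by
      have := (hp s w).ne'
      field_simp
      ring
    simp only [h3] at h2
    simp only [one_mul]
    have h4 := neg_abs_le (Real.log t)
    have h5 := le_abs_self (Real.log (t + (1 - t) / γ))
    have h6 := abs_nonneg (Real.log t)
    have h7 := abs_nonneg (Real.log (t + (1 - t) / γ))
    rw [abs_le]
    constructor <;> linarith [h2.1, h2.2]
  rw [oneL_sub, ← oneC_dT, ← oneC_dT] at h1
  exact h1

theorem oneC_limit (hK : 1 ≤ K) (he : Even K) (hN : 1 ≤ N) {Q : Measure (Par K)}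
    {Ph : Measure ℝ} (hM : Model K Q Ph) (hP : Positive K Q) (hμ : IsPr μ) (hm : Adm m)
    (hx : ∀ w, |x w| ≤ 1) {slot : Fin K → J} (hs : Injective slot) (hb : ∀ s w, 0 < b s w)
    (hbs : ∀ s, SlotDep (Set.range slot)ᶜ (b s)) : ∫ q, dT μ m x slot b 1 q.2 ∂Q ≤ 0 := by
  have : Nonempty (Fin N) := ⟨⟨0, hN⟩⟩
  obtain ⟨⟨Pb, Pf, hb1, hf1, hmap⟩, hpos⟩ := hP
  have hs2 : MeasurePreserving Prod.snd Q (Pb.prod (Measure.pi fun _ : Fin K => Pf)) :=
    ⟨measurable_snd, hmap⟩
  have hφb : MeasurePreserving (fun q : Par K => q.2.1) Q Pb := measurePreserving_fst.comp hs2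
  have hφf : MeasurePreserving (fun q : Par K => q.2.2 ⟨0, hK⟩) Q Pf :=
    (measurePreserving_eval (fun _ : Fin K => Pf) ⟨0, hK⟩).comp (measurePreserving_snd.comp hs2)
  have hPb : ∀ᵐ y ∂Pb, |y| ≤ 1 := by
    rw [← hφb.map_eq, ae_map_iff hφb.measurable.aemeasurable
      (measurableSet_le (by fun_prop) measurable_const)]
    exact hM.2.2.1.mono fun q hq => hq.2.1.le
  have hPf : ∀ᵐ f ∂Pf, ∀ s, |f s| ≤ 1 := by
    refine ae_all_iff.2 fun s => ?_
    rw [← hφf.map_eq, ae_map_iff hφf.measurable.aemeasurable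
      (measurableSet_le (by fun_prop) measurable_const)]
    exact hM.2.2.1.mono fun q hq => hq.2.2 _ s
  have hpos' : ∀ n : ℕ, 0 ≤ ∫ y, (-y) ^ (n + 1) ∂Pb := fun n => by
    rw [← hφb.map_eq, integral_map hφb.measurable.aemeasurable (by fun_prop)]
    exact hpos (n + 1) (Nat.le_add_left 1 n)
  have h1 := tendsto_integral_filter_of_dominated_convergence (l := 𝓝[<] (1 : ℝ)) (μ := Q)
    (F := fun t q => dT μ m x slot b t q.2) (f := fun q => dT μ m x slot b 1 q.2)
    (fun q => 2 * K * (2 * ‖theta q‖))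
    (Eventually.of_forall fun t =>
      ((measurable_dT μ m x slot b t).comp measurable_snd).aestronglyMeasurable)
    (by
      filter_upwards [Ioo_mem_nhdsLT (zero_lt_one' ℝ)] with t ht
      exact hM.2.2.1.mono fun q hq => oneC_bound hK hμ hm hx slot hb hq ht)
    (((integrable_norm_theta hM).const_mul 2).const_mul _)
    (hM.2.2.1.mono fun q hq => oneC_tend hK hμ hm hx slot hb hq)
  refine le_of_tendsto h1 ?_
  filter_upwards [Ioo_mem_nhdsLT (zero_lt_one' ℝ)] with t ht
  have h2 := integral_dT_nonpos hK he hN hμ hm hx hs hb hbs Pb Pf hPb hPf hpos' ht.1.le ht.2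
  rwa [← hmap, integral_map measurable_snd.aemeasurable
    (measurable_dT μ m x slot b t).aestronglyMeasurable] at h2

end Aux

theorem one_step {K N r : ℕ} (hK : 1 ≤ K) (he : Even K) (hN : 1 ≤ N) {Q : Measure (Par K)}
    {Ph : Measure ℝ} (hM : Model K Q Ph) (hP : Positive K Q) {J A : Type}
    [Fintype J] [DecidableEq J] [Fintype A] {μ : A → ℝ} (hμ : IsPr μ) {m : Fin r → ℝ} (hm : Adm m)
    {x : (Fin (r + 1) → A) → ℝ} (hx : ∀ w, |x w| ≤ 1) {slot : Fin K → J} (hs : Injective slot)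
    {b : (Fin N → Bool) → (Fin (r + 1) → J → A) → ℝ} (hb : ∀ s w, 0 < b s w)
    (hbs : ∀ s, SlotDep (Set.range slot)ᶜ (b s)) :
    ∫ e, fT (cw μ) m (fun w => ∑ s, b s w * Real.exp (mixF e s)) ∂QE K N Q ≤
      ∫ e, fT (cw μ) m (fun w => ∑ s, b s w *
        siteFac e.1 e.2.2 (s (e.2.1 e.2.2)) fun j => x fun p => w p (slot j)) ∂QE K N Q -
      (K - 1) / K * vval K Q μ m x := by
  have : Nonempty (Fin N) := ⟨⟨0, hN⟩⟩
  have : Nonempty (Fin K) := ⟨⟨0, hK⟩⟩
  have := hM.1
  have hK0 : (0 : ℝ) < K := by exact_mod_cast hK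
  have hθ := integrable_norm_theta hM
  have hY : ∀ w, 0 < ∑ s, b s w := fun w =>
    Finset.sum_pos (fun s _ => hb s w) Finset.univ_nonempty
  have hg := hθ.add (integrable_const |fT (cw μ) m fun w => ∑ s, b s w|)
  have hab : ∀ u v δ : ℝ, |u - v| ≤ δ → |u| ≤ δ + |v| := fun u v δ h => by
    have := abs_sub_abs_le_abs_sub u v
    linarith
  have hθs : ∀ (q : Par K) s, |Real.log (Real.exp (theta q s))| ≤ ‖theta q‖ := fun q s => by
    rw [Real.log_exp]; exact norm_le_pi_norm (theta q) s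
  have hmC : ∀ idx : Fin K → Fin N, Measurable fun q : Par K =>
      fT (cw μ) m fun w => ∑ s, b s w * Real.exp (theta q fun j => s (idx j)) := fun idx =>
    measurable_fT _ _ fun w => Finset.measurable_sum _ fun s _ =>
      (((measurable_pi_apply _).comp measurable_theta).exp).const_mul _
  have hbC : ∀ (q : Par K) (idx : Fin K → Fin N),
      |fT (cw μ) m fun w => ∑ s, b s w * Real.exp (theta q fun j => s (idx j))| ≤
        ‖theta q‖ + |fT (cw μ) m fun w => ∑ s, b s w| := fun q idx =>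
    hab _ _ _ (oneC_lip (isPr_cw hμ) hm hb (fun s w => Real.exp_pos _) fun s w => hθs q _)
  have hC : Integrable (fun q : Par K => 𝔼 idx : Fin K → Fin N,
      fT (cw μ) m fun w => ∑ s, b s w * Real.exp (theta q fun j => s (idx j))) Q :=
    hg.mono' (oneB_meas_expect hmC).aestronglyMeasurable (ae_of_all _ fun q =>
      (Finset.abs_expect_le _ _).trans (Finset.expect_le Finset.univ_nonempty fun idx _ =>
        hbC q idx))
  have hmS : ∀ (l : Fin K) (idx : Fin K → Fin N), Measurable fun q : Par K =>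
      fT (cw μ) m fun w => ∑ s, b s w *
        siteFac q l (s (idx l)) fun j => x fun p => w p (slot j) := fun l idx =>
    measurable_fT _ _ fun w => Finset.measurable_sum _ fun s _ =>
      (measurable_siteFac _ _ _).const_mul _
  have hbS : ∀ (q : Par K) (l : Fin K) (idx : Fin K → Fin N),
      |fT (cw μ) m fun w => ∑ s, b s w * siteFac q l (s (idx l)) fun j => x fun p => w p (slot j)| ≤
        ‖theta q‖ + |fT (cw μ) m fun w => ∑ s, b s w| := fun q l idx =>
    hab _ _ _ (oneC_lip (isPr_cw hμ) hm hb (fun s w => (siteFac_pos q l _ fun j => hx _).1)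
      fun s w => (siteFac_pos q l _ fun j => hx _).2)
  have hS : Integrable (fun q : Par K => 𝔼 l : Fin K, 𝔼 idx : Fin K → Fin N,
      fT (cw μ) m fun w => ∑ s, b s w *
        siteFac q l (s (idx l)) fun j => x fun p => w p (slot j)) Q :=
    hg.mono' (oneB_meas_expect fun l => oneB_meas_expect (hmS l)).aestronglyMeasurable
      (ae_of_all _ fun q => (Finset.abs_expect_le _ _).trans
        (Finset.expect_le Finset.univ_nonempty fun l _ => (Finset.abs_expect_le _ _).trans
          (Finset.expect_le Finset.univ_nonempty fun idx _ => hbS q l idx)))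
  have hV : Integrable (fun q : Par K =>
      fT (cw μ) m fun w : Fin (r + 1) → Fin K → A => fullFac q fun j => x fun p => w p j) Q :=
    hθ.mono' (measurable_fT _ _ fun w => measurable_fullFac _).aestronglyMeasurable
      (ae_of_all _ fun q => abs_fT_le (isPr_cw hμ) hm (fun w => (fullFac_pos q fun j => hx _).1)
        fun w => (fullFac_pos q fun j => hx _).2)
  have hF : ∀ q : Par K,
      (fT (cw μ) m fun w => ∑ s, b s w * fullFac q fun j => x fun p => w p (slot j)) =
      (fT (cw μ) m fun w => ∑ s, b s w) +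
        fT (cw μ) m fun w : Fin (r + 1) → Fin K → A => fullFac q fun j => x fun p => w p j := by
    intro q
    simp only [← Finset.sum_mul]
    rw [fT_mul hμ hm (Set.range slot)ᶜ hY (fun w => (fullFac_pos q fun j => hx _).1)
      (fun w w' hw => Finset.sum_congr rfl fun s _ => hbs s w w' hw)
      (fun w w' hw => by
        have : ∀ j, (fun p => w p (slot j)) = fun p => w' p (slot j) := fun j =>
          funext fun p => hw p _ fun h => h ⟨j, rfl⟩
        simp only [this]),
      fT_comp hμ m slot hs fun w : Fin (r + 1) → Fin K → A => fullFac q fun j => x fun p => w p j]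
  have e1 := oneC_QE (Q := Q)
    (fun e : Evt K N => fT (cw μ) m fun w => ∑ s, b s w * Real.exp (mixF e s))
    (fun d => by
      unfold mixF
      by_cases h : (d.2 : ℕ) = 0
      · simp only [h, if_true]; exact hmC d.1
      · simp only [h, if_false]; exact measurable_const) hg
    (fun q d => by
      unfold mixF
      by_cases h : (d.2 : ℕ) = 0
      · simp only [h, if_true]; exact hbC q d.1
      · simp only [h, if_false, Real.exp_zero, mul_one]
        exact le_add_of_nonneg_left (norm_nonneg _))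
  have e2 := oneC_QE (Q := Q)
    (fun e : Evt K N => fT (cw μ) m fun w => ∑ s, b s w *
      siteFac e.1 e.2.2 (s (e.2.1 e.2.2)) fun j => x fun p => w p (slot j))
    (fun d => hmS d.2 d.1) hg fun q d => hbS q d.2 d.1
  have e3 : ∀ q : Par K, (𝔼 l : Fin K, 𝔼 idx : Fin K → Fin N,
      fT (cw μ) m fun w => ∑ s, b s w * Real.exp (mixF ((q, idx, l) : Evt K N) s)) =
      1 / K * (𝔼 idx : Fin K → Fin N,
        fT (cw μ) m fun w => ∑ s, b s w * Real.exp (theta q fun j => s (idx j))) +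
      (K - 1) / K * fT (cw μ) m fun w => ∑ s, b s w := by
    intro q
    rw [Finset.expect_eq_sum_div_card, ← Finset.add_sum_erase _ _ (Finset.mem_univ ⟨0, hK⟩),
      Finset.sum_congr rfl (g := fun _ => fT (cw μ) m fun w => ∑ s, b s w), Finset.sum_const,
      Finset.card_erase_of_mem (Finset.mem_univ _), Finset.card_univ, Fintype.card_fin,
      nsmul_eq_mul, Nat.cast_pred hK]
    · simp only [mixF, if_true]
      field_simp
    · intro l hl
      have h : (l : ℕ) ≠ 0 := fun h => (Finset.mem_erase.1 hl).1 (Fin.ext h)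
      simp only [mixF, h, if_false, Real.exp_zero, mul_one, Fintype.expect_const]
  have e4 := oneC_limit hK he hN hM hP hμ hm hx hs hb hbs
  rw [integral_congr_ae (g := fun q => (𝔼 idx : Fin K → Fin N,
      fT (cw μ) m fun w => ∑ s, b s w * Real.exp (theta q fun j => s (idx j))) -
      K * (𝔼 l : Fin K, 𝔼 idx : Fin K → Fin N, fT (cw μ) m fun w => ∑ s, b s w *
        siteFac q l (s (idx l)) fun j => x fun p => w p (slot j)) +
      (K - 1) * ((fT (cw μ) m fun w => ∑ s, b s w) +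
        fT (cw μ) m fun w : Fin (r + 1) → Fin K → A => fullFac q fun j => x fun p => w p j))
    (hM.2.2.1.mono fun q hq => by simp only [← hF q]; exact oneC_D hK hμ hm hx slot hb hq)] at e4
  have hCS : Integrable (fun q => (𝔼 idx : Fin K → Fin N,
      fT (cw μ) m fun w => ∑ s, b s w * Real.exp (theta q fun j => s (idx j))) -
      K * (𝔼 l : Fin K, 𝔼 idx : Fin K → Fin N, fT (cw μ) m fun w => ∑ s, b s w *
        siteFac q l (s (idx l)) fun j => x fun p => w p (slot j))) Q := hC.sub (hS.const_mul _)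
  have hYV : Integrable (fun q => (fT (cw μ) m fun w => ∑ s, b s w) +
      fT (cw μ) m fun w : Fin (r + 1) → Fin K → A => fullFac q fun j => x fun p => w p j) Q :=
    (integrable_const _).add hV
  rw [integral_add hCS (hYV.const_mul _), integral_sub hC (hS.const_mul _), integral_const_mul,
    integral_const_mul, integral_add (integrable_const _) hV] at e4
  rw [e1, e2]
  simp only [e3]
  rw [integral_add (hC.const_mul _) (integrable_const _), integral_const_mul]
  simp only [integral_const, probReal_univ, one_smul] at e4 ⊢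
  unfold vval
  have e5 := div_nonpos_of_nonpos_of_nonneg e4 hK0.le
  refine sub_nonpos.1 (le_of_eq_of_le ?_ e5)
  field_simp
  ring

end Vale.Agent.P168
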