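import Vale.Agent.P168.Ham

/-! P168 Split: decomposition of the Hamiltonian of size `N + 1`.
Plan. Let `ρ idx = Q.map (fun q s => theta q (s ∘ idx))`. Then `clauseLaw = 𝔼 idx, ρ idx`
(as measures: `(card)⁻¹ • ∑ idx, ρ idx`), `(clauseLaw N).map iota = N^(-K) ∑ idx, ρ (castSucc ∘ idx)`,
`cavLaw = (K N^K)⁻¹ ∑ l, ∑ idx, ρ (mrg l idx)`. With `c = lam (N+1)^(1-K)`, the three parts are
`c • ∑ ρ idx'` over the `idx'` hitting `last` zero times, exactly once, at least twice; each
`idx'` hitting `last` exactly once is `mrg l idx` for exactly one `l` and `N` values of `idx`.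
An easier route: define coefficient functions on `Fin K → Fin (N+1)`, show
`c0 idx' + c1 idx' ≤ c` and let `R = ∑ idx', (c - c0 - c1) • ρ idx'`; the total mass gives the
constant. `field_split`: `Measure.ext_of_charFunDual` or `measurePreserving_piFinSuccAbove`.
The limits: Bernoulli inequality and `(N/(N+1)) → 1`; `lam N - alphaN = lam N (1 - (N/(N+1))^(K-1))`
and `1 - y^(K-1) = (1 - y) ∑ i < K-1, y^i`. -/

open MeasureTheory ProbabilityTheory Function Filter Topology
open scoped BigOperators

noncomputable section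

namespace Vale.Agent.P168

def betaN (K : ℕ) (lam : ℝ) (N : ℕ) : ℝ := lam * K * ((N : ℝ) / (N + 1)) ^ (K - 1)

def lastLaw (Ph : Measure ℝ) (N : ℕ) : Measure (En (N + 1)) :=
  Ph.map fun h => fun s => h * spin (s (Fin.last N))

theorem split_mix {Θ D E : Type} [MeasurableSpace Θ] [MeasurableSpace E] [Fintype D]
    [MeasurableSpace D] [MeasurableSingletonClass D] (Q : Measure Θ) [IsProbabilityMeasure Q]
    (u : Measure D) [IsProbabilityMeasure u] {G : Θ × D → E} (hG : Measurable G) {a : ℝ}
    (ha : 0 ≤ a) : ENNReal.ofReal a • (Q.prod u).map G =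
      ∑ d, ENNReal.ofReal (a * u.real {d}) • Q.map fun q => G (q, d) := by
  ext s hs
  rw [Measure.smul_apply, Measure.map_apply hG hs, Measure.prod_apply_symm (hG hs),
    lintegral_fintype, Measure.finsetSum_apply, smul_eq_mul, Finset.mul_sum]
  refine Finset.sum_congr rfl fun d _ => ?_
  rw [Measure.smul_apply, Measure.map_apply (f := fun q => G (q, d))
    (hG.comp measurable_prodMk_right) hs, smul_eq_mul,
    ENNReal.ofReal_mul ha, ofReal_measureReal, mul_assoc, mul_comm (u {d})]
  rfl

theorem split_fib {D D' E : Type} [Fintype D] [Fintype D'] [DecidableEq D'] [MeasurableSpace E]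
    (f : D → D') {c : ℝ} (hc : 0 ≤ c) (ρ : D' → Measure E) :
    ∑ d, ENNReal.ofReal c • ρ (f d) =
      ∑ i, ENNReal.ofReal (c * (Finset.univ.filter fun d => f d = i).card) • ρ i := by
  rw [← Finset.sum_fiberwise Finset.univ f]
  refine Finset.sum_congr rfl fun i _ => ?_
  rw [Finset.sum_congr rfl fun d hd => by rw [(Finset.mem_filter.1 hd).2], Finset.sum_const,
    ← Nat.cast_smul_eq_nsmul ENNReal, smul_smul, ENNReal.ofReal_mul hc, ENNReal.ofReal_natCast,
    mul_comm]

theorem alpha_nonneg (K : ℕ) {lam : ℝ} (hlam : 0 ≤ lam) (N : ℕ) : 0 ≤ alphaN K lam N := by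
  unfold alphaN
  positivity

theorem clause_split {K : ℕ} (hK : 1 ≤ K) {Q : Measure (Par K)} {Ph : Measure ℝ}
    (hM : Model K Q Ph) {lam : ℝ} (hlam : 0 ≤ lam) {N : ℕ} (hN : 1 ≤ N) :
    ∃ R : Measure (En (N + 1)), IsFiniteMeasure R ∧ Integrable (fun y => ‖y‖) R ∧
      (∫ y, ‖y‖ ∂(R)) ≤ (lam * (N + 1) - alphaN K lam N - betaN K lam N) * (∫ q, ‖theta q‖ ∂Q) ∧
      ENNReal.ofReal (lam * ((N + 1 : ℕ) : ℝ)) • clauseLaw K Q (N + 1) =
        (ENNReal.ofReal (alphaN K lam N) • clauseLaw K Q N).map (iota N) +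
          ENNReal.ofReal (betaN K lam N) • cavLaw K Q N + R := by
  classical
  have := hM.1
  have : Nonempty (Fin N) := ⟨⟨0, hN⟩⟩
  have : Nonempty (Fin K) := ⟨⟨0, hK⟩⟩
  have := isProb_unif (D := Fin K → Fin N)
  have := isProb_unif (D := Fin K → Fin (N + 1))
  have := isProb_unif (D := Fin K)
  have hN0 : (0 : ℝ) < N := by exact_mod_cast hN
  have hK0 : (0 : ℝ) < K := by exact_mod_cast hK
  obtain ⟨k, rfl⟩ : ∃ k, K = k + 1 := ⟨K - 1, by omega⟩
  set G : (Fin (k + 1) → Fin (N + 1)) → Par (k + 1) → En (N + 1) :=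
    fun idx q s => theta q fun j => s (idx j) with hG
  have hGm : ∀ idx, Measurable (G idx) := fun idx =>
    (measurable_clause (N + 1)).comp (measurable_id.prodMk measurable_const)
  set ρ : (Fin (k + 1) → Fin (N + 1)) → Measure (En (N + 1)) := fun idx => Q.map (G idx) with hρ
  have hρs : ∀ idx, IsProbabilityMeasure (ρ idx) ∧ Integrable (fun y => ‖y‖) (ρ idx) ∧
      ∫ y, ‖y‖ ∂ρ idx ≤ ∫ q, ‖theta q‖ ∂Q := fun idx => by
    have h1 : Integrable (fun q => ‖G idx q‖) Q := (integrable_norm_theta hM).mono'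
      (hGm idx).norm.aestronglyMeasurable
      (ae_of_all _ fun q => by rw [norm_norm]; exact norm_clause_le q idx)
    refine ⟨Measure.isProbabilityMeasure_map (hGm idx).aemeasurable,
      (integrable_map_measure continuous_norm.aestronglyMeasurable (hGm idx).aemeasurable).2 h1, ?_⟩
    rw [hρ, integral_map (hGm idx).aemeasurable continuous_norm.aestronglyMeasurable]
    exact integral_mono h1 (integrable_norm_theta hM) fun q => norm_clause_le q idx
  set c : ℝ := lam / (N + 1) ^ k with hc
  have hc0 : 0 ≤ c := by positivity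
  set f0 : (Fin (k + 1) → Fin N) → Fin (k + 1) → Fin (N + 1) := fun idx j => (idx j).castSucc
    with hf0
  set f1 : (Fin (k + 1) → Fin N) × Fin (k + 1) → Fin (k + 1) → Fin (N + 1) :=
    fun d => mrg d.2 d.1 with hf1
  set n0 : (Fin (k + 1) → Fin (N + 1)) → ℕ :=
    fun i => (Finset.univ.filter fun d => f0 d = i).card with hn0
  set n1 : (Fin (k + 1) → Fin (N + 1)) → ℕ :=
    fun i => (Finset.univ.filter fun d => f1 d = i).card with hn1
  have hcnt : ∀ i, N * n0 i + n1 i ≤ N := fun i => by
    by_cases h : ∃ d, f0 d = i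
    · obtain ⟨d, rfl⟩ := h
      have h1 : n1 (f0 d) = 0 := by
        rw [hn1, Finset.card_eq_zero, Finset.filter_eq_empty_iff]
        intro d' _ h
        have := congrFun h d'.2
        simp only [hf1, hf0, mrg, if_true] at this
        exact (Fin.castSucc_lt_last _).ne this.symm
      have h2 : n0 (f0 d) ≤ 1 := Finset.card_le_one.2 fun a ha b hb => by
        have := (Finset.mem_filter.1 ha).2.trans (Finset.mem_filter.1 hb).2.symm
        exact funext fun j => Fin.castSucc_injective _ (congrFun this j)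
      nlinarith
    · have h1 : n0 i = 0 := by
        rw [hn0, Finset.card_eq_zero, Finset.filter_eq_empty_iff]
        exact fun d _ hd => h ⟨d, hd⟩
      rw [h1, mul_zero, zero_add]
      refine (Finset.card_le_card_of_injOn (t := Finset.univ) (fun d => d.1 d.2)
        (fun _ _ => Finset.mem_univ _) ?_).trans (by simp)
      rintro ⟨a, l⟩ ha ⟨b, l'⟩ hb hab
      have e := (Finset.mem_filter.1 ha).2.trans (Finset.mem_filter.1 hb).2.symm
      obtain rfl : l = l' := by
        by_contra hne
        have := congrFun e l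
        simp only [hf1, mrg, if_true, if_neg hne] at this
        exact (Fin.castSucc_lt_last _).ne this.symm
      refine Prod.ext (funext fun j => ?_) rfl
      by_cases hj : j = l
      · rw [hj]
        exact hab
      · have := congrFun e j
        simp only [hf1, mrg, if_neg hj] at this
        exact Fin.castSucc_injective _ this
  set r : (Fin (k + 1) → Fin (N + 1)) → ℝ := fun i => c - c * n0 i - c / N * n1 i with hr
  have hr0 : ∀ i, 0 ≤ r i := fun i => by
    have h1 : (N : ℝ) * n0 i + n1 i ≤ N := by exact_mod_cast hcnt i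
    have h2 : r i = c / N * (N - (N * n0 i + n1 i)) := by
      simp only [hr]
      field_simp
      ring
    rw [h2]
    exact mul_nonneg (by positivity) (by linarith)
  have hsum : ∑ i, r i = lam * (N + 1) - alphaN (k + 1) lam N - betaN (k + 1) lam N := by
    have h0 : ∑ i, n0 i = N ^ (k + 1) := by
      rw [← Finset.card_eq_sum_card_fiberwise fun _ _ => Finset.mem_univ _]
      simp
    have h1 : ∑ i, n1 i = N ^ (k + 1) * (k + 1) := by
      rw [← Finset.card_eq_sum_card_fiberwise fun _ _ => Finset.mem_univ _]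
      simp
    simp only [hr, Finset.sum_sub_distrib, ← Finset.mul_sum, ← Nat.cast_sum, h0, h1,
      Finset.sum_const, Finset.card_univ, Fintype.card_fun, Fintype.card_fin, nsmul_eq_mul,
      alphaN, betaN, hc, Nat.add_sub_cancel, div_pow]
    push_cast
    field_simp
    ring
  have hint : ∀ i ∈ Finset.univ, Integrable (fun y => ‖y‖) (ENNReal.ofReal (r i) • ρ i) :=
    fun i _ => (hρs i).2.1.smul_measure ENNReal.ofReal_ne_top
  refine ⟨∑ i, ENNReal.ofReal (r i) • ρ i, ⟨?_⟩, integrable_finsetSum_measure.2 hint, ?_, ?_⟩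
  · rw [Measure.finsetSum_apply]
    refine ENNReal.sum_lt_top.2 fun i _ => ?_
    have := (hρs i).1
    simp
  · rw [integral_finsetSum_measure hint, ← hsum, Finset.sum_mul]
    refine Finset.sum_le_sum fun i _ => ?_
    rw [integral_smul_measure, ENNReal.toReal_ofReal (hr0 i), smul_eq_mul]
    exact mul_le_mul_of_nonneg_left (hρs i).2.2 (hr0 i)
  · have a0 := (alpha_nonneg (k + 1) hlam N)
    have e0 : ENNReal.ofReal (lam * ((N + 1 : ℕ) : ℝ)) • clauseLaw (k + 1) Q (N + 1) =
        ∑ i, ENNReal.ofReal c • ρ i := by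
      rw [clauseLaw, split_mix _ _ (measurable_clause _) (by positivity)]
      refine Finset.sum_congr rfl fun i _ => ?_
      rw [real_unif_singleton]
      congr 2
      simp only [hc, Fintype.card_fun, Fintype.card_fin]
      push_cast
      field_simp
      ring
    have e1 : (ENNReal.ofReal (alphaN (k + 1) lam N) • clauseLaw (k + 1) Q N).map (iota N) =
        ∑ d, ENNReal.ofReal c • ρ (f0 d) := by
      rw [Measure.map_smul, clauseLaw,
        Measure.map_map (iota N).continuous.measurable (measurable_clause _),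
        split_mix _ _ ((iota N).continuous.measurable.comp (measurable_clause _)) a0]
      refine Finset.sum_congr rfl fun i _ => ?_
      rw [real_unif_singleton]
      congr 2
      simp only [hc, alphaN, Fintype.card_fun, Fintype.card_fin, div_pow]
      push_cast
      field_simp
      ring
    have e2 : ENNReal.ofReal (betaN (k + 1) lam N) • cavLaw (k + 1) Q N =
        ∑ d, ENNReal.ofReal (c / N) • ρ (f1 d) := by
      rw [cavLaw, QE, split_mix _ _ (measurable_cav _) (by unfold betaN; positivity)]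
      refine Finset.sum_congr rfl fun i _ => ?_
      rw [← Set.singleton_prod_singleton, measureReal_prod_prod, real_unif_singleton,
        real_unif_singleton]
      congr 2
      simp only [hc, betaN, Fintype.card_fun, Fintype.card_fin, div_pow, Nat.add_sub_cancel]
      push_cast
      field_simp
      ring
    rw [e0, e1, e2, split_fib f0 hc0, split_fib f1 (by positivity), ← Finset.sum_add_distrib,
      ← Finset.sum_add_distrib]
    refine Finset.sum_congr rfl fun i _ => ?_
    rw [← add_smul, ← add_smul, ← ENNReal.ofReal_add (by positivity) (by positivity),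
      ← ENNReal.ofReal_add (by positivity) (hr0 i)]
    congr 2
    simp only [hr, hn0, hn1]
    ring

theorem field_split {K : ℕ} {Q : Measure (Par K)} {Ph : Measure ℝ} (hM : Model K Q Ph) (N : ℕ) :
    IsProbabilityMeasure (lastLaw Ph N) ∧ Integrable (fun y => ‖y‖) (lastLaw Ph N) ∧
      fieldLaw Ph (N + 1) = ((fieldLaw Ph N).map (iota N)).conv (lastLaw Ph N) := by
  have := hM.2.1
  have hF : ∀ n, Measurable fun (h : Fin n → ℝ) => (fun s => ∑ i, h i * spin (s i) : En n) :=
    fun n => by fun_prop
  have hG : Measurable fun h : ℝ => (fun s => h * spin (s (Fin.last N)) : En (N + 1)) := by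
    fun_prop
  have h1 : IsProbabilityMeasure (lastLaw Ph N) := Measure.isProbabilityMeasure_map hG.aemeasurable
  refine ⟨h1, (integrable_map_measure continuous_norm.aestronglyMeasurable hG.aemeasurable).2
    (hM.2.2.2.2.norm.mono' hG.norm.aestronglyMeasurable (ae_of_all _ fun h => ?_)), ?_⟩
  · rw [Function.comp_apply, norm_norm]
    refine (pi_norm_le_iff_of_nonneg (norm_nonneg _)).2 fun s => ?_
    rw [norm_mul, Real.norm_eq_abs (spin _), abs_spin, mul_one]
  · have := (fieldLaw_spec hM N).1
    have hi := (iota N).continuous.measurable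
    rw [Measure.conv_comm]
    unfold Measure.conv lastLaw fieldLaw
    rw [Measure.map_map hi (hF N), Measure.map_prod_map _ _ hG (hi.comp (hF N)),
      ← (measurePreserving_piFinSuccAbove (fun _ : Fin (N + 1) => Ph) (Fin.last N)).map_eq,
      Measure.map_map (hG.prodMap (hi.comp (hF N))) (MeasurableEquiv.measurable _),
      Measure.map_map measurable_add
        ((hG.prodMap (hi.comp (hF N))).comp (MeasurableEquiv.measurable _))]
    congr 1
    funext h s
    simp [iota, Fin.sum_univ_castSucc, Fin.init, add_comm]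

theorem split_alpha (k : ℕ) (lam : ℝ) (N : ℕ) :
    alphaN (k + 1) lam N = lam * N * ((N : ℝ) / (N + 1)) ^ k := by
  rw [alphaN, pow_succ]
  field_simp

theorem alpha_beta_bounds {K : ℕ} (hK : 1 ≤ K) {lam : ℝ} (hlam : 0 ≤ lam) (N : ℕ) :
    0 ≤ alphaN K lam N ∧ alphaN K lam N ≤ lam * N ∧ lam * N - alphaN K lam N ≤ (K - 1) * lam ∧
      0 ≤ betaN K lam N ∧ betaN K lam N ≤ K * lam := by
  obtain ⟨k, rfl⟩ : ∃ k, K = k + 1 := ⟨K - 1, by omega⟩
  have hy0 : (0 : ℝ) ≤ N / (N + 1) := by positivity
  have hy1 : (N : ℝ) / (N + 1) ≤ 1 := by rw [div_le_one (by positivity)]; linarith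
  have hp := pow_le_one₀ (n := k) hy0 hy1
  have hb := one_add_mul_le_pow (a := (N : ℝ) / (N + 1) - 1) (by linarith) k
  rw [add_sub_cancel] at hb
  have hN : (N : ℝ) * (1 - N / (N + 1)) = N / (N + 1) := by field_simp; ring
  have hl : 0 ≤ lam * N := by positivity
  have hk : 0 ≤ lam * k := by positivity
  refine ⟨alpha_nonneg _ hlam N, ?_, ?_, by unfold betaN; positivity, ?_⟩
  · rw [split_alpha]
    nlinarith
  · rw [split_alpha]
    push_cast
    have h1 := mul_le_mul_of_nonneg_left hb hl
    have h2 := mul_le_mul_of_nonneg_left hy1 hk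
    rw [← hN] at h2
    nlinarith
  · unfold betaN
    rw [Nat.add_sub_cancel, mul_comm _ lam]
    exact mul_le_of_le_one_right (by positivity) hp

theorem alpha_beta_tendsto {K : ℕ} (hK : 1 ≤ K) (lam : ℝ) :
    Tendsto (fun N : ℕ => (K - 1) * lam - (lam * N - alphaN K lam N)) atTop (𝓝 0) ∧
    Tendsto (fun N : ℕ => K * lam - betaN K lam N) atTop (𝓝 0) ∧
    Tendsto (fun N : ℕ => lam * (N + 1) - alphaN K lam N - betaN K lam N) atTop (𝓝 0) := by
  obtain ⟨k, rfl⟩ : ∃ k, K = k + 1 := ⟨K - 1, by omega⟩
  have hy : Tendsto (fun N : ℕ => (N : ℝ) / (N + 1)) atTop (𝓝 1) := tendsto_natCast_div_add_atTop 1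
  have h1 : Tendsto (fun N : ℕ => lam * N - alphaN (k + 1) lam N) atTop (𝓝 (k * lam)) := by
    have h := (hy.mul (tendsto_finsetSum (Finset.range k) fun i _ => hy.pow i)).const_mul lam
    simp only [one_pow, Finset.sum_const, Finset.card_range, nsmul_eq_mul, mul_one, one_mul] at h
    rw [mul_comm]
    refine h.congr fun N => ?_
    have e := mul_neg_geom_sum ((N : ℝ) / (N + 1)) k
    have hN : (N : ℝ) * (1 - N / (N + 1)) = N / (N + 1) := by field_simp; ring
    rw [split_alpha, ← mul_one_sub, ← e, mul_assoc, ← mul_assoc (N : ℝ), hN]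
  have h2 : Tendsto (fun N : ℕ => betaN (k + 1) lam N) atTop (𝓝 ((k + 1) * lam)) := by
    have h := (hy.pow k).const_mul (lam * ((k + 1 : ℕ) : ℝ))
    rw [one_pow, mul_one, mul_comm, Nat.cast_succ] at h
    refine h.congr fun N => ?_
    rw [betaN, Nat.add_sub_cancel, Nat.cast_succ, mul_comm lam]
  refine ⟨?_, ?_, ?_⟩
  · have := h1.const_sub ((((k + 1 : ℕ) : ℝ) - 1) * lam)
    rwa [show (((k + 1 : ℕ) : ℝ) - 1) * lam - k * lam = 0 by push_cast; ring] at this
  · have := h2.const_sub (((k + 1 : ℕ) : ℝ) * lam)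
    rwa [show ((k + 1 : ℕ) : ℝ) * lam - (k + 1) * lam = 0 by push_cast; ring] at this
  · have := (h1.const_add lam).sub h2
    rw [show lam + k * lam - (k + 1) * lam = 0 by ring] at this
    exact this.congr fun N => by ring

end Vale.Agent.P168
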