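import Vale.Agent.P168.Disc
import Vale.Agent.P168.HistB

/-! P168 Trans: the discretised pattern is the Markov chain of histories.
Plan. `level t` is monotone and `p ≤ level t x ↔ p = 0 ∨ t (p-1) ≤ x` (`StrictMono t`), so
`ν.real {p ≤ level t (Rt 0 1)} = 1 - mm m p` for `p ≤ r`, and `up_tau` follows from `ultra`.
`ext_unique`: strong downward induction on the maximum `p` of `π`: among patterns of the form
`min p' (d l' ·)`, those with `p ≤ π l` are `min p (d l ·)` and patterns with larger maximum.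
`trans_set`: let `E0 = E ∩ {tau (n+1) = d}`, `a π = ν.real (E0 ∩ {new = π})`,
`b π = kap m d π * ν.real E0`; both vanish outside the extensions (`up_tau`, `up_eq_extPat`), and
the marginals agree by `ggi` (with `n + 1` old replicas, `S = {x | p ≤ level t x}`) and `kap_marg`.
`{tau (n+2) = extPat r d π} = {tau (n+1) = d} ∩ {new = π}` holds everywhere (symmetry of `Rt`,
`extPat_inj`). `trans_fun`: the two finite measures `(ν.restrict _).map (res (n+1))` and
`ofReal kap • (ν.restrict _).map (res (n+1))` agree by `trans_set` with `E = res (n+1) ⁻¹' A`. -/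

open MeasureTheory ProbabilityTheory Function Filter Topology
open scoped BigOperators

noncomputable section

namespace Vale.Agent.P168

variable {ν : Measure X} {r : ℕ}

theorem trans_level_mono (t : Fin r → ℝ) {x y : ℝ} (h : x ≤ y) : level t x ≤ level t y :=
  Finset.card_le_card fun p hp => by
    rw [Finset.mem_filter] at hp ⊢
    exact ⟨hp.1, hp.2.trans h⟩

theorem trans_le_level {t : Fin r → ℝ} (ht : StrictMono t) (q : Fin r) (x : ℝ) :
    (q : ℕ) + 1 ≤ level t x ↔ t q ≤ x := by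
  constructor
  · intro h
    by_contra h1
    have h2 : level t x ≤ (Finset.Iio q).card := Finset.card_le_card fun p hp => by
      rw [Finset.mem_filter] at hp
      exact Finset.mem_Iio.2 (ht.lt_iff_lt.1 (hp.2.trans_lt (not_le.1 h1)))
    rw [Fin.card_Iio] at h2
    omega
  · intro h
    rw [← Fin.card_Iic]
    exact Finset.card_le_card fun p hp => Finset.mem_filter.2
      ⟨Finset.mem_univ _, (ht.monotone (Finset.mem_Iic.1 hp)).trans h⟩

theorem trans_meas_level (t : Fin r → ℝ) : Measurable (level t) :=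
  Monotone.measurable fun _ _ h => trans_level_mono t h

theorem isF_tau (t : Fin r → ℝ) (n : ℕ) (d : Fin n → Fin n → ℕ) : IsF n {ω | tau t n ω = d} := by
  refine ⟨measurable_tau t n (measurableSet_singleton d), fun ω => ?_⟩
  have h : tau t n (res n ω) = tau t n ω := by
    funext i j
    unfold tau
    rw [pair_Rt.2.2.2.1 n i j ω i.2 j.2]
  simp only [Set.mem_ofPred_eq, h]

theorem up_tau (h : Str ν) (t : Fin r → ℝ) (n : ℕ) : ∀ᵐ ω ∂ν, UP r (tau t n ω) := by
  filter_upwards [ultra h wts_w0] with ω hω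
  have hs : ∀ i j, tau t n ω i j = tau t n ω j i := by
    intro i j
    unfold tau
    rw [pair_Rt.2.1 i j ω]
    simp only [eq_comm]
  refine ⟨fun i => if_pos rfl, hs, tau_le t n ω, fun i j k => ?_⟩
  by_cases hij : i = j
  · subst hij
    exact (min_le_left _ _).trans ((tau_le t n ω _ _).trans (if_pos rfl).ge)
  by_cases hik : i = k
  · subst hik
    exact (min_le_right _ _).trans (hs _ _).le
  by_cases hjk : j = k
  · subst hjk
    exact min_le_left _ _
  unfold tau
  rw [if_neg hij, if_neg hik, if_neg hjk]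
  rcases min_le_iff.1 (hω i j k (Fin.val_ne_of_ne hij) (Fin.val_ne_of_ne hik)
    (Fin.val_ne_of_ne hjk)) with h1 | h1
  · exact (min_le_left _ _).trans (trans_level_mono t h1)
  · exact (min_le_right _ _).trans (trans_level_mono t h1)

theorem tau_succ (t : Fin r → ℝ) (n : ℕ) (ω : X) :
    tau t (n + 1) ω = extPat r (tau t n ω) fun l => level t (Rt l n ω) := by
  funext i j
  unfold extPat
  refine Fin.lastCases ?_ (fun i' => ?_) i <;> refine Fin.lastCases ?_ (fun j' => ?_) j <;>
    simp only [Fin.snoc_last, Fin.snoc_castSucc]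
  · exact if_pos rfl
  · unfold tau
    rw [if_neg (Fin.castSucc_lt_last j').ne', pair_Rt.2.1]
    rfl
  · unfold tau
    rw [if_neg (Fin.castSucc_lt_last i').ne]
    rfl
  · unfold tau
    simp only [Fin.castSucc_inj, Fin.val_castSucc]

theorem ext_unique {n : ℕ} {d : Fin (n + 1) → Fin (n + 1) → ℕ} (hd : UP r d)
    (A : Finset (Fin (n + 1) → ℕ))
    (hA : ∀ π ∈ A, ∃ (l : Fin (n + 1)) (p : ℕ), p ≤ r ∧ π = fun l' => min p (d l l'))
    (a b : (Fin (n + 1) → ℕ) → ℝ)
    (hab : ∀ (l : Fin (n + 1)) (p : ℕ), p ≤ r →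
      ∑ π ∈ A.filter (fun π => p ≤ π l), a π = ∑ π ∈ A.filter (fun π => p ≤ π l), b π) :
    ∀ π ∈ A, a π = b π := by
  classical
  have key : ∀ (k : ℕ) (l : Fin (n + 1)) (p : ℕ), r - p = k → p ≤ r →
      (fun l' => min p (d l l')) ∈ A → a (fun l' => min p (d l l')) = b fun l' => min p (d l l') := by
    intro k
    induction k using Nat.strong_induction_on with
    | _ k ih =>
      intro l p hk hp hm
      have h1 : (fun l' => min p (d l l')) ∈ A.filter fun π => p ≤ π l :=
        Finset.mem_filter.2 ⟨hm, by simp only [hd.1 l]; omega⟩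
      have h2 := hab l p hp
      rw [← Finset.add_sum_erase _ _ h1, ← Finset.add_sum_erase _ _ h1] at h2
      have h3 : ∑ π ∈ (A.filter fun π => p ≤ π l).erase fun l' => min p (d l l'), a π =
          ∑ π ∈ (A.filter fun π => p ≤ π l).erase fun l' => min p (d l l'), b π := by
        refine Finset.sum_congr rfl fun π hπ => ?_
        obtain ⟨h4, h5⟩ := Finset.mem_erase.1 hπ
        obtain ⟨h5, h6⟩ := Finset.mem_filter.1 h5
        obtain ⟨l', p', hp', rfl⟩ := hA π h5
        have h7 : p ≤ p' := h6.trans (min_le_left _ _)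
        have h8 : p ≤ d l' l := h6.trans (min_le_right _ _)
        refine ih (r - p') ?_ l' p' rfl hp' h5
        rcases h7.eq_or_lt with h9 | h9
        · exfalso
          apply h4
          funext j
          have a1 := hd.2.2.2 l' j l
          have a2 := hd.2.2.2 l j l'
          have a3 := hd.2.1 l l'
          have a4 := hd.2.1 l j
          have a5 := hd.2.1 l' j
          omega
        · omega
      linarith
  intro π hπ
  obtain ⟨l, p, hp, rfl⟩ := hA π hπ
  exact key _ l p rfl hp hπ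

theorem trans_thr (h : Str ν) {t m : Fin r → ℝ} (ht : Thr ν t m) {p : ℕ} (hp : p ≤ r) :
    ν.real {ω | Rt 0 1 ω ∈ {x | p ≤ level t x}} = 1 - mm m p := by
  have := h.1
  rcases p with _ | q
  · simp [mm]
  · have e : {ω | Rt 0 1 ω ∈ {x | q + 1 ≤ level t x}} = {ω | Rt 0 1 ω < t ⟨q, hp⟩}ᶜ := by
      ext ω
      simp only [Set.mem_ofPred_eq, Set.mem_compl_iff, not_lt]
      exact trans_le_level ht.1 ⟨q, hp⟩ _
    rw [e, probReal_compl_eq_one_sub (measurableSet_lt (pair_Rt.1 0 1) measurable_const),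
      ← ht.2.2]
    have hq : q < r := hp
    simp [mm, hq]

theorem trans_marg (h : Str ν) {t m : Fin r → ℝ} (ht : Thr ν t m) {n : ℕ} {E : Set X}
    (hE : IsF (n + 1) E) {d : Fin (n + 1) → Fin (n + 1) → ℕ} (hEd : ∀ ω ∈ E, tau t (n + 1) ω = d)
    (l : Fin (n + 1)) {p : ℕ} (hp : p ≤ r) :
    ((n : ℝ) + 1) * ν.real (E ∩ {ω | p ≤ level t (Rt l (n + 1) ω)}) =
      ((((Finset.univ.erase l).filter fun l' => p ≤ d l l').card : ℝ) + (1 - mm m p)) *
        ν.real E := by
  have h1 := ggi h pair_Rt l.2 hE (S := {x | p ≤ level t x})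
    (trans_meas_level t (MeasurableSet.of_discrete (s := {k | p ≤ k})))
  rw [trans_thr h ht hp, Finset.sum_erase_eq_sub (Finset.mem_range.2 l.2),
    ← Fin.sum_univ_eq_sum_range (fun l' => ν.real (E ∩ {ω | Rt l l' ω ∈ {x | p ≤ level t x}})),
    ← Finset.sum_erase_eq_sub (f := fun l' : Fin (n + 1) =>
      ν.real (E ∩ {ω | Rt l l' ω ∈ {x | p ≤ level t x}})) (Finset.mem_univ l)] at h1
  have h2 : ∀ l' ∈ Finset.univ.erase l, ν.real (E ∩ {ω | Rt l l' ω ∈ {x | p ≤ level t x}}) =
      if p ≤ d l l' then ν.real E else 0 := by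
    intro l' hl'
    have h3 : ∀ ω ∈ E, level t (Rt l l' ω) = d l l' := by
      intro ω hω
      rw [← hEd ω hω]
      unfold tau
      rw [if_neg (Finset.ne_of_mem_erase hl').symm]
    split_ifs with h4
    · rw [Set.inter_eq_left.2 fun ω hω => by
        simp only [Set.mem_ofPred_eq, h3 ω hω, h4]]
    · rw [Set.eq_empty_of_forall_notMem (s := E ∩ {ω | Rt l l' ω ∈ {x | p ≤ level t x}})
        fun ω hω => h4 (h3 ω hω.1 ▸ hω.2), measureReal_empty]
  rw [Finset.sum_congr rfl h2, ← Finset.sum_filter, Finset.sum_const, nsmul_eq_mul] at h1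
  push_cast at h1
  exact h1.trans (by ring)

theorem trans_kap_sum {m : Fin r → ℝ} {n : ℕ} (d : Fin (n + 1) → Fin (n + 1) → ℕ)
    (A : Finset (Fin (n + 1) → ℕ))
    (hA : ∀ (l : Fin (n + 1)) (p : Fin (r + 1)), (fun l' => min (p : ℕ) (d l l')) ∈ A)
    (l : Fin (n + 1)) (p : ℕ) :
    ((n : ℝ) + 1) * ∑ π ∈ A.filter (fun π => p ≤ π l), kap m d π =
      ∑ l' : Fin (n + 1), ∑ p' : Fin (r + 1),
        acoef m (jlev d l') p' * (if p ≤ min (p' : ℕ) (d l' l) then 1 else 0) := by
  unfold kap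
  rw [Finset.sum_comm, Finset.mul_sum]
  refine Finset.sum_congr rfl fun l' _ => ?_
  rw [Finset.sum_comm, Finset.mul_sum]
  refine Finset.sum_congr rfl fun p' _ => ?_
  rw [← Finset.mul_sum, Finset.sum_ite_eq']
  simp only [Finset.mem_filter, hA l' p', true_and]
  field_simp

theorem trans_kap_nonneg {m : Fin r → ℝ} (hm : Adm m) {n : ℕ} (d : Fin (n + 1) → Fin (n + 1) → ℕ)
    (π : Fin (n + 1) → ℕ) : 0 ≤ kap m d π :=
  Finset.sum_nonneg fun l _ => Finset.sum_nonneg fun p _ =>
    mul_nonneg (div_nonneg (acoef_nonneg hm _ _) (by positivity)) (by split_ifs <;> norm_num)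

theorem trans_set (h : Str ν) {t m : Fin r → ℝ} (ht : Thr ν t m) {n : ℕ} {E : Set X}
    (hE : IsF (n + 1) E) {d : Fin (n + 1) → Fin (n + 1) → ℕ} (hd : UP r d) (π : Fin (n + 1) → ℕ) :
    ν.real (E ∩ {ω | tau t (n + 2) ω = extPat r d π}) =
      kap m d π * ν.real (E ∩ {ω | tau t (n + 1) ω = d}) := by
  classical
  have := h.1
  obtain ⟨nw, hnw⟩ : ∃ nw : X → Fin (n + 1) → ℕ, ∀ ω l, nw ω l = level t (Rt l (n + 1) ω) :=
    ⟨_, fun _ _ => rfl⟩
  have hm : Measurable nw := measurable_pi_lambda _ fun l => by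
    simp only [hnw]
    exact (trans_meas_level t).comp (pair_Rt.1 _ _)
  have hs : ∀ ω, tau t (n + 2) ω = extPat r (tau t (n + 1) ω) (nw ω) := fun ω => by
    rw [tau_succ, funext (hnw ω)]
  obtain ⟨E0, hE0⟩ : ∃ E0, E0 = E ∩ {ω | tau t (n + 1) ω = d} := ⟨_, rfl⟩
  have hF : IsF (n + 1) E0 := hE0 ▸ hE.inter (isF_tau t _ d)
  have hEd : ∀ ω ∈ E0, tau t (n + 1) ω = d := fun ω hω => (hE0 ▸ hω).2
  have e1 : E ∩ {ω | tau t (n + 2) ω = extPat r d π} = nw ⁻¹' {π} ∩ E0 := by
    rw [hE0]
    ext ω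
    simp only [Set.mem_inter_iff, Set.mem_ofPred_eq, Set.mem_preimage, Set.mem_singleton_iff, hs]
    constructor
    · rintro ⟨h1, h2⟩
      exact ⟨(extPat_inj h2).2, h1, (extPat_inj h2).1⟩
    · rintro ⟨h1, h2, h3⟩
      exact ⟨h2, by rw [h1, h3]⟩
  rw [e1, ← hE0]
  obtain ⟨A, hA⟩ : ∃ A : Finset (Fin (n + 1) → ℕ), ∀ π, π ∈ A ↔
      ∃ (l : Fin (n + 1)) (p : Fin (r + 1)), π = fun l' => min (p : ℕ) (d l l') :=
    ⟨Finset.univ.image fun x : Fin (n + 1) × Fin (r + 1) => fun l' => min (x.2 : ℕ) (d x.1 l'),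
      fun π => by simp [eq_comm]⟩
  have hae : ∀ᵐ ω ∂ν, ω ∈ E0 → nw ω ∈ A := by
    filter_upwards [up_tau h t (n + 2)] with ω hω h0
    obtain ⟨-, l, p, h1, -⟩ := up_eq_extPat hω
    rw [hs, hEd ω h0] at h1
    simp only [extPat, Fin.snoc_castSucc, Fin.snoc_last] at h1
    exact (hA _).2 ⟨l, p, h1⟩
  by_cases hπ : π ∈ A
  · refine ext_unique hd A (fun π hπ => ?_) (fun π => ν.real (nw ⁻¹' {π} ∩ E0))
      (fun π => kap m d π * ν.real E0) (fun l p hp => ?_) π hπ
    · obtain ⟨l, p, h1⟩ := (hA π).1 hπ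
      exact ⟨l, p, Nat.lt_succ_iff.1 p.2, h1⟩
    · have h1 := sum_measureReal_preimage_singleton (μ := ν.restrict E0)
        (A.filter fun π => p ≤ π l) (f := nw) fun π _ => hm (measurableSet_singleton π)
      rw [measureReal_restrict_apply (hm (Finset.measurableSet _))] at h1
      have h2 : ν.real (nw ⁻¹' (A.filter fun π => p ≤ π l) ∩ E0) =
          ν.real (E0 ∩ {ω | p ≤ level t (Rt l (n + 1) ω)}) := by
        refine measureReal_congr ?_
        filter_upwards [hae] with ω hω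
        refine propext ⟨fun h3 => ⟨h3.2, ?_⟩, fun h3 => ⟨?_, h3.1⟩⟩
        · exact (Finset.mem_filter.1 h3.1).2.trans (hnw ω l).le
        · exact Finset.mem_filter.2 ⟨hω h3.1, (hnw ω l).symm ▸ h3.2⟩
      have h3 := trans_marg h ht hF hEd l hp
      have h4 := trans_kap_sum (m := m) d A (fun l p => (hA _).2 ⟨l, p, rfl⟩) l p
      rw [kap_marg hd l hp] at h4
      rw [← h4, ← h2, ← h1, mul_assoc] at h3
      rw [← Finset.sum_mul, ← mul_left_cancel₀ (by positivity) h3]
      exact Finset.sum_congr rfl fun π _ =>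
        (measureReal_restrict_apply (hm (measurableSet_singleton π))).symm
  · have h1 : kap m d π = 0 := Finset.sum_eq_zero fun l _ => Finset.sum_eq_zero fun p _ => by
      rw [if_neg fun h2 => hπ ((hA π).2 ⟨l, p, h2⟩), mul_zero]
    rw [h1, zero_mul, ← measureReal_empty (μ := ν)]
    refine measureReal_congr ?_
    filter_upwards [hae] with ω hω
    exact propext ⟨fun h3 => hπ (h3.1 ▸ hω h3.2), fun h3 => h3.elim⟩

theorem trans_fun (h : Str ν) {t m : Fin r → ℝ} (ht : Thr ν t m) {n : ℕ} {f : X → ℝ}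
    (hf : IsFf (n + 1) f) {d : Fin (n + 1) → Fin (n + 1) → ℕ} (hd : UP r d) (π : Fin (n + 1) → ℕ) :
    ∫ ω in {ω | tau t (n + 2) ω = extPat r d π}, f ω ∂ν =
      kap m d π * ∫ ω in {ω | tau t (n + 1) ω = d}, f ω ∂ν := by
  have := h.1
  have hk := trans_kap_nonneg ht.2.1 d π
  have e : ∀ A : Set X, ∫ ω in A, f ω ∂ν = ∫ ω, f ω ∂((ν.restrict A).map (res (n + 1))) := by
    intro A
    rw [integral_map (measurable_res _).aemeasurable hf.1.aestronglyMeasurable]
    simp only [hf.2.2]
  have hμ : (ν.restrict {ω | tau t (n + 2) ω = extPat r d π}).map (res (n + 1)) =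
      ENNReal.ofReal (kap m d π) • (ν.restrict {ω | tau t (n + 1) ω = d}).map (res (n + 1)) := by
    ext s hs
    have h1 : IsF (n + 1) (res (n + 1) ⁻¹' s) :=
      ⟨measurable_res _ hs, fun ω => by simp only [Set.mem_preimage, res_res le_rfl]⟩
    rw [Measure.smul_apply, Measure.map_apply (measurable_res _) hs,
      Measure.map_apply (measurable_res _) hs, Measure.restrict_apply h1.1,
      Measure.restrict_apply h1.1, smul_eq_mul, ← ofReal_measureReal, trans_set h ht h1 hd π,
      ENNReal.ofReal_mul hk, ofReal_measureReal]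
  rw [e, e, hμ, integral_smul_measure, ENNReal.toReal_ofReal hk, smul_eq_mul]

end Vale.Agent.P168
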