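import Vale.Agent.P168.LemD
import Vale.Agent.P168.Extreme

/-! P168 Ultra: ultrametricity, synchronisation, Hoelder bound.
Plan. `ultra`: `lemD` with `p = 1`, `B = kern w`, `x l = kern w 0 l`; the form `QF` for `kern w` is
`∑' u, w u * QF_u + (1 - ∑' w) (t^2 + card G)` with `QF_u` from `Good` for `c = single 0 a`
(support inside `{0}`). With `β = β' = B 1 2`: if `B 1 2` is the largest of the three values then
`B 0 1 = B 0 2`. Transport to all distinct triples by `ae_act` and
`Equiv.Perm.exists_extending_pair` (countably many triples), then case analysis on the largest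
value. `sync`: let `u = (s,a)`, `w1 = w0` restricted to `{u}`, `w2 = w0 - w1`, so
`Rt = kern w1 + kern w2`, `kern w1 = w0 u * Bu`. If `Bu i j > Bu i k` and
`kern w2 i j < kern w2 i k` then ultrametricity of `kern w1`, `kern w2` gives
`Bu j k = Bu i k`, `kern w2 j k = kern w2 i j`, so `Rt j k < min (Rt i j) (Rt i k)`, impossible.
`holder`: `lemD` with `B = Bu`, `x l = co s (c + single l a)`,
`β = β' = B p (p+1) + δ / w0 u`: by `sync` and `ultra` for `Rt`,
`w0 u (B p i - B p (p+1)) ≤ max 0 (Rt p i - Rt p (p+1)) ≤ δ`; `L = 2 / w0 u`. -/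

open MeasureTheory ProbabilityTheory Function Filter Topology
open scoped BigOperators

noncomputable section

namespace Vale.Agent.P168

variable {ν : Measure X}

theorem ultra_w0_pos (u : ℕ × ℕ) : 0 < w0 u := by
  unfold w0
  positivity

theorem wts_w0 : Wts w0 :=
  ⟨fun u => (ultra_w0_pos u).le, summable_w0.1, summable_w0.2⟩

theorem ultra_supp {n i j a : ℕ} (hi : i < n) (hj : j < n) :
    ∀ l ∈ (Finsupp.single i a + Finsupp.single j a : ℕ →₀ ℕ).support, l < n := by
  intro l hl
  have h1 := Finsupp.support_add hl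
  rcases Finset.mem_union.1 h1 with h2 | h2
  · have := Finsupp.support_single_subset h2
    rw [Finset.mem_singleton] at this
    omega
  · have := Finsupp.support_single_subset h2
    rw [Finset.mem_singleton] at this
    omega

theorem ultra_bd {w : ℕ × ℕ → ℝ} (hw : Wts w) (u : ℕ × ℕ) (c : ℕ →₀ ℕ) (ω : X) :
    ‖w u * co u.1 c ω‖ ≤ w u := by
  rw [norm_mul, Real.norm_eq_abs, Real.norm_eq_abs, abs_of_nonneg (hw.1 u)]
  exact mul_le_of_le_one_right (hw.1 u) (abs_co_le _ _ _)

theorem ultra_hasSum {w : ℕ × ℕ → ℝ} (hw : Wts w) (i j : ℕ) (ω : X) :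
    HasSum (fun u : ℕ × ℕ => w u * co u.1 (Finsupp.single i u.2 + Finsupp.single j u.2) ω)
      (kern w i j ω) :=
  (Summable.of_norm_bounded hw.2.1 fun u => ultra_bd hw u _ ω).hasSum

theorem pair_kern {w : ℕ × ℕ → ℝ} (hw : Wts w) : Pair (kern w) := by
  refine ⟨fun i j => ?_, fun i j ω => ?_, fun e i j ω => ?_, fun n i j ω hi hj => ?_,
    fun i j ω => ?_⟩
  · have hc : Continuous (kern w i j) :=
      continuous_tsum (u := w) (fun u => continuous_const.mul (continuous_co _ _)) hw.2.1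
        fun u ω => ultra_bd hw u _ ω
    exact hc.measurable
  · unfold kern
    exact tsum_congr fun u => by rw [add_comm]
  · unfold kern
    exact tsum_congr fun u => by
      rw [co_act, Finsupp.mapDomain_add, Finsupp.mapDomain_single, Finsupp.mapDomain_single]
  · unfold kern
    exact tsum_congr fun u => by rw [co_res (ultra_supp hi hj)]
  · have h1 := tsum_of_norm_bounded hw.2.1.hasSum fun u : ℕ × ℕ =>
      ultra_bd hw u (Finsupp.single i u.2 + Finsupp.single j u.2) ω
    rw [Real.norm_eq_abs] at h1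
    exact h1.trans hw.2.2

theorem pair_Rt : Pair Rt := pair_kern wts_w0

theorem pair_co (s a : ℕ) :
    Pair fun i j ω => co s (Finsupp.single i a + Finsupp.single j a) ω := by
  refine ⟨fun i j => measurable_co _ _, fun i j ω => ?_, fun e i j ω => ?_,
    fun n i j ω hi hj => co_res (ultra_supp hi hj) ω, fun i j ω => abs_co_le _ _ _⟩
  · show co s _ ω = co s _ ω
    rw [add_comm]
  · show co s _ _ = co s _ ω
    rw [co_act, Finsupp.mapDomain_add, Finsupp.mapDomain_single, Finsupp.mapDomain_single]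

theorem ultra_QF {w : ℕ × ℕ → ℝ} (hw : Wts w) {ω : X} (hω : Good ω) (G : Finset ℕ) (η : ℕ → ℝ)
    (t : ℝ) (hG : Disjoint (Finset.range 1) G) (hη : ∀ l, |η l| ≤ 1) :
    0 ≤ QF (fun l => kern w 0 l ω) (fun l l' => kern w l l' ω) G η t := by
  have h1 : HasSum (fun u : ℕ × ℕ => ∑ l ∈ G,
      η l * (w u * co u.1 (Finsupp.single 0 u.2 + Finsupp.single l u.2) ω))
      (∑ l ∈ G, η l * kern w 0 l ω) :=
    hasSum_sum fun l _ => (ultra_hasSum hw 0 l ω).mul_left _
  have h2 : HasSum (fun u : ℕ × ℕ => ∑ q ∈ G.offDiag,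
      η q.1 * η q.2 * (w u * co u.1 (Finsupp.single q.1 u.2 + Finsupp.single q.2 u.2) ω))
      (∑ q ∈ G.offDiag, η q.1 * η q.2 * kern w q.1 q.2 ω) :=
    hasSum_sum fun q _ => (ultra_hasSum hw q.1 q.2 ω).mul_left _
  have h3 := (hw.2.1.hasSum.mul_right (t ^ 2 + G.card)).add ((h1.mul_left (2 * t)).add h2)
  have h4 := h3.nonneg fun u => by
    have h5 := hω.2.2 u.1 u.2 (Finsupp.single 0 u.2) G η t
      (hG.mono_left (Finsupp.support_single_subset.trans (by simp))) hη
    have h6 := mul_nonneg (hw.1 u) h5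
    refine h6.trans_eq ?_
    have e1 : ∑ l ∈ G, η l * (w u * co u.1 (Finsupp.single 0 u.2 + Finsupp.single l u.2) ω) =
        w u * ∑ l ∈ G, η l * co u.1 (Finsupp.single 0 u.2 + Finsupp.single l u.2) ω := by
      rw [Finset.mul_sum]
      exact Finset.sum_congr rfl fun l _ => by ring
    have e2 : ∑ q ∈ G.offDiag,
        η q.1 * η q.2 * (w u * co u.1 (Finsupp.single q.1 u.2 + Finsupp.single q.2 u.2) ω) =
        w u * ∑ q ∈ G.offDiag,
          η q.1 * η q.2 * co u.1 (Finsupp.single q.1 u.2 + Finsupp.single q.2 u.2) ω := by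
      rw [Finset.mul_sum]
      exact Finset.sum_congr rfl fun l _ => by ring
    rw [e1, e2]
    unfold QF
    ring
  have h7 : 0 ≤ (1 - ∑' u, w u) * (t ^ 2 + G.card) :=
    mul_nonneg (sub_nonneg.2 hw.2.2) (by positivity)
  unfold QF
  nlinarith

theorem ultra_perm {i j k : ℕ} (hij : i ≠ j) (hik : i ≠ k) (hjk : j ≠ k) :
    ∃ e : Equiv.Perm ℕ, e 0 = i ∧ e 1 = j ∧ e 2 = k := by
  have hf : Injective (fun a : Fin 3 => (a : ℕ)) := Fin.val_injective
  have hg : Injective (![i, j, k] : Fin 3 → ℕ) := by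
    intro a b hab
    fin_cases a <;> fin_cases b <;> simp_all [eq_comm]
  obtain ⟨e, he⟩ := Equiv.Perm.exists_extending_pair _ _ hf hg
  exact ⟨e, he 0, he 1, he 2⟩

theorem ultra_base (h : Str ν) {w : ℕ × ℕ → ℝ} (hw : Wts w) :
    ∀ᵐ ω ∂ν, kern w 1 0 ω ≤ kern w 1 2 ω → kern w 2 0 ω ≤ kern w 1 2 ω →
      kern w 0 1 ω = kern w 0 2 ω := by
  have hP := pair_kern hw
  have h1 := lemD h hP (p := 1) le_rfl (x := fun l => kern w 0 l) (fun l => hP.1 0 l)
    (fun e he l ω => by
      show kern w 0 l _ = kern w 0 (e l) ω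
      rw [hP.2.2.1, he 0 one_pos])
    (fun n l ω hn hl => hP.2.2.2.1 n 0 l ω hn hl)
    (h.2.2.1.mono fun ω hω G η t hG hη => ultra_QF hw hω G η t hG hη)
  refine h1.mono fun ω hω ha hb => ?_
  have h2 := hω (kern w 1 2 ω) (kern w 1 2 ω)
    (fun i hi => by
      obtain rfl : i = 0 := by omega
      exact ha) le_rfl
    (fun i hi => by
      obtain rfl : i = 0 := by omega
      exact hb) le_rfl
  have h3 : (kern w 0 1 ω - kern w 0 2 ω) ^ 2 ≤ 0 := by
    refine h2.trans_eq ?_
    show kern w 1 2 ω + kern w 1 2 ω - 2 * kern w 1 2 ω = 0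
    ring
  have h4 := pow_eq_zero_iff (two_ne_zero) |>.1 (le_antisymm h3 (sq_nonneg _))
  linarith

theorem ultra (h : Str ν) {w : ℕ × ℕ → ℝ} (hw : Wts w) :
    ∀ᵐ ω ∂ν, ∀ i j k, i ≠ j → i ≠ k → j ≠ k →
      min (kern w i k ω) (kern w j k ω) ≤ kern w i j ω := by
  have hP := pair_kern hw
  have h1 : ∀ᵐ ω ∂ν, ∀ i j k, i ≠ j → i ≠ k → j ≠ k → kern w j i ω ≤ kern w j k ω →
      kern w k i ω ≤ kern w j k ω → kern w i j ω = kern w i k ω := by
    refine ae_all_iff.2 fun i => ae_all_iff.2 fun j => ae_all_iff.2 fun k => ?_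
    by_cases hc : i ≠ j ∧ i ≠ k ∧ j ≠ k
    · obtain ⟨e, h0, h1, h2⟩ := ultra_perm hc.1 hc.2.1 hc.2.2
      refine (ae_act h e (ultra_base h hw)).mono fun ω hω _ _ _ => ?_
      simp only [hP.2.2.1, h0, h1, h2] at hω
      exact hω
    · exact Eventually.of_forall fun ω a b c => absurd ⟨a, b, c⟩ hc
  refine h1.mono fun ω hω i j k hij hik hjk => ?_
  by_contra hc
  rw [not_le, lt_min_iff] at hc
  have s1 := hP.2.1 i j ω
  have s2 := hP.2.1 i k ω
  have s3 := hP.2.1 j k ω
  rcases le_total (kern w i k ω) (kern w j k ω) with hl | hl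
  · have := hω i j k hij hik hjk (by linarith [hc.2]) (by linarith)
    linarith [hc.1]
  · have := hω j i k hij.symm hjk hik (by linarith [hc.1]) (by linarith)
    linarith [hc.2]

theorem ultra_wts_ite (P : ℕ × ℕ → Prop) [DecidablePred P] :
    Wts fun v => if P v then w0 v else 0 := by
  have h0 : ∀ v, 0 ≤ if P v then w0 v else 0 := fun v => by
    split_ifs
    · exact (ultra_w0_pos v).le
    · exact le_rfl
  have h1 : ∀ v, (if P v then w0 v else 0) ≤ w0 v := fun v => by
    split_ifs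
    · exact le_rfl
    · exact (ultra_w0_pos v).le
  have h2 : Summable fun v => if P v then w0 v else 0 :=
    Summable.of_nonneg_of_le h0 h1 summable_w0.1
  exact ⟨h0, h2, (h2.tsum_le_tsum h1 summable_w0.1).trans summable_w0.2⟩

theorem sync (h : Str ν) (s a : ℕ) :
    ∀ᵐ ω ∂ν, ∀ i j k, i ≠ j → i ≠ k → j ≠ k →
      w0 (s, a) * (co s (Finsupp.single i a + Finsupp.single j a) ω -
        co s (Finsupp.single i a + Finsupp.single k a) ω) ≤ max 0 (Rt i j ω - Rt i k ω) := by
  have hw1 := ultra_wts_ite fun v => v = (s, a)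
  have hw2 := ultra_wts_ite fun v => ¬ v = (s, a)
  have e1 : ∀ i j ω, kern (fun v => if v = (s, a) then w0 v else 0) i j ω =
      w0 (s, a) * co s (Finsupp.single i a + Finsupp.single j a) ω := by
    intro i j ω
    unfold kern
    rw [tsum_eq_single (s, a)]
    · simp
    · intro v hv
      simp [hv]
  have e2 : ∀ i j ω, Rt i j ω = kern (fun v => if v = (s, a) then w0 v else 0) i j ω +
      kern (fun v => if ¬ v = (s, a) then w0 v else 0) i j ω := by
    intro i j ω
    refine (ultra_hasSum wts_w0 i j ω).unique ?_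
    have h1 := (ultra_hasSum hw1 i j ω).add (ultra_hasSum hw2 i j ω)
    refine h1.congr_fun ?_
    intro v
    by_cases hv : v = (s, a) <;> simp [hv]
  have hP1 := pair_kern hw1
  have hP2 := pair_kern hw2
  filter_upwards [ultra h hw1, ultra h hw2, ultra h wts_w0] with ω u1 u2 u3 i j k hij hik hjk
  rw [mul_sub, ← e1, ← e1]
  have a1 := u1 i k j hik hij hjk.symm
  have a2 := u2 i j k hij hik hjk
  have a3 : min (Rt j i ω) (Rt k i ω) ≤ Rt j k ω := u3 j k i hjk hij.symm hik.symm
  rw [pair_Rt.2.1 j i, pair_Rt.2.1 k i] at a3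
  rw [hP1.2.1 k j] at a1
  simp only [e2] at a3 ⊢
  by_contra hc
  rw [not_le, max_lt_iff] at hc
  obtain ⟨c1, c2⟩ := hc
  rcases min_le_iff.1 a1 with b1 | b1
  · linarith
  rcases min_le_iff.1 a2 with b2 | b2
  · linarith
  rcases min_le_iff.1 a3 with b3 | b3 <;> linarith

theorem holder (h : Str ν) {p : ℕ} (hp : 1 ≤ p) (s a : ℕ) {c : ℕ →₀ ℕ}
    (hc : ∀ l ∈ c.support, l < p) :
    ∃ L : ℝ, 0 ≤ L ∧ ∀ᵐ ω ∂ν, ∀ δ : ℝ, (∀ i < p, |Rt p i ω - Rt (p + 1) i ω| ≤ δ) →
      (co s (c + Finsupp.single p a) ω - co s (c + Finsupp.single (p + 1) a) ω) ^ 2 ≤ L * δ := by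
  have hw := ultra_w0_pos (s, a)
  have hP := pair_co s a
  refine ⟨2 / w0 (s, a), by positivity, ?_⟩
  have h1 := lemD h hP hp (x := fun l => co s (c + Finsupp.single l a))
    (fun l => measurable_co _ _)
    (fun e he l ω => by
      show co s _ _ = co s _ ω
      have e1 : Finsupp.mapDomain e c = c := by
        rw [Finsupp.mapDomain_congr (g := id) fun i hi => he i (hc i hi), Finsupp.mapDomain_id]
      rw [co_act, Finsupp.mapDomain_add, Finsupp.mapDomain_single, e1])
    (fun n l ω hn hl => co_res (fun i hi => by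
      rcases Finset.mem_union.1 (Finsupp.support_add hi) with h2 | h2
      · exact (hc i h2).trans_le hn
      · have := Finsupp.support_single_subset h2
        rw [Finset.mem_singleton] at this
        omega) ω)
    (h.2.2.1.mono fun ω hω G η t hG hη => hω.2.2 s a c G η t
      (hG.mono_left fun i hi => Finset.mem_range.2 (hc i hi)) hη)
  filter_upwards [h1, sync h s a, ultra h wts_w0] with ω hω hs hu δ hδ
  have hδ0 : 0 ≤ δ := (abs_nonneg _).trans (hδ 0 hp)
  have hd : 0 ≤ δ / w0 (s, a) := by positivity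
  have key : ∀ x y : ℝ, w0 (s, a) * (x - y) ≤ δ → x ≤ y + δ / w0 (s, a) := by
    intro x y hxy
    have : x - y ≤ δ / w0 (s, a) := by
      rw [le_div_iff₀ hw]
      linarith
    linarith
  have hsym : co s (Finsupp.single (p + 1) a + Finsupp.single p a) ω =
      co s (Finsupp.single p a + Finsupp.single (p + 1) a) ω := by rw [add_comm]
  have h2 := hω (co s (Finsupp.single p a + Finsupp.single (p + 1) a) ω + δ / w0 (s, a))
    (co s (Finsupp.single p a + Finsupp.single (p + 1) a) ω + δ / w0 (s, a))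
    (fun i hi => by
      refine key _ _ ((hs p i (p + 1) (by omega) (by omega) (by omega)).trans (max_le hδ0 ?_))
      have a1 : min (Rt p i ω) (Rt (p + 1) i ω) ≤ Rt p (p + 1) ω :=
        hu p (p + 1) i (by omega) (by omega) (by omega)
      have a2 := abs_le.1 (hδ i hi)
      rcases min_le_iff.1 a1 with b | b <;> linarith [a2.1, a2.2])
    (le_add_of_nonneg_right hd)
    (fun i hi => by
      rw [← hsym]
      refine key _ _ ((hs (p + 1) i p (by omega) (by omega) (by omega)).trans (max_le hδ0 ?_))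
      have a1 : min (Rt p i ω) (Rt (p + 1) i ω) ≤ Rt p (p + 1) ω :=
        hu p (p + 1) i (by omega) (by omega) (by omega)
      have a2 := abs_le.1 (hδ i hi)
      rw [pair_Rt.2.1 (p + 1) p]
      rcases min_le_iff.1 a1 with b | b <;> linarith [a2.1, a2.2])
    (le_add_of_nonneg_right hd)
  refine h2.trans_eq ?_
  ring

end Vale.Agent.P168
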