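import Vale.Agent.P168.End0
import Vale.Agent.P168.End1
import Vale.Agent.P168.EndV
import Vale.Agent.P168.Approx

/-! P168 Upper: the interpolation bound. -/

open MeasureTheory ProbabilityTheory Function Filter Topology
open scoped BigOperators

noncomputable section

namespace Vale.Agent.P168

theorem upper_fin {K N r : ℕ} {A : Type} [Fintype A] (hK : 1 ≤ K) (he : Even K) (hN : 1 ≤ N)
    {Q : Measure (Par K)} {Ph : Measure ℝ} (hM : Model K Q Ph) (hP : Positive K Q) {lam : ℝ}
    (hlam : 0 ≤ lam) {μ : A → ℝ} (hμ : IsPr μ) {m : Fin r → ℝ} (hm : Adm m)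
    {x : (Fin (r + 1) → A) → ℝ} (hx : ∀ w, |x w| ≤ 1) :
    pressure K lam Q Ph N ≤ val K lam Q Ph (Efin K μ m x) := by
  have hK0 : (0 : ℝ) < K := by exact_mod_cast hK
  have hN0 : (0 : ℝ) < N := by exact_mod_cast hN
  have ha : 0 ≤ lam * K * N := by positivity
  have h1 := end_one hK hN hM hlam hμ hm hx
  have h0 := end_zero hK hN hM hlam hμ hm hx
  have hV := gval_V hM ((K - 1) * lam) hμ hm hx
  set c : ℝ := (K - 1) / K * vval K Q μ m x with hc
  have hl1 := lin_hybI hK hN hM hμ hm hx (fun k => k)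
  have hl0 := lin_hybI hK hN hM hμ hm hx (fun _ => 0)
  have hlc : Lin fun k : ℕ => c * (k : ℝ) := lin_id.const_mul c
  have hle : pois (lam * K * N) (fun k => hybI K N Q Ph μ m x k k) ≤
      pois (lam * K * N) (fun k => hybI K N Q Ph μ m x k 0 - c * (k : ℝ)) := by
    refine pois_mono ha hl1 (hl0.sub hlc) fun k => ?_
    have := hyb_total hK he hN hM hP hμ hm hx k
    rw [← hc] at this
    linarith
  rw [pois_sub ha hl0 hlc, pois_const_mul, pois_id, h1, h0] at hle
  have hce : c * (lam * K * N) = N * ((K - 1) * lam * vval K Q μ m x) := by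
    rw [hc]; field_simp
  rw [hce] at hle
  unfold val
  rw [hV]
  have : (N : ℝ) * pressure K lam Q Ph N ≤
      N * (Gval (K * lam) (kU K Q Ph) (Efin K μ m x) - (K - 1) * lam * vval K Q μ m x) := by
    linarith
  exact le_of_mul_le_mul_left this hN0

theorem upper {K N : ℕ} (hK : 1 ≤ K) (he : Even K) (hN : 1 ≤ N) {Q : Measure (Par K)}
    {Ph : Measure ℝ} (hM : Model K Q Ph) (hP : Positive K Q) {lam : ℝ} (hlam : 0 ≤ lam) {v : ℝ}
    (hv : v ∈ trials K lam Q Ph) : pressure K lam Q Ph N ≤ v := by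
  obtain ⟨r, m, x, hm1, hm2, hxm, hx, rfl⟩ := hv
  have hm : Adm m := ⟨hm1, hm2⟩
  rw [trial_eq_val hK lam hM hm hxm hx]
  refine le_of_forall_pos_le_add fun ε hε => ?_
  obtain ⟨M, μ, x', hμ, hx', hle⟩ := fin_approx hK hlam hM hm hxm hx hε
  have h1 := upper_fin hK he hN hM hP hlam hμ hm hx'
  have h2 := abs_le.1 hle
  linarith [h2.1]

end Vale.Agent.P168
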