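import Vale.Agent.P168.FinTSlot
import Vale.Agent.P168.HistB

/-! P168 Wt: the kernels `ker` and the weights `wt`.
Plan. `ker_top`: only `w' = w` contributes and the product is empty. `ker_step`: for `p < r`,
`q = p + 1`, the only `u` with a nonzero term is `u = w' q`; use `DepLe` to replace
`W q (update w q u)` by `W q w'`, and split the filter `p < ·` as `insert q (q < ·)`.
`sum_ker`: downward induction with `NormW`. `sum_wt_succ`: reindex by `Fin.snocEquiv` (or
`Fin.insertNthEquiv _ (Fin.last _)`), `Fin.init_snoc`, `Fin.snoc_last`.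
`sum_wt_zero`: `Fintype.sum_equiv (Equiv.funUnique _ _)`. `sum_first`: compare with
`∑ w, cw μ w * ker μ W 0 w w'`: only the level 0 coordinate of `w` matters.
`wt_factor`, `wt_cw`: induction on the history; `ker (cw μ) 1 p w w' = ∏ j, ker μ 1 p (w · j) (w' · j)`
(`Finset.prod_comm`, the indicator of a conjunction is the product of indicators, `funext_iff`).
`wt_slot`: by `wt_factor`, `wt_cw`, the weight is `cw (wt μ 1 h)` of the transposed variable
`j ↦ (fun l p => v l p j)` times a factor that depends only on slots outside `S`; apply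
`sum_cw_indep` with alphabet `Fin (n+1) → Fin (r+1) → A` after reindexing the sum by the
transposition equivalence. -/

open MeasureTheory ProbabilityTheory Function Filter Topology
open scoped BigOperators

noncomputable section

namespace Vale.Agent.P168

variable {r : ℕ} {B : Type} [Fintype B]

theorem ker_nonneg {μ : B → ℝ} (hμ : IsPr μ) {W : ℕ → (Fin (r + 1) → B) → ℝ} (hW : NormW μ W)
    (p : ℕ) (w w' : Fin (r + 1) → B) : 0 ≤ ker μ W p w w' := by
  unfold ker
  refine mul_nonneg ?_ (Finset.prod_nonneg fun q _ => mul_nonneg (hμ.1 _) (hW.1 _ _))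
  split_ifs
  · exact zero_le_one
  · exact le_rfl

theorem ker_top (μ : B → ℝ) (W : ℕ → (Fin (r + 1) → B) → ℝ) {p : ℕ} (hp : r ≤ p)
    (w : Fin (r + 1) → B) (F : (Fin (r + 1) → B) → ℝ) : ∑ w', ker μ W p w w' * F w' = F w := by
  have h0 : Finset.univ.filter (fun q : Fin (r + 1) => p < (q : ℕ)) = ∅ := by
    refine Finset.filter_eq_empty_iff.2 fun q _ => ?_
    have := q.2
    omega
  rw [Finset.sum_eq_single w]
  · unfold ker
    rw [h0, if_pos fun _ _ => rfl]
    simp
  · intro w' _ hw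
    unfold ker
    rw [if_neg, zero_mul, zero_mul]
    intro h
    refine hw (funext fun q => h q ?_)
    have := q.2
    omega
  · intro h; exact absurd (Finset.mem_univ _) h

theorem ker_step (μ : B → ℝ) {W : ℕ → (Fin (r + 1) → B) → ℝ} (hW : ∀ q, DepLe q (W q)) {p : ℕ}
    (hp : p < r) (w : Fin (r + 1) → B) (F : (Fin (r + 1) → B) → ℝ) :
    ∑ w', ker μ W p w w' * F w' =
      ∑ u, μ u * W (p + 1) (update w (Fin.succ ⟨p, hp⟩) u) *
        ∑ w', ker μ W (p + 1) (update w (Fin.succ ⟨p, hp⟩) u) w' * F w' := by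
  set q : Fin (r + 1) := Fin.succ ⟨p, hp⟩ with hq
  have hqv : (q : ℕ) = p + 1 := rfl
  simp only [Finset.mul_sum]
  rw [Finset.sum_comm]
  refine Finset.sum_congr rfl fun w' _ => ?_
  have hf : Finset.univ.filter (fun q' : Fin (r + 1) => p < (q' : ℕ)) =
      insert q (Finset.univ.filter fun q' : Fin (r + 1) => p + 1 < (q' : ℕ)) := by
    ext q'
    simp only [Finset.mem_filter, Finset.mem_univ, true_and, Finset.mem_insert, Fin.ext_iff, hqv]
    omega
  have hn : q ∉ Finset.univ.filter fun q' : Fin (r + 1) => p + 1 < (q' : ℕ) := by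
    simp only [Finset.mem_filter, Finset.mem_univ, true_and, hqv]
    omega
  rw [Finset.sum_eq_single (w' q)]
  · unfold ker
    by_cases hc : ∀ q' : Fin (r + 1), (q' : ℕ) ≤ p → w' q' = w q'
    · have hc' : ∀ q' : Fin (r + 1), (q' : ℕ) ≤ p + 1 → w' q' = update w q (w' q) q' := by
        intro q' hq'
        by_cases e : q' = q
        · subst e; rw [update_self]
        · rw [update_of_ne e]
          refine hc q' ?_
          have : (q' : ℕ) ≠ p + 1 := fun h => e (Fin.ext (h.trans hqv.symm))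
          omega
      have hW' : W (p + 1) (update w q (w' q)) = W (p + 1) w' :=
        hW (p + 1) _ _ fun q' hq' => (hc' q' hq').symm
      rw [if_pos hc, if_pos hc', hf, Finset.prod_insert hn, hW', hqv]
      ring
    · rw [if_neg hc, if_neg]
      · ring
      · intro hc'
        refine hc fun q' hq' => ?_
        have e : q' ≠ q := fun h => by rw [h, hqv] at hq'; omega
        rw [hc' q' (by omega), update_of_ne e]
  · intro u _ hu
    unfold ker
    rw [if_neg]
    · ring
    · intro hc'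
      refine hu ?_
      rw [hc' q hqv.le, update_self]
  · intro h; exact absurd (Finset.mem_univ _) h

theorem sum_ker {μ : B → ℝ} {W : ℕ → (Fin (r + 1) → B) → ℝ} (hW : NormW μ W)
    (p : ℕ) (w : Fin (r + 1) → B) : ∑ w', ker μ W p w w' = 1 := by
  have key : ∀ k p, r ≤ p + k → ∀ w, ∑ w', ker μ W p w w' * 1 = 1 := by
    intro k
    induction k with
    | zero => intro p hp w; exact ker_top μ W hp w fun _ => 1
    | succ k ih =>
      intro p hp w
      by_cases h : p < r
      · rw [ker_step μ hW.2.1 h w fun _ => 1]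
        simp only [ih (p + 1) (by omega)]
        simp only [mul_one]
        exact hW.2.2 (Fin.succ ⟨p, h⟩) w (Nat.succ_pos p)
      · exact ker_top μ W (by omega) w fun _ => 1
  simpa using key r p (by omega) w

theorem sum_wt_zero (μ : B → ℝ) (W : ℕ → (Fin (r + 1) → B) → ℝ) (h : Hist r 0)
    (F : (Fin 1 → Fin (r + 1) → B) → ℝ) :
    ∑ v, wt μ W h v * F v = ∑ w, μ (w 0) * ker μ W 0 w w * F fun _ => w := by
  refine Fintype.sum_equiv (Equiv.funUnique (Fin 1) (Fin (r + 1) → B)) _ _ fun v => ?_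
  have hv : v = fun _ => v 0 := funext fun i => by rw [Subsingleton.elim i 0]
  show μ (v 0 0) * ker μ W 0 (v 0) (v 0) * F v =
    μ (v 0 0) * ker μ W 0 (v 0) (v 0) * F fun _ => v 0
  rw [← hv]

theorem sum_first {μ : B → ℝ} (hμ : IsPr μ) (W : ℕ → (Fin (r + 1) → B) → ℝ)
    (F : (Fin (r + 1) → B) → ℝ) :
    ∑ w, μ (w 0) * ker μ W 0 w w * F w = ∑ w, cw μ w * ∑ w', ker μ W 0 w w' * F w' := by
  classical
  simp only [Finset.mul_sum]
  rw [Finset.sum_comm]
  refine Finset.sum_congr rfl fun w' _ => ?_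
  have h1 := sum_cw_indep (ι := Fin (r + 1)) hμ {0} (fun _ => 1) (fun _ _ _ => rfl)
    (fun _ a => if w' 0 = a then 1 else 0)
  simp only [Finset.prod_singleton, one_mul, mul_one, (isPr_cw (ι := Fin (r + 1)) hμ).2, mul_ite,
    mul_zero, Finset.sum_ite_eq, Finset.mem_univ, if_true] at h1
  have h2 : ∀ w : Fin (r + 1) → B, cw μ w * (ker μ W 0 w w' * F w') =
      (if w' 0 = w 0 then cw μ w else 0) * (ker μ W 0 w' w' * F w') := by
    intro w
    unfold ker
    rw [if_pos (show ∀ q : Fin (r + 1), (q : ℕ) ≤ 0 → w' q = w' q from fun _ _ => rfl)]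
    by_cases e : w' 0 = w 0
    · rw [if_pos e, if_pos]
      intro q hq
      have : q = 0 := Fin.ext (Nat.le_zero.1 hq)
      rw [this, e]
    · rw [if_neg e, if_neg fun h => e (h 0 le_rfl)]
      ring
  rw [Finset.sum_congr rfl fun w _ => h2 w, ← Finset.sum_mul, h1, mul_assoc]

theorem sum_wt_succ (μ : B → ℝ) (W : ℕ → (Fin (r + 1) → B) → ℝ) {n : ℕ} (h : Hist r n)
    (l : Fin (n + 1)) (p : Fin (r + 1)) (F : (Fin (n + 2) → Fin (r + 1) → B) → ℝ) :
    ∑ v, wt μ W (n := n + 1) (h, l, p) v * F v =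
      ∑ v, wt μ W h v * ∑ w', ker μ W p (v l) w' *
        F (Fin.snoc (α := fun _ => Fin (r + 1) → B) v w') := by
  rw [← (Fin.snocEquiv fun _ : Fin (n + 2) => Fin (r + 1) → B).sum_comp, Fintype.sum_prod_type,
    Finset.sum_comm]
  refine Finset.sum_congr rfl fun v _ => ?_
  rw [Finset.mul_sum]
  refine Finset.sum_congr rfl fun w' _ => ?_
  show wt μ W h (Fin.init (Fin.snoc (α := fun _ => Fin (r + 1) → B) v w')) *
    ker μ W p (Fin.init (Fin.snoc (α := fun _ => Fin (r + 1) → B) v w') l)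
      (Fin.snoc (α := fun _ => Fin (r + 1) → B) v w' (Fin.last (n + 1))) *
      F (Fin.snoc (α := fun _ => Fin (r + 1) → B) v w') = _
  rw [Fin.init_snoc, Fin.snoc_last, mul_assoc]

theorem wt_nonneg {μ : B → ℝ} (hμ : IsPr μ) {W : ℕ → (Fin (r + 1) → B) → ℝ} (hW : NormW μ W)
    {n : ℕ} (h : Hist r n) (v : Fin (n + 1) → Fin (r + 1) → B) : 0 ≤ wt μ W h v := by
  induction n with
  | zero => exact mul_nonneg (hμ.1 _) (ker_nonneg hμ hW _ _ _)
  | succ n ih => exact mul_nonneg (ih _ _) (ker_nonneg hμ hW _ _ _)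

theorem isPr_wt {μ : B → ℝ} (hμ : IsPr μ) {W : ℕ → (Fin (r + 1) → B) → ℝ} (hW : NormW μ W)
    {n : ℕ} (h : Hist r n) : IsPr (wt μ W h) := by
  refine ⟨wt_nonneg hμ hW h, ?_⟩
  induction n with
  | zero =>
    have h1 := sum_wt_zero μ W h fun _ => 1
    have h2 := sum_first hμ W fun _ => 1
    simp only [mul_one, sum_ker hW] at h1 h2
    rw [h1, h2]
    exact (isPr_cw hμ).2
  | succ n ih =>
    obtain ⟨h, l, p⟩ := h
    have h1 := sum_wt_succ μ W h l p fun _ => 1
    simp only [mul_one, sum_ker hW] at h1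
    exact h1.trans (ih h)

omit [Fintype B] in
theorem wt_ker_factor (μ : B → ℝ) (W : ℕ → (Fin (r + 1) → B) → ℝ) (p : ℕ)
    (w w' : Fin (r + 1) → B) : ker μ W p w w' = ker μ (fun _ _ => 1) p w w' *
      ∏ q ∈ Finset.univ.filter (fun q : Fin (r + 1) => p < (q : ℕ)), W q w' := by
  unfold ker
  simp only [mul_one, Finset.prod_mul_distrib, mul_assoc]

theorem wt_factor (μ : B → ℝ) (W : ℕ → (Fin (r + 1) → B) → ℝ) {n : ℕ} (h : Hist r n)
    (v : Fin (n + 1) → Fin (r + 1) → B) :
    wt μ W h v = wt μ (fun _ _ => 1) h v *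
      ∏ l, ∏ q ∈ Finset.univ.filter (fun q : Fin (r + 1) => lev h l < (q : ℕ)), W q (v l) := by
  induction n with
  | zero =>
    show μ (v 0 0) * ker μ W 0 (v 0) (v 0) = μ (v 0 0) * ker μ (fun _ _ => 1) 0 (v 0) (v 0) * _
    rw [wt_ker_factor, Fin.prod_univ_succ, Fin.prod_univ_zero, mul_one, mul_assoc]
    rfl
  | succ n ih =>
    obtain ⟨h, l, p⟩ := h
    show wt μ W h (Fin.init v) * ker μ W p (Fin.init v l) (v (Fin.last (n + 1))) =
      wt μ (fun _ _ => 1) h (Fin.init v) *
        ker μ (fun _ _ => 1) p (Fin.init v l) (v (Fin.last (n + 1))) * _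
    rw [wt_ker_factor, ih h, Fin.prod_univ_castSucc (n := n + 1)]
    simp only [histB_lev_last, histB_lev_cast, Fin.init]
    ring

variable {A J : Type} [Fintype A] [Fintype J] [DecidableEq J]

omit [Fintype A] [DecidableEq J] in
theorem wt_ker_cw (μ : A → ℝ) (p : ℕ) (w w' : Fin (r + 1) → J → A) :
    ker (cw μ) (fun _ _ => 1) p w w' =
      ∏ j, ker μ (fun _ _ => 1) p (fun q => w q j) (fun q => w' q j) := by
  unfold ker
  simp only [mul_one, Finset.prod_mul_distrib]
  congr 1
  · by_cases hc : ∀ q : Fin (r + 1), (q : ℕ) ≤ p → w' q = w q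
    · rw [if_pos hc]
      refine (Finset.prod_eq_one fun j _ => if_pos fun q hq => ?_).symm
      rw [hc q hq]
    · rw [if_neg hc]
      by_contra hne
      refine hc fun q hq => funext fun j => ?_
      by_contra hj
      refine hne (Finset.prod_eq_zero (Finset.mem_univ j) (if_neg fun h => hj (h q hq))).symm
  · unfold cw
    exact Finset.prod_comm

theorem wt_cw (μ : A → ℝ) {n : ℕ} (h : Hist r n) (v : Fin (n + 1) → Fin (r + 1) → J → A) :
    wt (cw μ) (fun _ _ => 1) h v = ∏ j, wt μ (fun _ _ => 1) h fun l p => v l p j := by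
  induction n with
  | zero =>
    show cw μ (v 0 0) * ker (cw μ) (fun _ _ => 1) 0 (v 0) (v 0) =
      ∏ j, μ (v 0 0 j) * ker μ (fun _ _ => 1) 0 (fun p => v 0 p j) (fun p => v 0 p j)
    rw [wt_ker_cw, Finset.prod_mul_distrib]
    rfl
  | succ n ih =>
    obtain ⟨h, l, p⟩ := h
    show wt (cw μ) (fun _ _ => 1) h (Fin.init v) *
        ker (cw μ) (fun _ _ => 1) p (Fin.init v l) (v (Fin.last (n + 1))) =
      ∏ j, wt μ (fun _ _ => 1) h (fun l p => Fin.init v l p j) *
        ker μ (fun _ _ => 1) p (fun q => Fin.init v l q j) (fun q => v (Fin.last (n + 1)) q j)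
    rw [wt_ker_cw, Finset.prod_mul_distrib, ih h]

theorem wt_slot {μ : A → ℝ} (hμ : IsPr μ) {W : ℕ → (Fin (r + 1) → J → A) → ℝ} (S : Finset J)
    (hW : ∀ q, SlotDep (S : Set J)ᶜ (W q)) {n : ℕ} (h : Hist r n)
    (F : (Fin (n + 1) → Fin (r + 1) → J → A) → ℝ)
    (hF : ∀ v v', (∀ l p, ∀ j ∉ S, v l p j = v' l p j) → F v = F v')
    (g : J → (Fin (n + 1) → Fin (r + 1) → A) → ℝ) :
    ∑ v, wt (cw μ) W h v * (F v * ∏ j ∈ S, g j fun l p => v l p j) =
      (∑ v, wt (cw μ) W h v * F v) * ∏ j ∈ S, ∑ u, wt μ (fun _ _ => 1) h u * g j u := by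
  let e : (Fin (n + 1) → Fin (r + 1) → J → A) ≃ (J → Fin (n + 1) → Fin (r + 1) → A) :=
    ⟨fun v j l p => v l p j, fun x l p j => x j l p, fun _ => rfl, fun _ => rfl⟩
  let G : (J → Fin (n + 1) → Fin (r + 1) → A) → ℝ := fun x =>
    (∏ l, ∏ q ∈ Finset.univ.filter (fun q : Fin (r + 1) => lev h l < (q : ℕ)),
      W q fun p j => x j l p) * F fun l p j => x j l p
  have hG : ∀ x x', (∀ j ∉ S, x j = x' j) → G x = G x' := by
    intro x x' hx
    have h1 : (F fun l p j => x j l p) = F fun l p j => x' j l p :=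
      hF _ _ fun l p j hj => by rw [hx j hj]
    have h2 : ∀ q l, (W q fun p j => x j l p) = W q fun p j => x' j l p := fun q l =>
      hW q _ _ fun p j hj => by rw [hx j hj]
    simp only [G, h1, h2]
  have h1 := sum_cw_indep (isPr_wt hμ (normW_one hμ) h) S G hG g
  rw [← e.sum_comp, ← e.sum_comp] at h1
  have h2 : ∀ v, wt (cw μ) W h v * F v = cw (wt μ (fun _ _ => 1) h) (e v) * G (e v) := by
    intro v
    rw [wt_factor, wt_cw, mul_assoc]
    rfl
  simp only [← mul_assoc, h2] at h1 ⊢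
  exact h1

end Vale.Agent.P168
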